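import Vale.Agent.P229.BootBase

/-
P229: middle phase of the bootstrap.  Bounds left of an edge propagate through the core and
give sup bounds of all orders at most `N - 2` around the origin.
-/

namespace Vale.Agent.P229
namespace Boot

open MeasureTheory Set
open scoped ContDiff

namespace Middle

variable {L : ℕ → ℝ} {N : ℕ} {δ η0 θ0 c0 η1 S lam0 θc : ℝ} {D : Dt}

lemma pow_sq_le (h : D.Adm L N δ η0 η1 S lam0) {k : ℕ} (hk : k ≤ N) (z : P2) :
    blobInd D.lam z * (D.s * D.lam ^ k) ^ 2 ≤ S ^ 2 := by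
  have h0 : 0 ≤ D.s * D.lam ^ k :=
    mul_nonneg h.s_nonneg (pow_nonneg (zero_le_one.trans h.one_le_lam) k)
  have h1 : D.s * D.lam ^ k ≤ S :=
    (mul_le_mul_of_nonneg_left (pow_le_pow_right₀ h.one_le_lam hk) h.s_nonneg).trans h.top
  exact (mul_le_of_le_one_left (sq_nonneg _) (blobInd_range _ z).2).trans
    (pow_le_pow_left₀ h0 h1 2)

lemma int_affine {f g : P2 → ℝ} {A B : ℝ} {T : Set P2} (hT : T ⊆ Big) (hTm : MeasurableSet T)
    (hf : Continuous f) (hg : Continuous g) (h : ∀ z ∈ T, f z ≤ A + B * g z) :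
    ∫ z in T, f z ≤ 36 * |A| + B * ∫ z in T, g z := by
  have i1 : IntegrableOn (fun _ : P2 => A) T := integ continuous_const hT
  have i2 : IntegrableOn (fun z => B * g z) T := integ (by fun_prop) hT
  refine (setIntegral_mono_on (integ hf hT) (i1.add i2) hTm h).trans ?_
  simp only [Pi.add_apply]
  rw [integral_add i1 i2, setIntegral_const, smul_eq_mul, integral_const_mul]
  refine add_le_add (le_trans ?_ (mul_le_mul_of_nonneg_right (vol_le_big hT) (abs_nonneg A))) le_rfl
  exact mul_le_mul_of_nonneg_left (le_abs_self A) measureReal_nonneg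

/-- Sup bounds of `q` follow from sup bounds of `x`. -/
lemma q_sup (hk : Kit L N δ η0 θ0 c0) (η1 S : ℝ) (hN : 40 ≤ N) : ∀ m ≤ N - 1, ∀ M : ℝ, ∃ C : ℝ,
    ∀ (D : Dt) (lam0 : ℝ), D.Adm L N δ η0 η1 S lam0 → ∀ z ∈ Box,
      (∀ i ≤ m, ‖iteratedFDeriv ℝ i D.x z‖ ≤ M) → D.Sup m C z := by
  intro m
  induction m with
  | zero =>
    intro _ M
    exact ⟨δ + 4, fun D lam0 hD z hz _ => (base_sup hD hz).mono (by norm_num) le_rfl⟩
  | succ n ih =>
    intro hn M
    by_cases h15 : n + 1 ≤ 15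
    · exact ⟨δ + 4, fun D lam0 hD z hz _ => (base_sup hD hz).mono h15 le_rfl⟩
    obtain ⟨C, hC⟩ := ih (by omega) M
    obtain ⟨Cp, hCp0, hp⟩ := hk.point n (by omega) (by omega) C
    refine ⟨max (max C M) (1 + Cp * (1 + (n + 2 : ℕ) * M ^ 2 + S ^ 2)), fun D lam0 hD z hz hx i hi => ?_⟩
    have hS' := hC D lam0 hD z hz fun k hk => hx k (by omega)
    rcases hi.eq_or_lt with rfl | hlt
    · refine ⟨(hx _ le_rfl).trans ((le_max_right _ _).trans (le_max_left _ _)),
        le_trans ?_ (le_max_right _ _)⟩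
      refine le_one_add_of_sq_le ((hp D η1 S lam0 hD z hz (hS'.mono (by omega) le_rfl)).2.2.trans ?_)
      have he : en D.x (n + 1) z ≤ (n + 2 : ℕ) * M ^ 2 :=
        (Finset.sum_le_card_nsmul _ _ (M ^ 2) fun k hk =>
          pow_le_pow_left₀ (norm_nonneg _) (hx k (by rw [Finset.mem_range] at hk; omega)) 2).trans_eq
          (by rw [Finset.card_range, nsmul_eq_mul])
      have := pow_sq_le hD (show n ≤ N by omega) z
      exact mul_le_mul_of_nonneg_left (by linarith) hCp0
    · exact (hS'.mono (n' := n) le_rfl ((le_max_left _ _).trans (le_max_left _ _))) i (by omega)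

/-- Horizontal step. -/
noncomputable def stp (θc : ℝ) (N : ℕ) : ℝ := θc / (8 * ((N : ℝ) + 10))

/-- Right end of the region of level `15 + m`. -/
noncomputable def edge (θc : ℝ) (N m : ℕ) : ℝ := θc - m * (2 * stp θc N)

/-- Half height of the region of level `15 + m`. -/
noncomputable def hgt (N m : ℕ) : ℝ := 7 / 10 - m * (2 * mesh N)

lemma bounds (hθ : 0 < θc) {m : ℕ} (hm : m ≤ N) :
    3 / 4 * θc ≤ edge θc N m ∧ edge θc N m ≤ θc ∧ 34 / 50 ≤ hgt N m ∧ hgt N m ≤ 7 / 10 ∧
    0 < stp θc N ∧ stp θc N ≤ θc / 80 ∧ 0 < mesh N ∧ mesh N ≤ 1 / 1000 := by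
  have hm' : (m : ℝ) ≤ N := by exact_mod_cast hm
  have hN0 : (0 : ℝ) ≤ N := Nat.cast_nonneg N
  have hm0 : (0 : ℝ) ≤ m := Nat.cast_nonneg m
  have ha : 0 < stp θc N := by unfold stp; positivity
  have hγ : 0 < mesh N := by unfold mesh; positivity
  have ha' : stp θc N ≤ θc / 80 := by
    unfold stp
    rw [div_le_div_iff₀ (by positivity) (by norm_num)]
    nlinarith
  have hγ' : mesh N ≤ 1 / 1000 := by
    unfold mesh
    rw [div_le_div_iff₀ (by positivity) (by norm_num)]
    linarith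
  have hA : ((N : ℝ) + 10) * (2 * stp θc N) = θc / 4 := by unfold stp; field_simp; ring
  have hG : ((N : ℝ) + 10) * (2 * mesh N) = 1 / 50 := by unfold mesh; field_simp; ring
  have h1 : (m : ℝ) * (2 * stp θc N) ≤ θc / 4 :=
    (mul_le_mul_of_nonneg_right (by linarith) (by linarith)).trans_eq hA
  have h2 : (m : ℝ) * (2 * mesh N) ≤ 1 / 50 :=
    (mul_le_mul_of_nonneg_right (by linarith) (by linarith)).trans_eq hG
  have h3 : 0 ≤ (m : ℝ) * (2 * stp θc N) := by positivity
  have h4 : 0 ≤ (m : ℝ) * (2 * mesh N) := by positivity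
  unfold edge hgt
  exact ⟨by linarith, by linarith, by linarith, by linarith, ha, ha', hγ, hγ'⟩

/-- The region of level `15 + m`. -/
def R (θc : ℝ) (N m : ℕ) : Set P2 := rect (-3 * θc) (edge θc N m) (hgt N m)

/-- The energy bound of level `15 + m`. -/
def Lvl (θc : ℝ) (N m : ℕ) (K : ℝ) (D : Dt) : Prop :=
  ∫ z in R θc N m, en D.x (15 + m) z ≤ K

lemma R_big (hθ : 0 < θc) (hθ' : θc ≤ 0.01) {m : ℕ} (hm : m ≤ N) : R θc N m ⊆ Big := by
  obtain ⟨-, e2, -, y2, -⟩ := bounds (N := N) hθ hm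
  exact rect_big (by linarith) (by linarith) (by linarith)

lemma rsq_le {z : P2} (hp : |z.1| ≤ 3 / 100) (hy : |z.2| ≤ 7 / 10) : z ∈ Box ∧ rsq z ≤ 3.4 := by
  have h1 := pow_le_pow_left₀ (abs_nonneg _) hp 2
  have h2 := pow_le_pow_left₀ (abs_nonneg _) hy 2
  rw [sq_abs] at h1 h2
  exact ⟨⟨by linarith, by linarith⟩, by unfold rsq; norm_num at h1 h2 ⊢; linarith⟩

/-- Sup bound of `x` inside the region of a level. -/
lemma x_sup (hs : SobolevSpec) (hθ : 0 < θc) (hθ' : θc ≤ 0.01) (δ CA K : ℝ) (m : ℕ) (hm : m ≤ N) :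
    ∃ M : ℝ, ∀ (D : Dt) (η0 η1 S lam0 : ℝ) (L : ℕ → ℝ), D.Adm L N δ η0 η1 S lam0 →
      AOut N θc CA D → Lvl θc N m K D →
      ∀ z ∈ rect (-3 * θc) (edge θc N m - stp θc N) (hgt N m - mesh N),
        ∀ i, i + 2 ≤ 15 + m ∨ i ≤ 15 → i ≤ N + 3 → ‖iteratedFDeriv ℝ i D.x z‖ ≤ M := by
  obtain ⟨e1, e2, y1, y2, ha, ha', hγ, hγ'⟩ := bounds (N := N) hθ hm
  obtain ⟨C, hC0, hC⟩ := sup_tool hs (min (stp θc N) (mesh N)) (15 + m) (lt_min ha hγ)
  refine ⟨|δ + 4| + |CA| + (1 + C * |K|), fun D η0 η1 S lam0 L hD hA hK z hz i hi hiN => ?_⟩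
  obtain ⟨⟨p1, p2⟩, q1, q2⟩ := hz
  have hp : |z.1| ≤ 3 / 100 := by norm_num at hθ'; rw [abs_le]; constructor <;> linarith
  have hy : |z.2| ≤ 7 / 10 := by rw [abs_le]; constructor <;> linarith
  obtain ⟨hb, hr⟩ := rsq_le hp hy
  have := abs_nonneg (δ + 4)
  have := abs_nonneg CA
  have := mul_nonneg hC0 (abs_nonneg K)
  by_cases h15 : i ≤ 15
  · have := (base_sup hD hb i h15).1
    linarith [le_abs_self (δ + 4)]
  by_cases hl : z.1 ≤ -(5 / 4) * θc
  · have := (hA z hl hr i hiN).1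
    linarith [le_abs_self CA]
  have hi' : i + 2 ≤ 15 + m := hi.resolve_right h15
  have r1 := min_le_left (stp θc N) (mesh N)
  have r2 := min_le_right (stp θc N) (mesh N)
  have h := hC D.x hD.sol.smx z i hi'
  have hsub : Icc (z.1 - min (stp θc N) (mesh N)) (z.1 + min (stp θc N) (mesh N)) ×ˢ
      Icc (z.2 - min (stp θc N) (mesh N)) (z.2 + min (stp θc N) (mesh N)) ⊆ R θc N m :=
    Set.prod_mono (Icc_subset_Icc (by linarith) (by linarith))
      (Icc_subset_Icc (by linarith) (by linarith))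
  have hI := ((int_mono_set (en_cont hD.sol.smx (15 + m)) (en_nonneg _ _) hsub
    (R_big hθ hθ' hm)).trans hK).trans (le_abs_self K)
  have := mul_le_mul_of_nonneg_left hI hC0
  linarith

/-- All levels. -/
lemma levels (hs : SobolevSpec) (hN : 40 ≤ N) (hk : Kit L N δ η0 θ0 c0)
    (hg : Good N θ0 c0 η1 θc) (S CA : ℝ) :
    ∀ m ≤ N - 15, ∃ K : ℝ, ∀ (D : Dt) (lam0 : ℝ), D.Adm L N δ η0 η1 S lam0 →
      AOut N θc CA D → Lvl θc N m K D := by
  have hθ := hg.pos
  have hθ' := hg.le_small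
  intro m
  induction m with
  | zero =>
    intro _
    refine ⟨36 * |(16 : ℕ) * (δ + 4) ^ 2| + 0 * 0, fun D lam0 hD _ => ?_⟩
    have hx := hD.sol.smx
    obtain ⟨e1, e2, y1, y2, -⟩ := bounds (N := N) (m := 0) hθ (Nat.zero_le N)
    refine (int_affine (g := fun _ => 0) (A := (16 : ℕ) * (δ + 4) ^ 2) (B := 0) (R_big hθ hθ' (Nat.zero_le N)) (measurable_rect _ _ _)
      (en_cont hx 15) continuous_const (fun z hz => ?_)).trans (le_of_eq (by simp))
    obtain ⟨⟨p1, p2⟩, q1, q2⟩ := hz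
    norm_num at hθ'
    obtain ⟨hb, -⟩ := rsq_le (z := z) (by rw [abs_le]; constructor <;> linarith)
      (by rw [abs_le]; constructor <;> linarith)
    rw [zero_mul, add_zero]
    exact (Finset.sum_le_card_nsmul _ _ ((δ + 4) ^ 2) fun k hk => pow_le_pow_left₀ (norm_nonneg _)
      ((base_sup hD hb k (by rw [Finset.mem_range] at hk; omega)).1) 2).trans_eq (by simp)
  | succ m ih =>
    intro hm
    obtain ⟨K, hK⟩ := ih (by omega)
    obtain ⟨e1, e2, y1', y2', ha, ha', hγ, hγ'⟩ := bounds (N := N) hθ (show m ≤ N by omega)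
    set a := stp θc N with hadef
    set γ := mesh N with hγdef
    set e := edge θc N m - a with he
    set y2 := hgt N m - γ with hy2
    set y1 := hgt N m - 2 * γ with hy1
    have hes : edge θc N (m + 1) ≤ e - a / 2 ∧ hgt N (m + 1) = y1 := by
      constructor
      · rw [he, edge, edge]; push_cast; linarith
      · rw [hy1, hgt, hgt]; push_cast; ring
    obtain ⟨n, hn⟩ : ∃ n, n = 15 + m := ⟨_, rfl⟩
    obtain ⟨M, hM⟩ := x_sup hs hθ hθ' δ CA K m (show m ≤ N by omega)
    obtain ⟨Ms, hMs⟩ := q_sup hk η1 S hN (n / 2 + 6) (by omega) M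
    obtain ⟨Cp, hCp0, hp⟩ := hk.point n (by omega) (by omega) Ms
    obtain ⟨Cc, hc⟩ := hk.core n (by omega) (by omega) η1 y1 y2 2 θc hg.eta1_pos (by linarith)
      (by linarith) (by norm_num; linarith) le_rfl hθ hθ'
      (by rw [show y2 - y1 = mesh N by rw [hy2, hy1, ← hγdef]; ring]; exact hg.le_core)
    set CR := 36 * |Cp * (1 + S ^ 2)| + Cp * |K| with hCR
    set CD := |Cc| * (36 * |2 * CA ^ 2| + 0 * 0 + CR + a / 2 * CR) with hCD
    refine ⟨K + (36 * |CA ^ 2| + 0 * 0) + (36 * |Cp * (1 + S ^ 2)| + Cp * (CD + |K|)),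
      fun D lam0 hD hA => ?_⟩
    have hL : ∫ z in R θc N m, en D.x n z ≤ K := by rw [hn]; exact hK D lam0 hD hA
    have hx := hD.sol.smx
    norm_num at hθ'
    have hbox : ∀ z : P2, z ∈ rect (-3 * θc) e y2 → z ∈ Box ∧ rsq z ≤ 3.4 := by
      rintro z ⟨⟨p1, p2⟩, q1, q2⟩
      exact rsq_le (by rw [abs_le]; constructor <;> linarith) (by rw [abs_le]; constructor <;> linarith)
    have hlow : ∀ z ∈ rect (-3 * θc) e y2, D.Sup (n / 2 + 6) Ms z := fun z hz =>
      hMs D lam0 hD z (hbox z hz).1 fun i hi =>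
        hM D η0 η1 S lam0 L hD hA (hK D lam0 hD hA) z hz i (by omega) (by omega)
    have hbig : ∀ {u v w : ℝ}, -3 * θc ≤ u → v ≤ θc → w ≤ 7 / 10 → rect u v w ⊆ Big :=
      fun h1 h2 h3 => rect_big (by linarith) (by linarith) (by linarith)
    have henK : ∀ {u v w : ℝ}, -3 * θc ≤ u → v ≤ edge θc N m → w ≤ hgt N m →
        ∫ z in rect u v w, en D.x n z ≤ |K| := fun h1 h2 h3 =>
      ((int_mono_set (en_cont hx n) (en_nonneg _ _) (rect_mono h1 h2 h3)
        (R_big hθ (by norm_num; linarith) (by omega))).trans hL).trans (le_abs_self K)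
    have hR : ∀ {u v : ℝ}, -3 * θc ≤ u → v ≤ e →
        ∫ z in rect u v y2, coefR D.H D.x D.q n z ^ 2 ≤ CR := by
      intro u v hu hv
      refine (int_affine (g := en D.x n) (A := Cp * (1 + S ^ 2)) (B := Cp)
        (hbig hu (by linarith) (by linarith)) (measurable_rect _ _ _)
        ((hk.cont n (by omega) (by omega) D η1 S lam0 hD).pow 2) (en_cont hx n) fun z hz => ?_).trans ?_
      · have hz' := rect_mono hu hv le_rfl hz
        refine (hp D η1 S lam0 hD z (hbox z hz').1 (hlow z hz')).1.trans ?_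
        have := mul_le_mul_of_nonneg_left (pow_sq_le hD (show n + 1 ≤ N by omega) z) hCp0
        linarith
      · exact add_le_add le_rfl (mul_le_mul_of_nonneg_left (henK hu (by linarith) (by linarith)) hCp0)
    have hgc := grad_cont hx n
    have hDA : ∫ z in rect (-3 * θc) (-2 * θc) y2, D.grad n z ≤ 36 * |2 * CA ^ 2| + 0 * 0 := by
      refine (int_affine (g := fun _ => 0) (A := 2 * CA ^ 2) (B := 0) (hbig le_rfl (by linarith) (by linarith))
        (measurable_rect _ _ _) hgc continuous_const fun z hz => ?_).trans (le_of_eq (by simp))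
      have hz' := rect_mono le_rfl (show -2 * θc ≤ e by linarith) le_rfl hz
      have h := pow_le_pow_left₀ (norm_nonneg _)
        (hA z (by linarith [hz.1.2]) (hbox z hz').2 (n + 1) (by omega)).1 2
      linarith [grad_le_en hx n z]
    have hDout : ∫ z in rect (-2 * θc) (e - a / 2) y1, D.grad n z ≤ CD := by
      have hnn : 0 ≤ (a / 2)⁻¹ * ∫ z in rect (max (e - 2 * (a / 2)) (-2 * θc)) (e - a / 2) y1,
          D.grad n z := mul_nonneg (by positivity) (integral_nonneg fun z => grad_nonneg _ _ _)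
      refine (le_add_of_nonneg_right hnn).trans ((hc D S lam0 (a / 2) e hD (by linarith) (by linarith)
        (by rw [abs_le]; constructor <;> linarith)).trans ?_)
      refine (mul_le_mul_of_nonneg_right (le_abs_self Cc) (add_nonneg (add_nonneg
        (integral_nonneg fun z => grad_nonneg _ _ _) (integral_nonneg fun z => sq_nonneg _))
        (mul_nonneg (by linarith) (integral_nonneg fun z => sq_nonneg _)))).trans ?_
      exact mul_le_mul_of_nonneg_left (add_le_add (add_le_add hDA (hR le_rfl (by linarith)))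
        (mul_le_mul_of_nonneg_left (hR (by linarith) le_rfl) (by linarith))) (abs_nonneg _)
    have htop : Continuous fun z => ‖iteratedFDeriv ℝ (n + 1) D.x z‖ ^ 2 :=
      ((hx.continuous_iteratedFDeriv (by norm_cast; simp)).norm).pow 2
    have hRsub : R θc N (m + 1) ⊆ R θc N m :=
      rect_mono le_rfl (by linarith [hes.1]) (by linarith [hes.2])
    have hb1 : R θc N (m + 1) ⊆ Big := hRsub.trans (R_big hθ (by norm_num; linarith) (by omega))
    show ∫ z in R θc N (m + 1), en D.x (15 + (m + 1)) z ≤ _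
    rw [show 15 + (m + 1) = n + 1 by omega]
    simp only [en_succ]
    rw [integral_add (integ (en_cont hx n) hb1) (integ htop hb1), add_assoc]
    refine add_le_add ((int_mono_set (en_cont hx n) (en_nonneg _ _) hRsub
      (R_big hθ (by norm_num; linarith) (by omega))).trans hL) ?_
    have hcov : R θc N (m + 1) ⊆ rect (-3 * θc) (-2 * θc) y1 ∪ rect (-2 * θc) (e - a / 2) y1 := by
      rintro z ⟨⟨p1, p2⟩, q1, q2⟩
      rw [hes.2] at q1 q2
      rcases le_total z.1 (-2 * θc) with h | h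
      · exact Or.inl ⟨⟨p1, h⟩, q1, q2⟩
      · exact Or.inr ⟨⟨h, by linarith [hes.1]⟩, q1, q2⟩
    refine (int_union_le htop (fun z => sq_nonneg _) (measurable_rect _ _ _) (measurable_rect _ _ _)
      hcov (hbig le_rfl (by linarith) (by linarith)) (hbig (by linarith) (by linarith) (by linarith))).trans
      (add_le_add ?_ ?_)
    · refine (int_affine (g := fun _ => 0) (A := CA ^ 2) (B := 0) (hbig le_rfl (by linarith) (by linarith))
        (measurable_rect _ _ _) htop continuous_const fun z hz => ?_).trans (le_of_eq (by simp))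
      have hz' := rect_mono le_rfl (show -2 * θc ≤ e by linarith) (show y1 ≤ y2 by linarith) hz
      rw [zero_mul, add_zero]
      exact pow_le_pow_left₀ (norm_nonneg _)
        (hA z (by linarith [hz.1.2]) (hbox z hz').2 (n + 1) (by omega)).1 2
    · refine (int_affine (g := fun z => D.grad n z + en D.x n z) (A := Cp * (1 + S ^ 2)) (B := Cp)
        (hbig (by linarith) (by linarith) (by linarith)) (measurable_rect _ _ _) htop
        (hgc.add (en_cont hx n)) fun z hz => ?_).trans ?_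
      · have hz' := rect_mono (show -3 * θc ≤ -2 * θc by linarith) (show e - a / 2 ≤ e by linarith)
          (show y1 ≤ y2 by linarith) hz
        refine (hp D η1 S lam0 hD z (hbox z hz').1 (hlow z hz')).2.1.trans ?_
        have := mul_le_mul_of_nonneg_left (pow_sq_le hD (show n ≤ N by omega) z) hCp0
        linarith
      · have hb := hbig (u := -2 * θc) (v := e - a / 2) (w := y1) (by linarith) (by linarith) (by linarith)
        rw [integral_add (integ hgc hb) (integ (en_cont hx n) hb)]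
        exact add_le_add le_rfl (mul_le_mul_of_nonneg_left
          (add_le_add hDout (henK (by linarith) (by linarith) (by linarith))) hCp0)

end Middle

open Middle in
/-- The middle phase. -/
theorem phaseB {L : ℕ → ℝ} {N : ℕ} {δ η0 θ0 c0 : ℝ} (hs : SobolevSpec) (hN : 40 ≤ N)
    (hk : Kit L N δ η0 θ0 c0) {η1 θc : ℝ} (hg : Good N θ0 c0 η1 θc) (S CA : ℝ) :
    ∃ C lam0 : ℝ, 1 ≤ lam0 ∧
      ∀ D : Dt, D.Adm L N δ η0 η1 S lam0 → AOut N θc CA D → BOut N θc C D := by
  obtain ⟨K, hK⟩ := levels hs hN hk hg S CA (N - 15) le_rfl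
  obtain ⟨e1, -, y1, -, -, ha', -, hγ'⟩ :=
    bounds (N := N) hg.pos (show N - 15 ≤ N by omega)
  obtain ⟨M, hM⟩ := x_sup hs hg.pos hg.le_small δ CA K (N - 15) (show N - 15 ≤ N by omega)
  obtain ⟨C, hC⟩ := q_sup hk η1 S hN (N - 2) (by omega) M
  refine ⟨C, 1, le_rfl, fun D hD hA z hz => ?_⟩
  have hθ' := hg.le_small
  norm_num at hθ'
  have hθ := hg.pos
  have hz' := rect_mono (a := -3 * θc) (a' := -3 * θc) (b := θc / 4)
    (b' := edge θc N (N - 15) - stp θc N) (y := 0.5) (y' := hgt N (N - 15) - mesh N) le_rfl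
    (by linarith) (by norm_num; linarith) hz
  obtain ⟨⟨p1, p2⟩, q1, q2⟩ := hz
  norm_num at q1 q2
  obtain ⟨hb, -⟩ := rsq_le (z := z) (by rw [abs_le]; constructor <;> linarith)
    (by rw [abs_le]; constructor <;> linarith)
  exact hC D 1 hD z hb fun i hi => hM D η0 η1 S 1 L hD hA (hK D 1 hD hA) z hz' i (by omega) (by omega)

end Boot
end Vale.Agent.P229
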