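import Vale.Agent.P229.BootBase

/-
P229: phase C of the bootstrap, sharp bounds on strips of width `1 / lam` around the blob.

Each application of the core estimate with `w0 = w / 20`, `K = 240` (`w = 1 / lam`) raises the
order by one, moves the edge left by `w0`, and shrinks the height by `mesh N`.  The invariant is:
energy at most `C (1 + T_n)` left of the edge, and at most `C w (1 + T_n)` right of `-6 w`, where
`T_n = β w^3 (s lam^n)^2`; `β = 0` for edges left of the blob and `β = 1` otherwise.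
-/

namespace Vale.Agent.P229
namespace Boot

open MeasureTheory Set
open scoped ContDiff

/-- Contribution of the blob at order `n`. -/
noncomputable def bigT (β : ℝ) (D : Dt) (n : ℕ) : ℝ :=
  β * (1 / D.lam) ^ 3 * (D.s * D.lam ^ n) ^ 2

/-- Bounds at order `n` up to the edge `e`. -/
def Strip (θc β C : ℝ) (D : Dt) (n : ℕ) (e y : ℝ) : Prop :=
  (∫ z in rect (-3 * θc) e y, en D.x n z) ≤ C * (1 + bigT β D n) ∧
  (∫ z in rect (-6 / D.lam) e y, en D.x n z) ≤ C * (1 / D.lam * (1 + bigT β D n)) ∧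
  (∫ z in rect (-6 / D.lam) e y, en D.q n z) ≤ C * (1 / D.lam * (1 + bigT β D n))

lemma bigT_nonneg {β : ℝ} {D : Dt} (hβ : 0 ≤ β) (hl : 0 < D.lam) (n : ℕ) :
    0 ≤ bigT β D n := by
  unfold bigT; positivity

lemma bigT_succ {β : ℝ} {D : Dt} (hβ : 0 ≤ β) (hl : 1 ≤ D.lam) (n : ℕ) :
    bigT β D n ≤ bigT β D (n + 1) := by
  have h0 : 0 ≤ (D.s * D.lam ^ n) ^ 2 := sq_nonneg _
  have h1 : (D.s * D.lam ^ (n + 1)) ^ 2 = (D.s * D.lam ^ n) ^ 2 * D.lam ^ 2 := by ring
  have hl2 : 1 ≤ D.lam ^ 2 := one_le_pow₀ hl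
  unfold bigT
  rw [h1]
  exact mul_le_mul_of_nonneg_left (le_mul_of_one_le_right h0 hl2) (by positivity)

lemma vol_rect {a b y : ℝ} (hab : a ≤ b) (hy : 0 ≤ y) :
    (volume : Measure P2).real (rect a b y) = (b - a) * (2 * y) := by
  rw [rect, Measure.volume_eq_prod, measureReal_prod_prod, Real.volume_real_Icc_of_le hab,
    Real.volume_real_Icc_of_le (by linarith)]
  ring

/-- Integrals of an energy bounded pointwise on a rectangle. -/
lemma int_le_const {f : P2 → ℝ} {M a b y : ℝ} (hf : Continuous f) (hs : rect a b y ⊆ Big)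
    (hab : a ≤ b) (hy : 0 ≤ y) (h : ∀ z ∈ rect a b y, f z ≤ M) :
    ∫ z in rect a b y, f z ≤ M * ((b - a) * (2 * y)) := by
  refine (setIntegral_mono_on (integ hf hs) (integ continuous_const hs) (measurable_rect a b y)
    h).trans_eq ?_
  rw [setIntegral_const, smul_eq_mul, vol_rect hab hy, mul_comm]

lemma en_sup_le {D : Dt} {f : P2 → ℝ} {n : ℕ} {M : ℝ} {z : P2}
    (hf : f = D.x ∨ f = D.q) (h : D.Sup n M z) : en f n z ≤ (n + 1) * M ^ 2 := by
  refine (Finset.sum_le_sum fun i hi => ?_).trans_eq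
    (by rw [Finset.sum_const, Finset.card_range, nsmul_eq_mul]; push_cast; rfl)
  have hi' : i ≤ n := Nat.lt_succ_iff.1 (Finset.mem_range.1 hi)
  rcases hf with rfl | rfl
  · exact pow_le_pow_left₀ (norm_nonneg _) (h i hi').1 2
  · exact pow_le_pow_left₀ (norm_nonneg _) (h i hi').2 2

variable {L : ℕ → ℝ} {N : ℕ} {δ η0 θ0 c0 η1 θc : ℝ}

/-- The first strips: sup bounds of phase B. -/
lemma strip_base (hg : Good N θ0 c0 η1 θc) (CB : ℝ) :
    ∃ C : ℝ, 0 ≤ C ∧ ∀ (D : Dt) (β e y : ℝ), 0 ≤ β → ContDiff ℝ ∞ D.x → ContDiff ℝ ∞ D.q →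
      1 ≤ D.lam → 24 / θc ≤ D.lam → BOut N θc CB D → -6 / D.lam ≤ e → e ≤ 6 / D.lam →
      0 ≤ y → y ≤ 0.5 → Strip θc β C D (N - 2) e y := by
  refine ⟨((N - 2 : ℕ) + 1 : ℝ) * CB ^ 2 * 12, by positivity,
    fun D β e y hβ hx hq hl hl24 hB he1 he2 hy hy5 => ?_⟩
  have hθ := hg.pos
  have hl0 : 0 < D.lam := by linarith
  have h24 : 6 / D.lam ≤ θc / 4 := by
    rw [div_le_iff₀ hθ] at hl24
    rw [div_le_div_iff₀ hl0 (by norm_num)]
    linarith
  have hT := bigT_nonneg hβ hl0 (N - 2) (D := D) (β := β)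
  have hw0 : 0 < 1 / D.lam := by positivity
  have hw1 : 1 / D.lam ≤ 1 := (div_le_one hl0).2 hl
  have h6 : -6 / D.lam = -(6 * (1 / D.lam)) := by ring
  have h6' : 6 / D.lam = 6 * (1 / D.lam) := by ring
  have hs : rect (-3 * θc) e y ⊆ rect (-3 * θc) (θc / 4) 0.5 :=
    rect_mono le_rfl (he2.trans h24) hy5
  have hs6 : rect (-6 / D.lam) e y ⊆ rect (-3 * θc) (θc / 4) 0.5 :=
    rect_mono (by linarith) (he2.trans h24) hy5
  have hbig : rect (-3 * θc) (θc / 4) 0.5 ⊆ Big :=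
    rect_big (by linarith [hg.le_small]) (by linarith [hg.le_small]) (by norm_num)
  have hM : 0 ≤ ((N - 2 : ℕ) + 1 : ℝ) * CB ^ 2 := by positivity
  have bx : ∀ (f : P2 → ℝ), f = D.x ∨ f = D.q → ∀ z ∈ rect (-3 * θc) (θc / 4) 0.5,
      en f (N - 2) z ≤ ((N - 2 : ℕ) + 1 : ℝ) * CB ^ 2 := fun f hf z hz =>
    en_sup_le hf (hB z hz)
  have small : ∀ (f : P2 → ℝ), ContDiff ℝ ∞ f → f = D.x ∨ f = D.q →
      (∫ z in rect (-6 / D.lam) e y, en f (N - 2) z) ≤ ((N - 2 : ℕ) + 1 : ℝ) * CB ^ 2 * 12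
        * (1 / D.lam * (1 + bigT β D (N - 2))) := by
    intro f hfc hf
    refine (int_le_const (en_cont hfc _) (hs6.trans hbig) he1 hy
      fun z hz => bx f hf z (hs6 hz)).trans ?_
    rw [mul_assoc _ (12 : ℝ)]
    refine mul_le_mul_of_nonneg_left ?_ hM
    have h1 : (e - -6 / D.lam) * (2 * y) ≤ (e - -6 / D.lam) * 1 :=
      mul_le_mul_of_nonneg_left (by linarith) (by linarith)
    have h2 : 0 ≤ 12 * (1 / D.lam) * bigT β D (N - 2) := by positivity
    linarith
  refine ⟨?_, small D.x hx (Or.inl rfl), small D.q hq (Or.inr rfl)⟩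
  refine (int_le_const (en_cont hx _) (hs.trans hbig) (by linarith) hy
    fun z hz => bx _ (Or.inl rfl) z (hs hz)).trans ?_
  rw [mul_assoc _ (12 : ℝ)]
  refine mul_le_mul_of_nonneg_left ?_ hM
  have h1 : (e - -3 * θc) * (2 * y) ≤ (e - -3 * θc) * 1 :=
    mul_le_mul_of_nonneg_left (by linarith) (by linarith)
  linarith [hg.le_small]

/-- The standing smallness facts about the edge. -/
structure Edge (θc w e y1 y2 : ℝ) : Prop where
  θ_pos : 0 < θc
  θ_le : θc ≤ 0.01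
  w_pos : 0 < w
  w_le : w ≤ 1
  w_small : 24 * w ≤ θc
  e_ge : -(3 * w) ≤ e
  e_le : e ≤ 6 * w
  y1_pos : 0 < y1
  y12 : y1 ≤ y2
  y2_le : y2 ≤ 0.5

lemma Edge.big {θc w e y1 y2 : ℝ} (h : Edge θc w e y1 y2) :
    rect (-3 * θc) e y2 ⊆ Big ∧ rect (-3 * θc) e y2 ⊆ Box := by
  obtain ⟨h1, h2, h3, h4, h5, h6, h7, h8, h9, h10⟩ := h
  exact ⟨rect_big (by linarith) (by linarith) (by linarith),
    rect_box (by linarith) (by linarith) (by linarith)⟩

/-- The two integrals of the remainder in the core estimate. -/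
lemma remainder_bounds {D : Dt} {j : ℕ} {Cp C1 β θc w e y1 y2 T : ℝ}
    (hE : Edge θc w e y1 y2) (hw : w = 1 / D.lam) (hl : 0 < D.lam) (hCp : 0 ≤ Cp)
    (hC1 : 0 ≤ C1) (hβ : 0 ≤ β) (hT0 : 0 ≤ T)
    (hT : T = β * w ^ 3 * (D.s * D.lam ^ (j + 1)) ^ 2) (hx : ContDiff ℝ ∞ D.x)
    (hR : Continuous (coefR D.H D.x D.q j))
    (hblob : ∀ z : P2, z.1 ≤ e → blobInd D.lam z ≤ β * blobInd D.lam z)
    (hp : ∀ z ∈ rect (-3 * θc) e y2, coefR D.H D.x D.q j z ^ 2
      ≤ Cp * (1 + en D.x j z + blobInd D.lam z * (D.s * D.lam ^ (j + 1)) ^ 2))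
    (hS : (∫ z in rect (-3 * θc) e y2, en D.x j z) ≤ C1 * (1 + T)) :
    (∫ z in rect (-3 * θc) (e - 240 * (w / 20)) y2, coefR D.H D.x D.q j z ^ 2)
        ≤ Cp * (36 + C1) * (1 + T) ∧
      w / 20 * (∫ z in rect (e - 240 * (w / 20)) e y2, coefR D.H D.x D.q j z ^ 2)
        ≤ Cp * (36 + C1 + 8) * (1 + T) := by
  obtain ⟨hθ, hθs, hw0, hw1, h24, he1, he2, hy1, hy12, hy2⟩ := hE
  have hbigE : rect (-3 * θc) e y2 ⊆ Big := rect_big (by linarith) (by linarith) (by linarith)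
  have hR2 : Continuous fun z => coefR D.H D.x D.q j z ^ 2 := hR.pow 2
  constructor
  · have hsub : rect (-3 * θc) (e - 240 * (w / 20)) y2 ⊆ rect (-3 * θc) e y2 :=
      rect_mono le_rfl (by linarith) le_rfl
    refine (int_bound (lam := D.lam) (C := Cp) (D := 0) (hsub.trans hbigE) (measurable_rect _ _ _)
      (integ hR2 (hsub.trans hbigE)) (en_cont hx j) fun z hz => ?_).trans ?_
    · refine (hp z (hsub hz)).trans_eq ?_
      have h2 : 2 / D.lam < |z.1| := by
        have : 2 / D.lam = 2 * w := by rw [hw]; ring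
        rw [this, lt_abs]
        right
        linarith [hz.1.2]
      rw [blobInd_zero (Or.inl h2)]
      ring
    · rw [mul_zero, add_zero, mul_assoc]
      refine mul_le_mul_of_nonneg_left ?_ hCp
      have h1 := vol_le_big (hsub.trans hbigE)
      have h2 := (int_mono_set (en_cont hx j) (en_nonneg _ _) hsub hbigE).trans hS
      linarith
  · have hsub : rect (e - 240 * (w / 20)) e y2 ⊆ rect (-3 * θc) e y2 :=
      rect_mono (by linarith) le_rfl le_rfl
    have h := int_bound (lam := D.lam) (C := Cp) (D := β * (D.s * D.lam ^ (j + 1)) ^ 2)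
      (hsub.trans hbigE) (measurable_rect _ _ _)
      (integ hR2 (hsub.trans hbigE)) (en_cont hx j) fun z hz =>
      (hp z (hsub hz)).trans (mul_le_mul_of_nonneg_left (add_le_add le_rfl (by
          have := mul_le_mul_of_nonneg_right (hblob z hz.1.2)
            (sq_nonneg (D.s * D.lam ^ (j + 1)))
          linarith)) hCp)
    refine (mul_le_mul_of_nonneg_left h (by positivity)).trans ?_
    rw [mul_left_comm, mul_assoc]
    refine mul_le_mul_of_nonneg_left ?_ hCp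
    have h1 := vol_le_big (hsub.trans hbigE)
    have h2 := (int_mono_set (en_cont hx j) (en_nonneg _ _) hsub hbigE).trans hS
    have h4 : (∫ z in rect (e - 240 * (w / 20)) e y2, blobInd D.lam z)
        * (β * (D.s * D.lam ^ (j + 1)) ^ 2) ≤ 8 * w ^ 2 * (β * (D.s * D.lam ^ (j + 1)) ^ 2) :=
      mul_le_mul_of_nonneg_right ((int_blob_le hl).trans_eq (by rw [hw]; ring)) (by positivity)
    have h6 : 0 ≤ C1 * T := by positivity
    have h5 := mul_le_mul_of_nonneg_left (add_le_add (add_le_add h1 h2) h4)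
      (show 0 ≤ w / 20 by positivity)
    have h7 : w / 20 * (36 + C1 * (1 + T)) ≤ 1 * (36 + C1 * (1 + T)) :=
      mul_le_mul_of_nonneg_right (by linarith) (by positivity)
    have h8 : w / 20 * (8 * w ^ 2 * (β * (D.s * D.lam ^ (j + 1)) ^ 2)) = 8 / 20 * T := by
      rw [hT]; ring
    linarith

lemma sq_iter_cont {f : P2 → ℝ} (hf : ContDiff ℝ ∞ f) (n : ℕ) :
    Continuous fun z => ‖iteratedFDeriv ℝ n f z‖ ^ 2 :=
  ((hf.continuous_iteratedFDeriv (by exact_mod_cast le_top)).norm).pow 2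

lemma int_en_succ {f : P2 → ℝ} {S' : Set P2} (hf : ContDiff ℝ ∞ f) (hS : S' ⊆ Big) (j : ℕ) :
    (∫ z in S', en f (j + 1) z)
      = (∫ z in S', en f j z) + ∫ z in S', ‖iteratedFDeriv ℝ (j + 1) f z‖ ^ 2 := by
  rw [← integral_add (integ (en_cont hf j) hS) (integ (sq_iter_cont hf (j + 1)) hS)]
  exact congrArg (integral _) (funext fun z => en_succ f j z)

/-- From the gradient to all derivatives of one order more. -/
lemma energy_step {D : Dt} {j : ℕ} {Cp C1 G X β θc w e a b y y1 y2 T V U : ℝ}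
    (hE : Edge θc w e y1 y2) (hw : w = 1 / D.lam) (hl : 0 < D.lam) (hCp : 0 ≤ Cp) (hβ : 0 ≤ β)
    (hT : T = β * w ^ 3 * (D.s * D.lam ^ (j + 1)) ^ 2)
    (hx : ContDiff ℝ ∞ D.x) (hq : ContDiff ℝ ∞ D.q)
    (hblob : ∀ z : P2, z.1 ≤ e → blobInd D.lam z ≤ β * blobInd D.lam z)
    (hp : ∀ z ∈ rect (-3 * θc) e y2,
      ‖iteratedFDeriv ℝ (j + 1) D.x z‖ ^ 2
          ≤ Cp * (1 + (D.grad j z + en D.x j z) + blobInd D.lam z * (D.s * D.lam ^ j) ^ 2) ∧
      ‖iteratedFDeriv ℝ (j + 1) D.q z‖ ^ 2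
          ≤ Cp * (1 + en D.x (j + 1) z + blobInd D.lam z * (D.s * D.lam ^ j) ^ 2))
    (hsub : rect a b y ⊆ rect (-3 * θc) e y2)
    (hvol : (volume : Measure P2).real (rect a b y) ≤ V)
    (hgrad : (∫ z in rect a b y, D.grad j z) ≤ G) (hen : (∫ z in rect a b y, en D.x j z) ≤ C1)
    (hX : X = Cp * (V + (G + C1) + 8 * (w * T)) + C1)
    (henq : (∫ z in rect a b y, en D.q j z) ≤ U) :
    (∫ z in rect a b y, en D.x (j + 1) z) ≤ X ∧
      (∫ z in rect a b y, en D.q (j + 1) z) ≤ Cp * (V + X + 8 * (w * T)) + U := by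
  have hbig := hsub.trans hE.big.1
  have hm := measurable_rect a b y
  have hY : (∫ z in rect a b y, blobInd D.lam z) * (β * (D.s * D.lam ^ j) ^ 2) ≤ 8 * (w * T) := by
    refine (mul_le_mul_of_nonneg_right (int_blob_le hl) (by positivity)).trans_eq ?_
    rw [hT, hw]
    field_simp
    ring
  have hb : ∀ z ∈ rect a b y, blobInd D.lam z * (D.s * D.lam ^ j) ^ 2
      ≤ blobInd D.lam z * (β * (D.s * D.lam ^ j) ^ 2) := fun z hz => by
    have := mul_le_mul_of_nonneg_right (hblob z (hsub hz).1.2) (sq_nonneg (D.s * D.lam ^ j))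
    linarith
  have h1 : (∫ z in rect a b y, ‖iteratedFDeriv ℝ (j + 1) D.x z‖ ^ 2)
      ≤ Cp * (V + (G + C1) + 8 * (w * T)) := by
    refine (int_bound (lam := D.lam) (C := Cp) (D := β * (D.s * D.lam ^ j) ^ 2)
      (g := fun z => D.grad j z + en D.x j z) hbig hm
      (integ (sq_iter_cont hx _) hbig) ((grad_cont hx j).add (en_cont hx j)) fun z hz =>
        (hp z (hsub hz)).1.trans
          (mul_le_mul_of_nonneg_left (add_le_add le_rfl (hb z hz)) hCp)).trans ?_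
    rw [integral_add (integ (grad_cont hx j) hbig) (integ (en_cont hx j) hbig)]
    exact mul_le_mul_of_nonneg_left (add_le_add (add_le_add hvol (add_le_add hgrad hen)) hY) hCp
  have h2 : (∫ z in rect a b y, en D.x (j + 1) z) ≤ X := by
    rw [int_en_succ hx hbig, hX]
    linarith
  refine ⟨h2, ?_⟩
  rw [int_en_succ hq hbig]
  have h3 := (int_bound (lam := D.lam) (C := Cp) (D := β * (D.s * D.lam ^ j) ^ 2)
    (g := fun z => en D.x (j + 1) z) hbig hm (integ (sq_iter_cont hq _) hbig) (en_cont hx (j + 1))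
    fun z hz => (hp z (hsub hz)).2.trans
      (mul_le_mul_of_nonneg_left (add_le_add le_rfl (hb z hz)) hCp)).trans
    (mul_le_mul_of_nonneg_left (add_le_add (add_le_add hvol h2) hY) hCp)
  linarith

/-- The gradient on the left of the core. -/
lemma grad_left {D : Dt} {N : ℕ} {θc CA y : ℝ} (hA : AOut N θc CA D) (hx : ContDiff ℝ ∞ D.x)
    {j : ℕ} (hj : j + 1 ≤ N + 3) (hθ : 0 < θc) (hθs : θc ≤ 0.01) (hy0 : 0 ≤ y) (hy5 : y ≤ 0.5) :
    (∫ z in rect (-3 * θc) (-2 * θc) y, D.grad j z) ≤ 2 * CA ^ 2 * 36 := by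
  have hbig : rect (-3 * θc) (-2 * θc) y ⊆ Big :=
    rect_big (by linarith) (by linarith) (by linarith)
  refine (int_le_const (grad_cont hx j) hbig (by linarith) hy0 (M := 2 * CA ^ 2)
    fun z hz => ?_).trans ?_
  · obtain ⟨⟨p1, p2⟩, q1, q2⟩ := hz
    have hr : rsq z ≤ 3.4 := by
      have a1 := sq_le_sq' (show -(1 : ℝ) ≤ z.1 by linarith) (show z.1 ≤ 1 by linarith)
      have a2 := sq_le_sq' (show -(1 : ℝ) ≤ z.2 by linarith) (show z.2 ≤ 1 by linarith)
      simp only [one_pow] at a1 a2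
      unfold rsq
      linarith
    have h := (hA z (by linarith) hr (j + 1) hj).1
    exact (grad_le_en hx j z).trans
      (mul_le_mul_of_nonneg_left (pow_le_pow_left₀ (norm_nonneg _) h 2) zero_le_two)
  · refine mul_le_mul_of_nonneg_left ?_ (by positivity)
    have : (-2 * θc - -3 * θc) * (2 * y) ≤ 1 * 1 :=
      mul_le_mul (by linarith) (by linarith) (by linarith) zero_le_one
    linarith

/-- The gradient after one application of the core estimate. -/
lemma core_out {D : Dt} {j : ℕ} {Cc B A0 θc w e y1 y2 R T : ℝ} (hE : Edge θc w e y1 y2)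
    (hx : ContDiff ℝ ∞ D.x) (hR : |Cc| * R ≤ B * (1 + T)) (hR0 : 0 ≤ R) (hB : 0 ≤ B) (hT : 0 ≤ T)
    (hA : 0 ≤ A0) (hleft : (∫ z in rect (-3 * θc) (-2 * θc) y1, D.grad j z) ≤ A0)
    (hc : (∫ z in rect (-2 * θc) (e - w / 20) y1, D.grad j z)
      + (w / 20)⁻¹ * (∫ z in rect (max (e - 240 * (w / 20)) (-2 * θc)) (e - w / 20) y1,
          D.grad j z) ≤ Cc * R) :
    (∫ z in rect (-3 * θc) (e - w / 20) y1, D.grad j z) ≤ (A0 + B) * (1 + T) ∧
      (∫ z in rect (-(6 * w)) (e - w / 20) y1, D.grad j z) ≤ B * (w * (1 + T)) := by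
  obtain ⟨hθ, hθs, hw0, hw1, h24, he1, he2, hy1, hy12, hy2⟩ := hE
  replace hc := hc.trans ((mul_le_mul_of_nonneg_right (le_abs_self Cc) hR0).trans hR)
  have n1 : 0 ≤ ∫ z in rect (-2 * θc) (e - w / 20) y1, D.grad j z :=
    integral_nonneg fun z => grad_nonneg D j z
  have n2 : 0 ≤ (w / 20)⁻¹ * (∫ z in rect (max (e - 240 * (w / 20)) (-2 * θc)) (e - w / 20) y1,
      D.grad j z) := mul_nonneg (by positivity) (integral_nonneg fun z => grad_nonneg D j z)
  constructor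
  · refine (int_union_le (grad_cont hx j) (grad_nonneg D j)
      (measurable_rect (-3 * θc) (-2 * θc) y1) (measurable_rect (-2 * θc) (e - w / 20) y1)
      (fun z hz => ?_) (rect_big (by linarith) (by linarith) (by linarith))
      (rect_big (by linarith) (by linarith) (by linarith))).trans ?_
    · rcases le_total z.1 (-2 * θc) with h | h
      · exact Or.inl ⟨⟨hz.1.1, h⟩, hz.2⟩
      · exact Or.inr ⟨⟨h, hz.1.2⟩, hz.2⟩
    · have h2 : 0 ≤ A0 * T := mul_nonneg hA hT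
      linarith
  · refine (int_mono_set (grad_cont hx j) (grad_nonneg D j)
      (rect_mono (max_le (by linarith) (by linarith)) le_rfl le_rfl :
        rect (-(6 * w)) (e - w / 20) y1
          ⊆ rect (max (e - 240 * (w / 20)) (-2 * θc)) (e - w / 20) y1)
      (rect_big (le_max_of_le_right (by linarith)) (by linarith) (by linarith))).trans ?_
    have h2 : (w / 20)⁻¹ * (∫ z in rect (max (e - 240 * (w / 20)) (-2 * θc)) (e - w / 20) y1,
        D.grad j z) ≤ B * (1 + T) := le_trans (le_add_of_nonneg_left n1) hc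
    rw [inv_mul_le_iff₀ (by positivity)] at h2
    have h3 : 0 ≤ B * (w * (1 + T)) := by positivity
    linarith

/-- The bookkeeping of constants in one step. -/
lemma scale_bound {Cp c8 G C1 V B u wt X : ℝ} (hCp : 0 ≤ Cp) (hV : V ≤ 36 * u) (hwt : wt ≤ u)
    (hG : G ≤ c8 * u) (hX : X = Cp * (V + (G + C1 * u) + 8 * wt) + C1 * u)
    (hB : B = Cp * (36 + (c8 + C1) + 8) + C1) : X ≤ B * u := by
  have h1 : Cp * (V + (G + C1 * u) + 8 * wt) ≤ Cp * ((36 + (c8 + C1) + 8) * u) :=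
    mul_le_mul_of_nonneg_left (by linarith) hCp
  rw [hX, hB]
  linarith

/-- One order more, one small step to the left. -/
lemma strip_step (hN : 40 ≤ N) (hk : Kit L N δ η0 θ0 c0) (hg : Good N θ0 c0 η1 θc) (S CA CB : ℝ)
    (j : ℕ) (hj : N - 2 ≤ j) (hjN : j ≤ N + 2) (y1 : ℝ) (hy1 : 0 < y1)
    (hy2 : y1 + mesh N ≤ 0.5) (C1 : ℝ) (hC1 : 0 ≤ C1) :
    ∃ C : ℝ, 0 ≤ C ∧ ∀ (D : Dt) (lam0 β e : ℝ), D.Adm L N δ η0 η1 S lam0 →
      AOut N θc CA D → BOut N θc CB D → 24 / θc ≤ D.lam →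
      -3 / D.lam ≤ e → e ≤ 6 / D.lam → 0 ≤ β →
      (∀ z : P2, z.1 ≤ e → blobInd D.lam z ≤ β * blobInd D.lam z) →
      Strip θc β C1 D j e (y1 + mesh N) →
      Strip θc β C D (j + 1) (e - 1 / D.lam / 20) y1 := by
  have hθ := hg.pos
  have hθs := hg.le_small
  have hmesh : 0 < mesh N := by unfold mesh; positivity
  obtain ⟨y2, hy12⟩ : ∃ y2 : ℝ, y2 = y1 + mesh N := ⟨_, rfl⟩
  rw [← hy12] at hy2
  obtain ⟨Cc, hcore⟩ := hk.core j (by omega) (by omega) η1 y1 y2 240 θc hg.eta1_pos hy1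
    (by linarith) (by linarith) (by norm_num) hθ (by linarith)
    (by rw [show y2 - y1 = mesh N by linarith]; exact hg.le_core)
  obtain ⟨Cp, hCp0, hpt⟩ := hk.point j (by omega) (by omega) CB
  obtain ⟨A0, hA0⟩ : ∃ A0 : ℝ, A0 = 2 * CA ^ 2 * 36 := ⟨_, rfl⟩
  obtain ⟨B0, hB0⟩ : ∃ B0 : ℝ, B0 = |Cc| * (A0 + Cp * (36 + C1) + Cp * (36 + C1 + 8)) :=
    ⟨_, rfl⟩
  obtain ⟨B1, hB1⟩ : ∃ B1 : ℝ, B1 = Cp * (36 + (A0 + B0 + C1) + 8) + C1 := ⟨_, rfl⟩
  have hA00 : 0 ≤ A0 := by rw [hA0]; positivity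
  have hB00 : 0 ≤ B0 := by rw [hB0]; positivity
  have hB10 : 0 ≤ B1 := by rw [hB1]; positivity
  refine ⟨B1 + Cp * (36 + B1 + 8) + C1, by positivity,
    fun D lam0 β e hD hA hB hl24 he1 he2 hβ hblob hS => ?_⟩
  rw [← hy12] at hS
  obtain ⟨hS1, hS2, hS3⟩ := hS
  have hl0 : 0 < D.lam := by linarith [hD.one_le_lam]
  obtain ⟨w, hw⟩ : ∃ w : ℝ, w = 1 / D.lam := ⟨_, rfl⟩
  rw [← hw] at hS2 hS3 ⊢
  have hw0 : 0 < w := hw ▸ by positivity
  have hw1 : w ≤ 1 := by rw [hw, div_le_one hl0]; exact hD.one_le_lam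
  have h6 : -6 / D.lam = -(6 * w) := by rw [hw]; ring
  rw [h6] at hS2 hS3
  rw [show -3 / D.lam = -(3 * w) by rw [hw]; ring] at he1
  rw [show 6 / D.lam = 6 * w by rw [hw]; ring] at he2
  have h24 : 24 * w ≤ θc := by
    rw [div_le_iff₀ hθ] at hl24
    rw [hw, mul_one_div, div_le_iff₀ hl0]
    linarith
  have hE : Edge θc w e y1 y2 :=
    ⟨hθ, hθs, hw0, hw1, h24, he1, he2, hy1, by linarith, hy2⟩
  have hx := hD.sol.smx
  have hq := hD.sol.smq
  obtain ⟨T, hT⟩ : ∃ T : ℝ, T = bigT β D (j + 1) := ⟨_, rfl⟩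
  have hT0 : 0 ≤ T := hT ▸ bigT_nonneg hβ hl0 _
  have hT' : T = β * w ^ 3 * (D.s * D.lam ^ (j + 1)) ^ 2 := by rw [hT, bigT, hw]
  have hTm : bigT β D j ≤ T := hT ▸ bigT_succ hβ hD.one_le_lam _
  replace hS1 := hS1.trans (mul_le_mul_of_nonneg_left (add_le_add le_rfl hTm) hC1)
  replace hS2 := hS2.trans (mul_le_mul_of_nonneg_left
    (mul_le_mul_of_nonneg_left (add_le_add le_rfl hTm) hw0.le) hC1)
  replace hS3 := hS3.trans (mul_le_mul_of_nonneg_left
    (mul_le_mul_of_nonneg_left (add_le_add le_rfl hTm) hw0.le) hC1)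
  have hbigE := hE.big.1
  have hP := fun z hz => hpt D η1 S lam0 hD z (hE.big.2 hz)
    ((hB z (rect_mono le_rfl (by linarith) (by linarith) hz)).mono (by omega) le_rfl)
  obtain ⟨hfar, hnear⟩ := remainder_bounds hE hw hl0 hCp0 hC1 hβ hT0 hT' hx
    (hk.cont j (by omega) (by omega) D η1 S lam0 hD) hblob (fun z hz => (hP z hz).1) hS1
  have hc := hcore D S lam0 (w / 20) e hD (by positivity) (by linarith)
    (abs_le.2 ⟨by linarith, by linarith⟩)
  have hl2 := grad_left hA hx (j := j) (by omega) hθ hθs (y := y2) (by linarith) hy2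
  have hl1 := grad_left hA hx (j := j) (by omega) hθ hθs hy1.le (by linarith)
  rw [← hA0] at hl1 hl2
  obtain ⟨hggl, hgst⟩ := core_out (B := B0) (T := T) (A0 := A0) hE hx (by
    rw [hB0, mul_assoc]
    refine mul_le_mul_of_nonneg_left ?_ (abs_nonneg _)
    have h2 : 0 ≤ A0 * T := mul_nonneg hA00 hT0
    linarith) (add_nonneg (add_nonneg (integral_nonneg fun z => grad_nonneg D j z)
      (integral_nonneg fun z => sq_nonneg _))
      (mul_nonneg (by positivity) (integral_nonneg fun z => sq_nonneg _))) hB00 hT0 hA00 hl1 hc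
  have hsG : rect (-3 * θc) (e - w / 20) y1 ⊆ rect (-3 * θc) e y2 :=
    rect_mono le_rfl (by linarith) (by linarith)
  have hsS : rect (-(6 * w)) (e - w / 20) y1 ⊆ rect (-(6 * w)) e y2 :=
    rect_mono le_rfl (by linarith) (by linarith)
  have hs6 : rect (-(6 * w)) e y2 ⊆ rect (-3 * θc) e y2 :=
    rect_mono (by linarith) le_rfl le_rfl
  have hwT : w * T ≤ T := mul_le_of_le_one_left hT0 hw1
  have hwTn : 0 ≤ w * (1 + T) := by positivity
  have hcmp : B1 ≤ B1 + Cp * (36 + B1 + 8) + C1 := by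
    have : 0 ≤ Cp * (36 + B1 + 8) := by positivity
    linarith
  have hvolS : (volume : Measure P2).real (rect (-(6 * w)) (e - w / 20) y1) ≤ 36 * w := by
    rw [vol_rect (by linarith) hy1.le]
    have : (e - w / 20 - -(6 * w)) * (2 * y1) ≤ (e - w / 20 - -(6 * w)) * 1 :=
      mul_le_mul_of_nonneg_left (by linarith) (by linarith)
    linarith
  have hg1 := (energy_step hE hw hl0 hCp0 hβ hT' hx hq hblob (fun z hz => (hP z hz).2) hsG
    (vol_le_big (hsG.trans hbigE)) hggl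
    ((int_mono_set (en_cont hx j) (en_nonneg _ _) hsG hbigE).trans hS1) rfl le_rfl).1
  obtain ⟨hst1, hst2⟩ := energy_step hE hw hl0 hCp0 hβ hT' hx hq hblob (fun z hz => (hP z hz).2)
    (hsS.trans hs6) hvolS hgst
    ((int_mono_set (en_cont hx j) (en_nonneg _ _) hsS (hs6.trans hbigE)).trans hS2) rfl
    ((int_mono_set (en_cont hq j) (en_nonneg _ _) hsS (hs6.trans hbigE)).trans hS3)
  have hb1 := scale_bound (u := 1 + T) (V := 36) (c8 := A0 + B0) (G := (A0 + B0) * (1 + T))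
    (C1 := C1) (wt := w * T) hCp0 (by linarith) (by linarith) le_rfl rfl hB1
  have hb2 := scale_bound (u := w * (1 + T)) (V := 36 * w) (c8 := A0 + B0) (G := B0 * (w * (1 + T)))
    (wt := w * T) (C1 := C1) hCp0 (by linarith [mul_nonneg hw0.le hT0]) (by linarith)
    (mul_le_mul_of_nonneg_right (by linarith) hwTn) rfl hB1
  have hq2 : Cp * (36 * w + (Cp * (36 * w + (B0 * (w * (1 + T)) + C1 * (w * (1 + T))) + 8 * (w * T))
      + C1 * (w * (1 + T))) + 8 * (w * T)) ≤ Cp * ((36 + B1 + 8) * (w * (1 + T))) :=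
    mul_le_mul_of_nonneg_left (by linarith [mul_nonneg hw0.le hT0]) hCp0
  unfold Strip
  rw [h6, ← hT, ← hw]
  refine ⟨hg1.trans (hb1.trans (mul_le_mul_of_nonneg_right hcmp (by linarith))),
    hst1.trans (hb2.trans (mul_le_mul_of_nonneg_right hcmp hwTn)), hst2.trans ?_⟩
  have : 0 ≤ B1 * (w * (1 + T)) := mul_nonneg hB10 hwTn
  linarith

/-- All orders up to `N + 3`, for edges left of and right of the blob. -/
lemma strip_all (hN : 40 ≤ N) (hk : Kit L N δ η0 θ0 c0) (hg : Good N θ0 c0 η1 θc) (S CA CB : ℝ) :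
    ∀ k ≤ 5, ∃ C : ℝ, 0 ≤ C ∧ ∀ (D : Dt) (lam0 : ℝ), D.Adm L N δ η0 η1 S lam0 →
      AOut N θc CA D → BOut N θc CB D → 24 / θc ≤ D.lam →
      Strip θc 1 C D (N - 2 + k) ((6 - (k : ℝ) / 20) / D.lam) (0.45 - (k : ℝ) * mesh N) ∧
      Strip θc 0 C D (N - 2 + k) (-(2 + ((k : ℝ) + 1) / 20) / D.lam)
        (0.45 - (k : ℝ) * mesh N) := by
  intro k
  induction k with
  | zero =>
    intro _
    obtain ⟨C, hC, h⟩ := strip_base hg CB
    refine ⟨C, hC, fun D lam0 hD _ hB hl => ?_⟩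
    have hl0 : 0 < D.lam := by linarith [hD.one_le_lam]
    simp only [Nat.cast_zero, zero_div, sub_zero, add_zero, zero_add, zero_mul]
    constructor
    · exact h D 1 _ _ zero_le_one hD.sol.smx hD.sol.smq hD.one_le_lam hl hB
        (by gcongr; norm_num) (by gcongr) (by norm_num) (by norm_num)
    · exact h D 0 _ _ le_rfl hD.sol.smx hD.sol.smq hD.one_le_lam hl hB
        (by gcongr; norm_num) (by gcongr; norm_num) (by norm_num) (by norm_num)
  | succ k ih =>
    intro hk5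
    obtain ⟨C1, hC1, h1⟩ := ih (by omega)
    have hm : 0 < mesh N ∧ ((k : ℝ) + 1) * mesh N ≤ 1 / 100 := by
      have hk6 : (k : ℝ) + 1 ≤ (N : ℝ) + 10 := by exact_mod_cast (by omega : k + 1 ≤ N + 10)
      refine ⟨by unfold mesh; positivity, ?_⟩
      rw [mesh, mul_one_div, div_le_div_iff₀ (by positivity) (by norm_num)]
      linarith
    have hy : 0.45 - (k : ℝ) * mesh N = 0.45 - ((k : ℝ) + 1) * mesh N + mesh N := by ring
    obtain ⟨C, hC, h⟩ := strip_step hN hk hg S CA CB (N - 2 + k) (by omega) (by omega)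
      (0.45 - ((k : ℝ) + 1) * mesh N) (by linarith [hm.2]) (by linarith [hm.1, hm.2, mul_nonneg (Nat.cast_nonneg (α := ℝ) k) hm.1.le]) C1 hC1
    refine ⟨C, hC, fun D lam0 hD hA hB hl => ?_⟩
    obtain ⟨hp, hn⟩ := h1 D lam0 hD hA hB hl
    rw [hy] at hp hn
    have hl0 : 0 < D.lam := by linarith [hD.one_le_lam]
    have hk4 : (k : ℝ) ≤ 4 := by exact_mod_cast (by omega : k ≤ 4)
    have hk0 : (0 : ℝ) ≤ k := Nat.cast_nonneg k
    constructor
    · have hs := h D lam0 1 _ hD hA hB hl (by gcongr; linarith) (by gcongr; linarith) zero_le_one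
        (fun z _ => by rw [one_mul]) hp
      rw [show N - 2 + (k + 1) = N - 2 + k + 1 by omega]
      push_cast
      convert hs using 2
      ring
    · have hs := h D lam0 0 _ hD hA hB hl (by gcongr; linarith) (by gcongr; linarith) le_rfl
        (fun z hz => by
          rw [zero_mul, blobInd_zero (Or.inl ?_)]
          have h2 : z.1 ≤ -((2 + ((k : ℝ) + 1) / 20) / D.lam) := by
            rw [← neg_div]; exact hz
          have h3 : 2 / D.lam < (2 + ((k : ℝ) + 1) / 20) / D.lam := by gcongr; linarith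
          rw [lt_abs]
          right
          linarith) hn
      rw [show N - 2 + (k + 1) = N - 2 + k + 1 by omega]
      push_cast
      convert hs using 2
      ring

/-- Phase C: sharp bounds on strips around the blob. -/
theorem phaseC (hN : 40 ≤ N) (hk : Kit L N δ η0 θ0 c0) (hg : Good N θ0 c0 η1 θc) (S CA CB : ℝ) :
    ∃ C lam0 : ℝ, 1 ≤ lam0 ∧ ∀ D : Dt, D.Adm L N δ η0 η1 S lam0 → AOut N θc CA D →
      BOut N θc CB D → ∀ i ≤ N + 3,
      (∫ z in rect (-5 / D.lam) (5 / D.lam) θc,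
        ‖iteratedFDeriv ℝ i D.x z‖ ^ 2 + ‖iteratedFDeriv ℝ i D.q z‖ ^ 2)
          ≤ C * (1 / D.lam + (D.s * D.lam ^ i / D.lam ^ 2) ^ 2) ∧
      (∫ z in rect (-5 / D.lam) (-3 / D.lam) θc,
        ‖iteratedFDeriv ℝ i D.x z‖ ^ 2 + ‖iteratedFDeriv ℝ i D.q z‖ ^ 2) ≤ C / D.lam := by
  choose! Ck hCk hall using strip_all hN hk hg S CA CB
  obtain ⟨C, hCd⟩ : ∃ C : ℝ, C = 2 * ∑ k ∈ Finset.range 6, Ck k + 4 * CB ^ 2 * 10 := ⟨_, rfl⟩
  have hC0 : 0 ≤ ∑ k ∈ Finset.range 6, Ck k :=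
    Finset.sum_nonneg fun k hk' => hCk k (Nat.lt_succ_iff.1 (Finset.mem_range.1 hk'))
  have hθ := hg.pos
  refine ⟨C, max 1 (24 / θc), le_max_left _ _, fun D hD hA hB i hi => ?_⟩
  have hl0 : 0 < D.lam := by linarith [hD.one_le_lam]
  have hl : 24 / θc ≤ D.lam := (le_max_right _ _).trans hD.lam_ge
  have hx := hD.sol.smx
  have hq := hD.sol.smq
  have hcont : Continuous fun z =>
      ‖iteratedFDeriv ℝ i D.x z‖ ^ 2 + ‖iteratedFDeriv ℝ i D.q z‖ ^ 2 :=
    ((hx.continuous_iteratedFDeriv (by exact_mod_cast le_top)).norm.pow 2).add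
      ((hq.continuous_iteratedFDeriv (by exact_mod_cast le_top)).norm.pow 2)
  have hwle : 24 * (1 / D.lam) ≤ θc := by
    rw [div_le_iff₀ hθ] at hl
    rw [mul_one_div, div_le_iff₀ hl0]
    linarith
  have hw0 : 0 < 1 / D.lam := by positivity
  have e3 : -3 / D.lam = -(3 * (1 / D.lam)) := by ring
  have e5 : -5 / D.lam = -(5 * (1 / D.lam)) := by ring
  have e5' : 5 / D.lam = 5 * (1 / D.lam) := by ring
  have e6 : -6 / D.lam = -(6 * (1 / D.lam)) := by ring
  have hθs := hg.le_small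
  rcases le_or_gt i (N - 2) with hiN | hiN
  · have hb : ∀ a b : ℝ, -3 * θc ≤ a → a ≤ b → b ≤ θc / 4 →
        (∫ z in rect a b θc, ‖iteratedFDeriv ℝ i D.x z‖ ^ 2 + ‖iteratedFDeriv ℝ i D.q z‖ ^ 2)
          ≤ 2 * CB ^ 2 * ((b - a) * (2 * θc)) := by
      intro a b ha hab hb
      refine int_le_const hcont (rect_big (by linarith) (by linarith) (by linarith)) hab hθ.le
        fun z hz => ?_
      obtain ⟨h1, h2⟩ := hB z (rect_mono ha hb (by linarith) hz) i hiN
      linarith [pow_le_pow_left₀ (norm_nonneg _) h1 2, pow_le_pow_left₀ (norm_nonneg _) h2 2]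
    have hθ2 : ∀ L' : ℝ, 0 ≤ L' → L' ≤ 10 * (1 / D.lam) →
        2 * CB ^ 2 * (L' * (2 * θc)) ≤ C * (1 / D.lam) := by
      intro L' h0 h1
      have h2 : L' * (2 * θc) ≤ 10 * (1 / D.lam) * 1 :=
        mul_le_mul h1 (by linarith) (by linarith) (by positivity)
      have h3 := mul_le_mul_of_nonneg_left h2 (show 0 ≤ 2 * CB ^ 2 by positivity)
      have h4 : (4 * CB ^ 2 * 10) * (1 / D.lam) ≤ C * (1 / D.lam) :=
        mul_le_mul_of_nonneg_right (by rw [hCd]; linarith) hw0.le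
      have h5 : 0 ≤ CB ^ 2 * (1 / D.lam) := by positivity
      linarith
    constructor
    · refine (hb _ _ (by linarith) (by linarith) (by linarith)).trans
        ((hθ2 _ (by linarith) (by linarith)).trans ?_)
      rw [mul_add]
      exact le_add_of_nonneg_right (mul_nonneg (by rw [hCd]; positivity) (sq_nonneg _))
    · refine (hb _ _ (by linarith) (by linarith) (by linarith)).trans
        ((hθ2 _ (by linarith) (by linarith)).trans_eq ?_)
      ring
  obtain ⟨k, rfl⟩ : ∃ k, i = N - 2 + k := ⟨i - (N - 2), by omega⟩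
  have hk5 : k ≤ 5 := by omega
  obtain ⟨⟨-, hp2, hp3⟩, -, hn2, hn3⟩ := hall k hk5 D _ hD hA hB hl
  have hCle : 2 * Ck k ≤ C := by
    have := Finset.single_le_sum (fun m hm => hCk m (Nat.lt_succ_iff.1 (Finset.mem_range.1 hm)))
      (Finset.mem_range.2 (show k < 6 by omega))
    rw [hCd]
    linarith [sq_nonneg CB]
  have hm0 : 0 ≤ (k : ℝ) * mesh N := mul_nonneg (Nat.cast_nonneg k) (by unfold mesh; positivity)
  have hm1 : (k : ℝ) * mesh N ≤ 1 / 100 := by
    have hk6 : (k : ℝ) ≤ (N : ℝ) + 10 := by exact_mod_cast (by omega : k ≤ N + 10)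
    rw [mesh, mul_one_div, div_le_div_iff₀ (by positivity) (by norm_num)]
    linarith
  have hk5' : (k : ℝ) ≤ 5 := by exact_mod_cast hk5
  have hk0 : (0 : ℝ) ≤ k := Nat.cast_nonneg k
  have key : ∀ (e b T : ℝ), b ≤ e → e ≤ 6 * (1 / D.lam) → -(6 * (1 / D.lam)) ≤ b →
      (∫ z in rect (-6 / D.lam) e (0.45 - (k : ℝ) * mesh N), en D.x (N - 2 + k) z) ≤ T →
      (∫ z in rect (-6 / D.lam) e (0.45 - (k : ℝ) * mesh N), en D.q (N - 2 + k) z) ≤ T →
      (∫ z in rect (-5 / D.lam) b θc, ‖iteratedFDeriv ℝ (N - 2 + k) D.x z‖ ^ 2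
        + ‖iteratedFDeriv ℝ (N - 2 + k) D.q z‖ ^ 2) ≤ 2 * T := by
    intro e b T hbe he hb h1 h2
    have hsub : rect (-5 / D.lam) b θc ⊆ rect (-6 / D.lam) e (0.45 - (k : ℝ) * mesh N) :=
      rect_mono (by linarith) hbe (by linarith)
    have hbig : rect (-6 / D.lam) e (0.45 - (k : ℝ) * mesh N) ⊆ Big :=
      rect_big (by linarith) (by linarith) (by linarith)
    have hboth : Continuous fun z => en D.x (N - 2 + k) z + en D.q (N - 2 + k) z :=
      (en_cont hx _).add (en_cont hq _)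
    refine (setIntegral_mono_on (integ hcont (hsub.trans hbig)) (integ hboth (hsub.trans hbig))
      (measurable_rect _ _ _) fun z _ =>
        add_le_add (sq_le_en _ le_rfl z) (sq_le_en _ le_rfl z)).trans ?_
    refine (int_mono_set hboth (fun z => add_nonneg (en_nonneg _ _ _) (en_nonneg _ _ _)) hsub
      hbig).trans ?_
    rw [integral_add (integ (en_cont hx _) hbig) (integ (en_cont hq _) hbig)]
    linarith
  constructor
  · refine (key _ _ _ ?_ ?_ (by linarith) hp2 hp3).trans ?_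
    · gcongr; linarith
    · rw [mul_one_div]; gcongr; linarith
    · have e1 : 1 / D.lam * (1 + bigT 1 D (N - 2 + k))
          = 1 / D.lam + (D.s * D.lam ^ (N - 2 + k) / D.lam ^ 2) ^ 2 := by
        unfold bigT; field_simp
      rw [← e1, ← mul_assoc]
      exact mul_le_mul_of_nonneg_right hCle
        (mul_nonneg hw0.le (by linarith [bigT_nonneg zero_le_one hl0 (N - 2 + k) (D := D)]))
  · refine (key _ _ _ ?_ ?_ (by linarith) hn2 hn3).trans ?_
    · gcongr; linarith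
    · rw [mul_one_div]; gcongr; linarith
    · have e1 : 1 / D.lam * (1 + bigT 0 D (N - 2 + k)) = 1 / D.lam := by
        unfold bigT; ring
      rw [e1, ← mul_assoc, div_eq_mul_one_div C]
      exact mul_le_mul_of_nonneg_right hCle hw0.le

end Boot
end Vale.Agent.P229
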