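import Vale.Agent.P229.BootAsm
import Vale.Agent.P229.BootB
import Vale.Agent.P229.BootC

/-
P229: the bootstrap theorem.
-/

namespace Vale.Agent.P229

theorem boot (he : EdgeSpec) (hc : CoreEnergySpec) (hp : PrepSpec) (hs : SobolevSpec) : BootSpec :=
  Boot.boot_of_phases
    (fun _L _N _δ _η0 _θ0 _c0 hs hN hk _η1 _θc hg S CA => Boot.phaseB hs hN hk hg S CA)
    (fun _L _N _δ _η0 _θ0 _c0 hN hk _η1 _θc hg S CA CB => Boot.phaseC hN hk hg S CA CB)
    he hc hp hs

end Vale.Agent.P229
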