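import Vale.Agent.P229.BootBase

/-
P229: the blob free phase of the bootstrap: all derivatives up to order `N + 3` are bounded
left of the core and in the elliptic ring.
-/

namespace Vale.Agent.P229
namespace Boot

open MeasureTheory Set
open scoped ContDiff

lemma reg_mono {t t' e e' : ℝ} (ht : t ≤ t') (he : e' ≤ e) : Reg t' e' ⊆ Reg t e := by
  rintro z ⟨h1, h2⟩
  exact ⟨by linarith, h2.imp (fun h => by linarith) fun h => lt_of_lt_of_le h he⟩

lemma reg_box_sub {t t' e e' ρ : ℝ} (ht : 0 ≤ t') (hρ0 : 0 ≤ ρ) (hρt : 16 * ρ ≤ t' - t)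
    (hρe : ρ ≤ e - e') (hρ1 : ρ ≤ 1) {z : P2} (hz : z ∈ Reg t' e') :
    Icc (z.1 - ρ) (z.1 + ρ) ×ˢ Icc (z.2 - ρ) (z.2 + ρ) ⊆ Reg t e := by
  rintro v ⟨⟨a1, a2⟩, b1, b2⟩
  obtain ⟨h1, h2⟩ := hz
  unfold rsq at h1 h2
  have hz1 : z.1 ^ 2 ≤ 4 := by linarith [sq_nonneg z.2]
  have hz2 : z.2 ^ 2 ≤ 4 := by linarith [sq_nonneg z.1]
  have c1 : |z.1| ≤ 2 := abs_le.2 ⟨by nlinarith, by nlinarith⟩
  have c2 : |z.2| ≤ 2 := abs_le.2 ⟨by nlinarith, by nlinarith⟩
  have d1 : |v.1 - z.1| ≤ ρ := abs_le.2 ⟨by linarith, by linarith⟩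
  have d2 : |v.2 - z.2| ≤ ρ := abs_le.2 ⟨by linarith, by linarith⟩
  have e1 : |v.1 ^ 2 - z.1 ^ 2| ≤ 5 * ρ := by
    have h : v.1 ^ 2 - z.1 ^ 2 = (v.1 - z.1) * ((v.1 - z.1) + 2 * z.1) := by ring
    rw [h, abs_mul]
    calc _ ≤ ρ * 5 := mul_le_mul d1 ((abs_add_le _ _).trans (by rw [abs_mul, abs_two]; linarith))
          (abs_nonneg _) hρ0
      _ = _ := by ring
  have e2 : |v.2 ^ 2 - z.2 ^ 2| ≤ 5 * ρ := by
    have h : v.2 ^ 2 - z.2 ^ 2 = (v.2 - z.2) * ((v.2 - z.2) + 2 * z.2) := by ring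
    rw [h, abs_mul]
    calc _ ≤ ρ * 5 := mul_le_mul d2 ((abs_add_le _ _).trans (by rw [abs_mul, abs_two]; linarith))
          (abs_nonneg _) hρ0
      _ = _ := by ring
  rw [abs_le] at e1 e2
  refine ⟨by unfold rsq; linarith, ?_⟩
  rcases h2 with h | h
  · exact Or.inl (by unfold rsq; linarith)
  · exact Or.inr (by linarith)

lemma reg_blob_free {θc t e lam : ℝ} (hθc : 0 < θc) (hθ1 : θc ≤ 1) (ht : 0 ≤ t)
    (he : e ≤ -θc / 4) (hlam : 20 / θc + 1 ≤ lam) {z : P2} (hz : z ∈ Reg t e) :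
    blobInd lam z = 0 := by
  have h20 : 20 / θc ≤ lam := by linarith
  have hl : 0 < lam := lt_of_lt_of_le (by positivity) h20
  have h2 : 2 / lam ≤ θc / 10 := by
    rw [div_le_iff₀ hl]
    rw [div_le_iff₀ hθc] at h20
    linarith
  have h3 : 0 < 1 / lam := by positivity
  have h4 : 2 / lam = 2 * (1 / lam) := by ring
  refine blobInd_zero ?_
  rcases hz.2 with h | h
  · by_contra hc
    simp only [not_or, not_lt] at hc
    obtain ⟨c1, c2⟩ := hc
    have q1 := sq_le_sq' (neg_le_of_abs_le c1) (le_of_abs_le c1)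
    have q2 := sq_le_sq' (neg_le_of_abs_le c2) (le_of_abs_le c2)
    have q3 : (2 / lam) ^ 2 ≤ 1 / 100 :=
      (pow_le_pow_left₀ (by positivity) (show 2 / lam ≤ 1 / 10 by linarith) 2).trans (by norm_num)
    have q4 : (1 / lam) ^ 2 ≤ 1 / 400 :=
      (pow_le_pow_left₀ h3.le (show 1 / lam ≤ 1 / 20 by linarith) 2).trans (by norm_num)
    unfold rsq at h
    linarith
  · exact Or.inl (by rw [abs_of_neg (by linarith)]; linarith)

/-- The invariant of the phase at level `n`. -/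
def AInv (L : ℕ → ℝ) (N : ℕ) (δ η0 η1 θc S C : ℝ) (n : ℕ) (t e : ℝ) : Prop :=
  ∀ D : Dt, D.Adm L N δ η0 η1 S (20 / θc + 1) →
    (∫ z in Reg t e, en D.x n z) ≤ C ∧ ∀ z ∈ Reg t e, D.Sup (max 15 (n - 2)) C z

variable {L : ℕ → ℝ} {N : ℕ} {δ η0 θ0 c0 η1 θc : ℝ}

lemma stepA (hs : SobolevSpec) (hN : 40 ≤ N) (hk : Kit L N δ η0 θ0 c0)
    (hg : Good N θ0 c0 η1 θc) (S : ℝ) {n : ℕ} (hn : 15 ≤ n) (hnN : n ≤ N + 4) {θ τ ρ : ℝ}
    (hθ : 0 < θ) (hθc : θ ≤ θc) (hηθ : 2 * η1 ≤ θ) (hρ : 0 < ρ) (hρθ : ρ ≤ θ) (hρ1 : ρ ≤ 1)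
    (hρτ : 32 * ρ ≤ τ) {t e C : ℝ} (ht : 0 ≤ t) (hτ : 0 < τ) (ht1 : t + τ ≤ 1)
    (he : e ≤ -θc / 4) (he0 : -θc ≤ e) (hinv : AInv L N δ η0 η1 θc S C n t e) :
    ∃ C', AInv L N δ η0 η1 θc S C' (n + 1) (t + τ) (e - 3 * θ) := by
  have := hg.pos
  have := hg.le_theta0
  have hθcs := hg.le_small
  obtain ⟨Ce, hCe⟩ := hk.edge n (by omega) (by omega) η1 θ t (t + τ / 2) hg.eta1_pos hθ
    (by linarith) ht (by linarith) (by linarith)
  obtain ⟨Cp, hCp0, hCp⟩ := hk.point n (by omega) (by omega) C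
  obtain ⟨Cs, hCs0, hCs⟩ := sup_tool hs ρ (n + 1) hρ
  -- constants for `q`
  have hpq : ∀ i : ℕ, ∃ K : ℝ, 0 ≤ K ∧ (16 ≤ i → i ≤ n + 1 → ∀ (D : Dt) (η1' S' lam0 : ℝ),
      D.Adm L N δ η0 η1' S' lam0 → ∀ z ∈ Box, D.Sup ((i - 1) / 2 + 6) C z →
      blobInd D.lam z = 0 → ‖iteratedFDeriv ℝ i D.q z‖ ^ 2 ≤ K * (1 + en D.x i z)) := by
    intro i
    by_cases hi : 16 ≤ i ∧ i ≤ n + 1
    · obtain ⟨K, hK0, hK⟩ := hk.point (i - 1) (by omega) (by omega) C
      refine ⟨K, hK0, fun _ _ D η1' S' lam0 hD z hz hM hb => ?_⟩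
      obtain ⟨-, -, h⟩ := hK D η1' S' lam0 hD z hz hM
      rw [hb, zero_mul, add_zero, Nat.sub_add_cancel (by omega : 1 ≤ i)] at h
      exact h
    · exact ⟨0, le_rfl, fun a b => absurd ⟨a, b⟩ hi⟩
  choose Kq hKq0 hKq using hpq
  set A : ℝ := |Ce| * (|Cp| + 1) * (36 + |C|)
  set B : ℝ := |C| + |Cp| * (36 + (A + |C|))
  set M : ℝ := 1 + Cs * B
  set Q : ℝ := 1 + (∑ i ∈ Finset.range (n + 2), Kq i) * (1 + (n + 2 : ℕ) * M ^ 2)
  refine ⟨max (max B M) (max Q (δ + 4)), fun D hD => ?_⟩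
  obtain ⟨hint, hsup⟩ := hinv D hD
  have hl := hD.lam_ge
  have hx := hD.sol.smx
  set tm := t + τ / 2 with htmd
  set em := e - 2 * θ with hemd
  have hsubm : Reg tm em ⊆ Reg t e := reg_mono (by linarith) (by linarith)
  have htm : 0 ≤ tm := by linarith
  have hfree : ∀ z ∈ Reg t e, blobInd D.lam z = 0 := fun z hz =>
    reg_blob_free hg.pos (by linarith) ht he hl hz
  have hpt : ∀ z ∈ Reg t e,
      coefR D.H D.x D.q n z ^ 2 ≤ Cp * (1 + en D.x n z) ∧
      ‖iteratedFDeriv ℝ (n + 1) D.x z‖ ^ 2 ≤ Cp * (1 + (D.grad n z + en D.x n z)) := by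
    intro z hz
    obtain ⟨h1, h2, -⟩ := hCp D η1 S _ hD z (reg_box ht hz)
      ((hsup z hz).mono (by omega) le_rfl)
    rw [hfree z hz, zero_mul, add_zero] at h1 h2
    exact ⟨h1, h2⟩
  have hI0 : 0 ≤ ∫ z in Reg t e, en D.x n z := integral_nonneg fun z => en_nonneg _ _ _
  have hIC : (∫ z in Reg t e, en D.x n z) ≤ |C| := hint.trans (le_abs_self C)
  -- energy of the new row
  have hA : (∫ z in Reg tm em, D.grad n z) ≤ A := by
    have h := hCe D S _ (e - θ) hD (hD.eta_le.trans hηθ)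
      (abs_le.2 ⟨by linarith, by linarith⟩)
    rw [show e - θ - θ = em by ring, sub_add_cancel] at h
    have hb : (∫ z in Reg t e, (en D.x n z + coefR D.H D.x D.q n z ^ 2))
        ≤ (|Cp| + 1) * (36 + |C|) := by
      have hb' := int_bound (lam := D.lam) (C := Cp + 1) (D := 0) (reg_big ht) (measurable_reg t e)
        (integ ((en_cont hx n).add ((hk.cont n (by omega) (by omega) D η1 S _ hD).pow 2))
          (reg_big ht)) (en_cont hx n) (fun z hz => by
          have := (hpt z hz).1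
          show en D.x n z + coefR D.H D.x D.q n z ^ 2 ≤ _
          nlinarith [en_nonneg D.x n z])
      refine hb'.trans ?_
      rw [mul_zero, add_zero, abs_of_nonneg hCp0]
      exact mul_le_mul_of_nonneg_left (add_le_add (vol_le_big (reg_big ht)) hIC) (by linarith)
    have hR0 : 0 ≤ ∫ z in Reg t e, (en D.x n z + coefR D.H D.x D.q n z ^ 2) :=
      integral_nonneg fun z => add_nonneg (en_nonneg _ _ _) (sq_nonneg _)
    refine h.trans ((mul_le_mul (le_abs_self Ce) hb hR0 (abs_nonneg _)).trans_eq ?_)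
    simp only [A]; ring
  have hB : (∫ z in Reg tm em, en D.x (n + 1) z) ≤ B := by
    have e1 : en D.x (n + 1) = fun z => en D.x n z + ‖iteratedFDeriv ℝ (n + 1) D.x z‖ ^ 2 :=
      funext fun z => en_succ _ _ _
    have cD : Continuous fun z => ‖iteratedFDeriv ℝ (n + 1) D.x z‖ ^ 2 :=
      ((hx.continuous_iteratedFDeriv (by norm_cast; simp)).norm).pow 2
    rw [e1, integral_add (integ (en_cont hx n) (reg_big htm)) (integ cD (reg_big htm))]
    refine add_le_add ((int_mono_set (en_cont hx n) (en_nonneg _ _) hsubm (reg_big ht)).trans hIC)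
      ?_
    have hb' := int_bound (lam := D.lam) (C := Cp) (D := 0)
      (g := fun z => D.grad n z + en D.x n z) (reg_big htm) (measurable_reg tm em)
      (integ cD (reg_big htm)) ((grad_cont hx n).add (en_cont hx n))
      (fun z hz => by have := (hpt z (hsubm hz)).2; simpa using this)
    refine hb'.trans ?_
    rw [mul_zero, add_zero, abs_of_nonneg hCp0]
    refine mul_le_mul_of_nonneg_left (add_le_add (vol_le_big (reg_big htm)) ?_) hCp0
    rw [integral_add (integ (grad_cont hx n) (reg_big htm)) (integ (en_cont hx n) (reg_big htm))]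
    exact add_le_add hA
      ((int_mono_set (en_cont hx n) (en_nonneg _ _) hsubm (reg_big ht)).trans hIC)
  refine ⟨?_, fun z hz => ?_⟩
  · exact ((int_mono_set (en_cont hx (n + 1)) (en_nonneg _ _)
      (reg_mono (by linarith) (by linarith)) (reg_big htm)).trans hB).trans
      ((le_max_left _ _).trans (le_max_left _ _))
  have hzt : z ∈ Reg t e := reg_mono (by linarith) (by linarith) hz
  have hzb : z ∈ Box := reg_box ht hzt
  intro i hi
  by_cases hi15 : i ≤ 15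
  · obtain ⟨a, b⟩ := base_sup hD hzb i hi15
    exact ⟨a.trans ((le_max_right _ _).trans (le_max_right _ _)),
      b.trans ((le_max_right _ _).trans (le_max_right _ _))⟩
  have hi' : i ≤ n - 1 := by omega
  have hxb : ∀ m, m ≤ i → ‖iteratedFDeriv ℝ m D.x z‖ ≤ M := by
    intro m hm
    have hsub : Icc (z.1 - ρ) (z.1 + ρ) ×ˢ Icc (z.2 - ρ) (z.2 + ρ) ⊆ Reg tm em :=
      reg_box_sub (by linarith) hρ.le (by linarith) (by linarith) hρ1 hz
    refine (hCs D.x hx z m (by omega)).trans ?_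
    have hmono := (int_mono_set (en_cont hx (n + 1)) (en_nonneg _ _) hsub (reg_big htm)).trans hB
    exact add_le_add le_rfl (mul_le_mul_of_nonneg_left hmono hCs0)
  refine ⟨(hxb i le_rfl).trans ((le_max_right _ _).trans (le_max_left _ _)), ?_⟩
  refine le_trans ?_ ((le_max_left _ _).trans (le_max_right _ _))
  refine (le_one_add_of_sq_le (hKq i (by omega) (by omega) D η1 S _ hD z hzb
    ((hsup z hzt).mono (by omega) le_rfl) (hfree z hzt))).trans ?_
  refine add_le_add le_rfl (mul_le_mul ?_ ?_ ?_ ?_)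
  · exact Finset.single_le_sum (fun k _ => hKq0 k) (Finset.mem_range.2 (by omega))
  · have hs' : en D.x i z ≤ (n + 2 : ℕ) * M ^ 2 := by
      unfold en
      refine (Finset.sum_le_sum fun m hm => pow_le_pow_left₀ (norm_nonneg _)
        (hxb m (by have := Finset.mem_range.1 hm; omega)) 2).trans ?_
      rw [Finset.sum_const, Finset.card_range, nsmul_eq_mul]
      exact mul_le_mul_of_nonneg_right (by norm_cast; omega) (sq_nonneg _)
    linarith
  · linarith [en_nonneg D.x i z]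
  · exact Finset.sum_nonneg fun k _ => hKq0 k

lemma baseA (θc S : ℝ) :
    ∃ C, AInv L N δ η0 η1 θc S C 15 0 (-θc / 4) := by
  refine ⟨max (36 * ((15 + 1 : ℕ) * (δ + 4) ^ 2)) (δ + 4), fun D hD => ?_⟩
  have hpt : ∀ z ∈ Reg 0 (-θc / 4), en D.x 15 z ≤ (15 + 1 : ℕ) * (δ + 4) ^ 2 := by
    intro z hz
    have h := base_sup hD (reg_box le_rfl hz)
    unfold en
    refine (Finset.sum_le_sum fun m hm => pow_le_pow_left₀ (norm_nonneg _)
      (h m (by have := Finset.mem_range.1 hm; omega)).1 2).trans ?_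
    rw [Finset.sum_const, Finset.card_range, nsmul_eq_mul]
  refine ⟨?_, fun z hz => ?_⟩
  · refine le_trans ?_ (le_max_left _ _)
    refine (setIntegral_mono_on (integ (en_cont hD.sol.smx 15) (reg_big le_rfl))
      (integ continuous_const (reg_big le_rfl)) (measurable_reg _ _) hpt).trans ?_
    rw [setIntegral_const, smul_eq_mul]
    exact mul_le_mul_of_nonneg_right (vol_le_big (reg_big le_rfl)) (by positivity)
  · exact (base_sup hD (reg_box le_rfl hz)).mono (by norm_num) (le_max_right _ _)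

theorem phaseA (hs : SobolevSpec) (hN : 40 ≤ N) (hk : Kit L N δ η0 θ0 c0)
    (hg : Good N θ0 c0 η1 θc) (S : ℝ) :
    ∃ C lam0 : ℝ, 1 ≤ lam0 ∧ ∀ D : Dt, D.Adm L N δ η0 η1 S lam0 → AOut N θc C D := by
  have hθc := hg.pos
  have hN0 : (0 : ℝ) < 100 * ((N : ℝ) + 10) := by positivity
  set θ := θc / (100 * ((N : ℝ) + 10)) with hθdef
  set τ := 1 / (4 * ((N : ℝ) + 10)) with hτdef
  have hθ : 0 < θ := by positivity
  have hτ : 0 < τ := by positivity
  have hθle : θ ≤ θc := div_le_self hθc.le (by linarith [show (0:ℝ) ≤ N from Nat.cast_nonneg N])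
  set ρ := min θ (τ / 32) with hρdef
  have hρ : 0 < ρ := lt_min hθ (by positivity)
  have hnθ : ∀ k : ℕ, k ≤ N + 10 → (k : ℝ) * θ ≤ θc / 100 ∧ (k : ℝ) * τ ≤ 1 / 4 := by
    intro k hk
    have hk' : (k : ℝ) ≤ (N : ℝ) + 10 := by exact_mod_cast hk
    constructor
    · calc (k : ℝ) * θ ≤ ((N : ℝ) + 10) * θ := mul_le_mul_of_nonneg_right hk' hθ.le
        _ = θc / 100 := by rw [hθdef]; field_simp
    · calc (k : ℝ) * τ ≤ ((N : ℝ) + 10) * τ := mul_le_mul_of_nonneg_right hk' hτ.le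
        _ = 1 / 4 := by rw [hτdef]; field_simp
  have main : ∀ n, 15 ≤ n → n ≤ N + 5 → ∃ C, AInv L N δ η0 η1 θc S C n (((n - 15 : ℕ) : ℝ) * τ)
      (-θc / 4 - 3 * ((n - 15 : ℕ) : ℝ) * θ) := by
    intro n hn
    induction n, hn using Nat.le_induction with
    | base => intro _; simpa using baseA (L := L) (N := N) (δ := δ) (η0 := η0) (η1 := η1) θc S
    | succ n hn ih =>
      intro hnN
      obtain ⟨C, hC⟩ := ih (by omega)
      obtain ⟨a1, a2⟩ := hnθ (n - 15) (by omega)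
      obtain ⟨b1, b2⟩ := hnθ (n - 15 + 1) (by omega)
      push_cast at b1 b2
      have ρτ : 32 * ρ ≤ τ := by linarith [min_le_right θ (τ / 32)]
      have hsm := hg.le_small
      have hρ1 : ρ ≤ 1 := (min_le_left θ (τ / 32)).trans (by linarith)
      have h0 : (0 : ℝ) ≤ ((n - 15 : ℕ) : ℝ) * θ := by positivity
      obtain ⟨C', hC'⟩ := stepA hs hN hk hg S hn (by omega) hθ hθle hg.eta_le hρ
        (min_le_left _ _) hρ1 ρτ (by positivity) hτ (by linarith) (by linarith) (by linarith) hC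
      refine ⟨C', ?_⟩
      rw [show n + 1 - 15 = n - 15 + 1 by omega]
      push_cast
      convert hC' using 1 <;> ring
  obtain ⟨C, hC⟩ := main (N + 5) (by omega) le_rfl
  refine ⟨C, 20 / θc + 1, by linarith [show 0 ≤ 20 / θc by positivity], fun D hD z hz1 hz2 => ?_⟩
  obtain ⟨a1, a2⟩ := hnθ (N + 5 - 15) (by omega)
  refine ((hC D hD).2 z ⟨by linarith, Or.inr ?_⟩).mono (by omega) le_rfl
  linarith

end Boot
end Vale.Agent.P229
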