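import Vale.Agent.P229.BootA

/-
P229: assembly of the bootstrap from its phases; the right side follows by reflection.
-/

namespace Vale.Agent.P229
namespace Boot

open MeasureTheory Set
open scoped ContDiff

/-- The density of the strip integrals. -/
noncomputable def dens (x q : P2 → ℝ) (i : ℕ) (z : P2) : ℝ :=
  ‖iteratedFDeriv ℝ i x z‖ ^ 2 + ‖iteratedFDeriv ℝ i q z‖ ^ 2

/-- Statement of the middle phase. -/
def PhaseBSpec : Prop :=
  ∀ (L : ℕ → ℝ) (N : ℕ) (δ η0 θ0 c0 : ℝ), SobolevSpec → 40 ≤ N → Kit L N δ η0 θ0 c0 →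
    ∀ η1 θc : ℝ, Good N θ0 c0 η1 θc → ∀ S CA : ℝ, ∃ C lam0 : ℝ, 1 ≤ lam0 ∧
      ∀ D : Dt, D.Adm L N δ η0 η1 S lam0 → AOut N θc CA D → BOut N θc C D

/-- Statement of the strip phase. -/
def PhaseCSpec : Prop :=
  ∀ (L : ℕ → ℝ) (N : ℕ) (δ η0 θ0 c0 : ℝ), 40 ≤ N → Kit L N δ η0 θ0 c0 →
    ∀ η1 θc : ℝ, Good N θ0 c0 η1 θc → ∀ S CA CB : ℝ, ∃ C lam0 : ℝ, 1 ≤ lam0 ∧
      ∀ D : Dt, D.Adm L N δ η0 η1 S lam0 → AOut N θc CA D → BOut N θc CB D →
        ∀ i ≤ N + 3,
          (∫ z in rect (-5 / D.lam) (5 / D.lam) θc,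
            ‖iteratedFDeriv ℝ i D.x z‖ ^ 2 + ‖iteratedFDeriv ℝ i D.q z‖ ^ 2)
              ≤ C * (1 / D.lam + (D.s * D.lam ^ i / D.lam ^ 2) ^ 2) ∧
          (∫ z in rect (-5 / D.lam) (-3 / D.lam) θc,
            ‖iteratedFDeriv ℝ i D.x z‖ ^ 2 + ‖iteratedFDeriv ℝ i D.q z‖ ^ 2) ≤ C / D.lam

lemma dens_cont {x q : P2 → ℝ} (hx : ContDiff ℝ ∞ x) (hq : ContDiff ℝ ∞ q) (i : ℕ) :
    Continuous (dens x q i) :=
  (((hx.continuous_iteratedFDeriv (by norm_cast; simp)).norm).pow 2).add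
    (((hq.continuous_iteratedFDeriv (by norm_cast; simp)).norm).pow 2)

theorem boot_of_phases (hb : PhaseBSpec) (hcs : PhaseCSpec)
    (he : EdgeSpec) (hc : CoreEnergySpec) (hp : PrepSpec) (hs : SobolevSpec) : BootSpec := by
  intro L N hN
  obtain ⟨δ, η0, θ0, c0, hδ, hη0, hθ0, hc0, hk⟩ := exists_kit he hc hp L N hN
  have hN0 : (0 : ℝ) < (N : ℝ) + 10 := by positivity
  have hm : 0 < mesh N := by unfold mesh; positivity
  set c1 := min (c0 * mesh N ^ 2) (min (θ0 / 4) 0.01) with hc1def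
  have hc1 : 0 < c1 := lt_min (by positivity) (lt_min (by linarith) (by norm_num))
  set b := c1 / (200 * ((N : ℝ) + 10)) with hbdef
  have hb0 : 0 < b := by positivity
  refine ⟨δ, min η0 (min 1 (b ^ 2)), hδ, lt_min hη0 (lt_min one_pos (by positivity)),
    fun η1 S hη1 hη10 hS => ?_⟩
  have hsq : 0 < Real.sqrt η1 := Real.sqrt_pos.2 hη1
  have hs1 : Real.sqrt η1 ≤ 1 :=
    Real.sqrt_le_one.2 (hη10.trans ((min_le_right _ _).trans (min_le_left _ _)))
  have hsb : Real.sqrt η1 ≤ b := by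
    rw [← Real.sqrt_sq hb0.le]
    exact Real.sqrt_le_sqrt (hη10.trans ((min_le_right _ _).trans (min_le_right _ _)))
  set θc := c1 * Real.sqrt η1 with hθdef
  have hθ : 0 < θc := mul_pos hc1 hsq
  have hθle : θc ≤ c1 := mul_le_of_le_one_right hc1.le hs1
  have hcθ : c1 ≤ θ0 / 4 := (min_le_right _ _).trans (min_le_left _ _)
  have hcs' : c1 ≤ 0.01 := (min_le_right _ _).trans (min_le_right _ _)
  have hg : Good N θ0 c0 η1 θc := by
    refine ⟨hη1, hθ, hθle.trans hcs', by linarith, ?_, ?_⟩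
    · calc θc ≤ c0 * mesh N ^ 2 * Real.sqrt η1 :=
            mul_le_mul_of_nonneg_right (min_le_left _ _) hsq.le
        _ = _ := by ring
    · rw [le_div_iff₀ (by positivity)]
      rw [hbdef, le_div_iff₀ (by positivity)] at hsb
      have h2 := mul_le_mul_of_nonneg_left hsb hsq.le
      calc 2 * η1 * (100 * ((N : ℝ) + 10))
          = Real.sqrt η1 * (Real.sqrt η1 * (200 * ((N : ℝ) + 10))) := by
            linear_combination (-(200 * ((N : ℝ) + 10))) * Real.mul_self_sqrt hη1.le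
        _ ≤ Real.sqrt η1 * c1 := h2
        _ = θc := by rw [hθdef]; ring
  obtain ⟨CA, lA, hlA, hA⟩ := phaseA hs hN hk hg S
  obtain ⟨CB, lB, hlB, hB⟩ := hb L N δ η0 θ0 c0 hs hN hk η1 θc hg S CA
  obtain ⟨CC, lC, hlC, hC⟩ := hcs L N δ η0 θ0 c0 hN hk η1 θc hg S CA CB
  refine ⟨max CB CC, θc / 4, max (max lA lB) (max lC (max (S / δ) 10)), by linarith,
    hlA.trans ((le_max_left _ _).trans (le_max_left _ _)),
    fun lam η s hlam h1 h2 h3 hlo hhi Hb Hs x q hF hSol => ?_⟩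
  simp only [max_le_iff] at hlam
  obtain ⟨⟨g1, g2⟩, g3, g4, g5⟩ := hlam
  have hlam0 : 0 < lam := by linarith
  have hpow : 0 < lam ^ N := pow_pos hlam0 N
  have hs0 : 0 ≤ s := by
    have h : 0 < s * lam ^ N := lt_of_lt_of_le (inv_pos.2 (by linarith)) hlo
    exact (pos_of_mul_pos_left h hpow.le).le
  set D : Dt := ⟨η, s, lam, Hb, Hs, x, q⟩ with hDdef
  have hadm : ∀ l, l ≤ lam → D.Adm L N δ η0 η1 S l := fun l hl =>
    ⟨hη1, h1, h2, h3.trans (min_le_left _ _), by show (1:ℝ) ≤ lam; linarith, hl, hs0,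
      fun m hm => by
        show s * lam ^ m ≤ δ
        have hmono : s * lam ^ m ≤ s * lam ^ (N - 1) :=
          mul_le_mul_of_nonneg_left (pow_le_pow_right₀ (by linarith) hm) hs0
        have hN1 : lam ^ N = lam ^ (N - 1) * lam := by rw [← pow_succ]; congr 1; omega
        rw [div_le_iff₀ hδ] at g4
        rw [hN1, ← mul_assoc] at hhi
        have h4 : s * lam ^ (N - 1) * lam ≤ δ * lam := by linarith
        exact hmono.trans (le_of_mul_le_mul_right h4 hlam0),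
      hhi, hF, hSol⟩
  have hBD : BOut N θc CB D := hB D (hadm lB g2) (hA D ((hadm lA g1)))
  refine ⟨fun z hz1 hz2 i hi => ?_, fun i hi => ?_⟩
  · have hmem : z ∈ rect (-3 * θc) (θc / 4) 0.5 := by
      rw [abs_le] at hz1 hz2
      exact ⟨⟨by linarith, by linarith⟩, by linarith, by linarith⟩
    obtain ⟨a, b⟩ := hBD z hmem i (by omega)
    exact ⟨a.trans (le_max_left _ _), b.trans (le_max_left _ _)⟩
  have hR : BOut N θc CB D.refl := hB D.refl (hadm lB g2).refl (hA D.refl (hadm lA g1).refl)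
  obtain ⟨c1', c2'⟩ := hC D (hadm lC g3) (hA D (hadm lA g1)) hBD i hi
  obtain ⟨-, c3'⟩ := hC D.refl (hadm lC g3).refl (hA D.refl (hadm lA g1).refl) hR i hi
  have h5 : 5 / lam ≤ 1 := by rw [div_le_one hlam0]; linarith
  have h3' : 0 < 3 / lam := by positivity
  have e5 : -5 / lam = -(5 / lam) := neg_div _ _
  have e3 : -3 / lam = -(3 / lam) := neg_div _ _
  have h35 : 3 / lam ≤ 5 / lam := by gcongr; norm_num
  have hθs := hg.le_small
  have hcont : Continuous (dens x q i) := dens_cont hSol.smx hSol.smq i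
  have hnn : ∀ z, 0 ≤ dens x q i z := fun z => add_nonneg (sq_nonneg _) (sq_nonneg _)
  have shrink : ∀ a a' : ℝ, -3 ≤ a → a' ≤ 3 →
      (∫ z in rect a a' (θc / 4), dens x q i z) ≤ ∫ z in rect a a' θc, dens x q i z :=
    fun a a' ha ha' => int_mono_set hcont hnn (rect_mono le_rfl le_rfl (by linarith))
      (rect_big ha ha' (by linarith))
  have hK : 0 ≤ 1 / lam + (s * lam ^ i / lam ^ 2) ^ 2 := by positivity
  refine ⟨?_, ?_, ?_⟩
  · exact (shrink _ _ (by linarith) (by linarith)).trans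
      (c1'.trans (mul_le_mul_of_nonneg_right (le_max_right _ _) hK))
  · exact (shrink _ _ (by linarith) (by linarith)).trans
      (c2'.trans (div_le_div_of_nonneg_right (le_max_right _ _) hlam0.le))
  · refine (shrink _ _ (by linarith) (by linarith)).trans ?_
    have e : (∫ z in rect (3 / lam) (5 / lam) θc, dens x q i z)
        = ∫ z in rect (-5 / lam) (-3 / lam) θc,
          ‖iteratedFDeriv ℝ i (refX x) z‖ ^ 2 + ‖iteratedFDeriv ℝ i (refQ q) z‖ ^ 2 := by
      simp only [norm_iter_refX, norm_iter_refQ]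
      show _ = ∫ z in rect (-5 / lam) (-3 / lam) θc, dens x q i (refP z)
      rw [setIntegral_refP, rect, rect, refP_image_prod, e5, e3, neg_neg, neg_neg]
    exact e ▸ c3'.trans (div_le_div_of_nonneg_right (le_max_right _ _) hlam0.le)

end Boot
end Vale.Agent.P229
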