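import Vale.Agent.P229.Defs

/-
P229: calculus helpers for the partial derivatives `dp`, `dy`.
-/

namespace Vale.Agent.P229

open MeasureTheory
open scoped ContDiff

variable {f g : P2 → ℝ} {z : P2}

lemma contDiff_dp {n : WithTop ℕ∞} (hf : ContDiff ℝ (n + 1) f) : ContDiff ℝ n (dp f) :=
  (hf.fderiv_right le_rfl).clm_apply contDiff_const

lemma contDiff_dy {n : WithTop ℕ∞} (hf : ContDiff ℝ (n + 1) f) : ContDiff ℝ n (dy f) :=
  (hf.fderiv_right le_rfl).clm_apply contDiff_const

lemma smooth_dp (hf : ContDiff ℝ ∞ f) : ContDiff ℝ ∞ (dp f) := contDiff_dp (hf.of_le (by simp))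

lemma smooth_dy (hf : ContDiff ℝ ∞ f) : ContDiff ℝ ∞ (dy f) := contDiff_dy (hf.of_le (by simp))

lemma smooth_iter (hf : ContDiff ℝ ∞ f) : ∀ n : ℕ, ContDiff ℝ ∞ (dp^[n] f)
  | 0 => hf
  | n + 1 => by rw [Function.iterate_succ_apply']; exact smooth_dp (smooth_iter hf n)

lemma continuous_dp (hf : ContDiff ℝ 1 f) : Continuous (dp f) :=
  (contDiff_dp (n := 0) (by simpa using hf)).continuous

lemma continuous_dy (hf : ContDiff ℝ 1 f) : Continuous (dy f) :=
  (contDiff_dy (n := 0) (by simpa using hf)).continuous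

lemma dp_mul (hf : DifferentiableAt ℝ f z) (hg : DifferentiableAt ℝ g z) :
    dp (fun v => f v * g v) z = dp f z * g z + f z * dp g z := by
  unfold dp
  rw [fderiv_fun_mul hf hg]
  simp
  ring

lemma dy_mul (hf : DifferentiableAt ℝ f z) (hg : DifferentiableAt ℝ g z) :
    dy (fun v => f v * g v) z = dy f z * g z + f z * dy g z := by
  unfold dy
  rw [fderiv_fun_mul hf hg]
  simp
  ring

lemma dp_add (hf : DifferentiableAt ℝ f z) (hg : DifferentiableAt ℝ g z) :
    dp (fun v => f v + g v) z = dp f z + dp g z := by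
  unfold dp; rw [fderiv_fun_add hf hg]; rfl

lemma dy_add (hf : DifferentiableAt ℝ f z) (hg : DifferentiableAt ℝ g z) :
    dy (fun v => f v + g v) z = dy f z + dy g z := by
  unfold dy; rw [fderiv_fun_add hf hg]; rfl

lemma dy_dp_eq (hf : ContDiff ℝ 2 f) (z : P2) : dy (dp f) z = dp (dy f) z := by
  have hd : DifferentiableAt ℝ (fderiv ℝ f) z :=
    ((hf.fderiv_right (m := 1) le_rfl).differentiable one_ne_zero).differentiableAt
  have e : ∀ v w : P2, fderiv ℝ (fun u => fderiv ℝ f u v) z w
      = fderiv ℝ (fderiv ℝ f) z w v := by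
    intro v w
    rw [fderiv_clm_apply hd (differentiableAt_const v)]
    simp
  have hs := hf.contDiffAt (x := z) |>.isSymmSndFDerivAt (by simp)
  show fderiv ℝ (fun u => fderiv ℝ f u (1, 0)) z (0, 1) = fderiv ℝ (fun u => fderiv ℝ f u (0, 1)) z (1, 0)
  rw [e, e]
  exact hs _ _

lemma int_fderiv (hf : ContDiff ℝ 1 f) (hc : HasCompactSupport f) (v : P2) :
    ∫ z, fderiv ℝ f z v = 0 := by
  have hd : Continuous fun z => fderiv ℝ f z v :=
    (hf.continuous_fderiv one_ne_zero).clm_apply continuous_const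
  have hi : Integrable fun z => fderiv ℝ f z v :=
    hd.integrable_of_hasCompactSupport (hc.fderiv_apply ℝ v)
  have h := integral_mul_fderiv_eq_neg_fderiv_mul_of_integrable (μ := (volume : Measure P2))
    (f := f) (g := fun _ => (1 : ℝ)) (v := v) (by simpa using hi) (by simp)
    (by simpa using hf.continuous.integrable_of_hasCompactSupport hc)
    (fun x _ => (hf.differentiable one_ne_zero).differentiableAt)
    (fun x _ => differentiableAt_const _)
  simpa using h.symm

lemma int_dp (hf : ContDiff ℝ 1 f) (hc : HasCompactSupport f) : ∫ z, dp f z = 0 :=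
  int_fderiv hf hc _

lemma int_dy (hf : ContDiff ℝ 1 f) (hc : HasCompactSupport f) : ∫ z, dy f z = 0 :=
  int_fderiv hf hc _

end Vale.Agent.P229
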