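import Vale.Agent.P229.Defs

/-
P229: statements of the modules of the proof. Each is proved in its own file as
`theorem <name> : <Name>Spec`.
-/

namespace Vale.Agent.P229

open MeasureTheory
open scoped ContDiff

/-- Energy estimate in the elliptic ring and on the island left of an edge. -/
def EdgeSpec : Prop :=
  ∀ g Γ : ℝ, 2 ≤ g → 0 ≤ Γ → ∃ δ η0 θ0 : ℝ, 0 < δ ∧ 0 < η0 ∧ 0 < θ0 ∧
    ∀ η1 θ t t' : ℝ, 0 < η1 → 0 < θ → θ ≤ θ0 → 0 ≤ t → t < t' → t' ≤ 1 →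
    ∃ C : ℝ, ∀ η : ℝ, η1 ≤ η → η ≤ η0 → η ≤ θ →
      ∀ (κ ν G G1 R w : P2 → ℝ) (e : ℝ), |e| ≤ θ0 →
      CoefClose δ Γ g κ ν G G1 → LinEq η κ ν G G1 R w (Reg t (e + θ)) →
      (∫ z in Reg t' (e - θ), (dp w z ^ 2 + dy w z ^ 2))
        ≤ C * ∫ z in Reg t (e + θ), (w z ^ 2 + R z ^ 2)

/-- Hyperbolic energy estimate in the core, sharp on strips of width `w0`. -/
def CoreEnergySpec : Prop :=
  ∀ Γ : ℝ, 0 ≤ Γ → ∃ η0 c0 : ℝ, 0 < η0 ∧ 0 < c0 ∧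
    ∀ η1 y1 y2 K θc : ℝ, 0 < η1 → 0 < y1 → y1 < y2 → y2 ≤ 0.7 → 2 ≤ K →
    0 < θc → θc ≤ c0 * Real.sqrt η1 * (y2 - y1) ^ 2 →
    ∃ C : ℝ, ∀ η w0 e : ℝ, η1 ≤ η → η ≤ η0 → 0 < w0 → K * w0 ≤ θc → |e| ≤ θc →
    ∀ (κ ν G G1 R w : P2 → ℝ),
      (∀ z ∈ Set.Icc (-3 * θc) e ×ˢ Set.Icc (-y2) y2,
        κ z ≤ -(1 / 4) ∧ |κ z| ≤ Γ ∧ |dp κ z| ≤ Γ ∧ |dy κ z| ≤ Γ ∧
        |ν z| ≤ Γ ∧ |dp ν z| ≤ Γ ∧ |dy ν z| ≤ Γ ∧ |G z| ≤ Γ ∧ |G1 z| ≤ Γ) →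
      LinEq η κ ν G G1 R w (Set.Icc (-3 * θc) e ×ˢ Set.Icc (-y2) y2) →
      (∫ z in Set.Icc (-2 * θc) (e - w0) ×ˢ Set.Icc (-y1) y1, (dp w z ^ 2 + dy w z ^ 2))
        + w0⁻¹ * (∫ z in Set.Icc (max (e - K * w0) (-2 * θc)) (e - w0) ×ˢ Set.Icc (-y1) y1,
            (dp w z ^ 2 + dy w z ^ 2))
        ≤ C * ((∫ z in Set.Icc (-3 * θc) (-2 * θc) ×ˢ Set.Icc (-y2) y2,
              (dp w z ^ 2 + dy w z ^ 2))
          + (∫ z in Set.Icc (-3 * θc) (e - K * w0) ×ˢ Set.Icc (-y2) y2, R z ^ 2)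
          + w0 * ∫ z in Set.Icc (e - K * w0) e ×ˢ Set.Icc (-y2) y2, R z ^ 2)

/-- Composition bound, linear in the high derivatives, with the top term split off. -/
def CompSpec : Prop :=
  ∀ (k : ℕ) (L : ℝ), ∃ C : ℝ, ∀ (H : V6 → ℝ) (W : P2 → V6) (z : P2),
    ContDiff ℝ ∞ H → ContDiff ℝ ∞ W →
    (∀ m, m ≤ k / 2 + 2 → ‖iteratedFDeriv ℝ m H (W z)‖ ≤ L) →
    (∀ i, 1 ≤ i → i ≤ k / 2 + 2 → ‖iteratedFDeriv ℝ i W z‖ ≤ L) →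
    ‖iteratedFDeriv ℝ k (fun v => H (W v)) z‖ ≤
      ‖fderiv ℝ H (W z)‖ * ‖iteratedFDeriv ℝ k W z‖
        + C * (1 + (∑ m ∈ Finset.range (k + 1), ‖iteratedFDeriv ℝ m H (W z)‖)
          + ∑ i ∈ Finset.Icc 1 (k - 1), ‖iteratedFDeriv ℝ i W z‖)

/-- The two top orders of a derivative along the first direction of a composition. -/
def LinRemSpec : Prop :=
  ∀ (j : ℕ) (L : ℝ), 3 ≤ j → ∃ C : ℝ, ∀ (H : V6 → ℝ) (W : P2 → V6) (z : P2),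
    ContDiff ℝ ∞ H → ContDiff ℝ ∞ W →
    (∀ m, m ≤ j / 2 + 3 → ‖iteratedFDeriv ℝ m H (W z)‖ ≤ L) →
    (∀ i, 1 ≤ i → i ≤ j / 2 + 3 → ‖iteratedFDeriv ℝ i W z‖ ≤ L) →
    |dp^[j + 1] (fun v => H (W v)) z
        - fderiv ℝ H (W z) (fun i => dp^[j + 1] (fun v => W v i) z)
        - ((j : ℝ) + 1) * ∑ i : Fin 6, dp (fun v => fderiv ℝ H (W v) (Pi.single i 1)) z
            * dp^[j] (fun v => W v i) z|
      ≤ C * (1 + (∑ m ∈ Finset.range (j + 2), ‖iteratedFDeriv ℝ m H (W z)‖)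
        + ∑ i ∈ Finset.Icc 1 (j - 1), ‖iteratedFDeriv ℝ i W z‖)

/-- All derivatives from two pure rows and the second derivative in `y`. -/
def MixedSpec : Prop :=
  ∀ k : ℕ, 2 ≤ k → ∃ C : ℝ, ∀ (f : P2 → ℝ), ContDiff ℝ ∞ f → ∀ z : P2,
    ‖iteratedFDeriv ℝ k f z‖ ≤ C * (|dp^[k] f z| + |dp^[k - 1] (dy f) z|
      + ‖iteratedFDeriv ℝ (k - 2) (dy (dy f)) z‖)

/-- Uniform smoothing: no normalised solution exists when the blob is narrow. -/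
def CoreSpec : Prop :=
  ∀ L : ℕ → ℝ, ∀ N : ℕ, 40 ≤ N → ∃ δ η0 : ℝ, 0 < δ ∧ 0 < η0 ∧
    ∀ η1 S : ℝ, 0 < η1 → 1 ≤ S → ∃ lam0 : ℝ, 1 ≤ lam0 ∧
    ∀ lam η s : ℝ, lam0 ≤ lam → η1 ≤ η → η ≤ η0 → S⁻¹ ≤ s * lam ^ N → s * lam ^ N ≤ S →
    ∀ (Hb Hs : V6 → ℝ) (x q : P2 → ℝ),
      HFam L δ s lam Hb Hs → Sol η δ (fun u => Hb u + Hs u) x q → False

/-- Passage from a normalised height function to a normalised solution. -/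
def FamilySpec : Prop :=
  ∃ L : ℕ → ℝ, ∀ δ : ℝ, 0 < δ → ∃ δ' : ℝ, 0 < δ' ∧
    ∀ η ε s lam : ℝ, 0 < η → η ≤ δ' → 0 < ε → ε ≤ δ' → 0 < s → s ≤ δ' → δ'⁻¹ ≤ lam →
    ∀ (Z : P2 → ℝ), ContDiffOn ℝ ∞ Z {z | rsq z < 40} →
      (∀ k ≤ 18, ∀ z, rsq z < 40 →
        ‖iteratedFDeriv ℝ k (fun v => Z v - v.1 ^ 2 / 2) z‖ ≤ δ') →
      dp Z (0, 0) = 0 →
      (∀ z, rsq z < 40 →
        hess11 (fun v => 1 + η * ε * template s lam v) Z z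
          * hess22 (fun v => 1 + η * ε * template s lam v) Z z
          - hess12 (fun v => 1 + η * ε * template s lam v) Z z ^ 2
        = curvTerm (fun v => 1 + η * ε * template s lam v) z / ε
          * (1 - ε * (dp Z z ^ 2 + dy Z z ^ 2) / (1 + η * ε * template s lam z))) →
      ∃ (Hb Hs : V6 → ℝ) (x q : P2 → ℝ),
        HFam L δ s lam Hb Hs ∧ Sol η δ (fun u => Hb u + Hs u) x q

/-- Isometry of the conformal metric `E (dx^2 + dy^2)` into three-space on `U`. -/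
def IsIso (E : P2 → ℝ) (U : Set P2) (F : P2 → Fin 3 → ℝ) : Prop :=
  ContDiffOn ℝ ∞ F U ∧ ∀ z ∈ U,
    (∑ i, fderiv ℝ F z (1, 0) i * fderiv ℝ F z (1, 0) i) = E z ∧
    (∑ i, fderiv ℝ F z (0, 1) i * fderiv ℝ F z (0, 1) i) = E z ∧
    (∑ i, fderiv ℝ F z (1, 0) i * fderiv ℝ F z (0, 1) i) = 0

/-- Height function in the direction `e`. -/
def height (F : P2 → Fin 3 → ℝ) (e : Fin 3 → ℝ) (z : P2) : ℝ := ∑ i, e i * F z i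

/-- Gauss equation, Darboux equation and the second fundamental form. -/
def SurfaceSpec : Prop :=
  ∀ (E : P2 → ℝ) (U : Set P2) (F : P2 → Fin 3 → ℝ), IsOpen U → ContDiff ℝ ∞ E →
    (∀ z, 0 < E z) → IsIso E U F →
    ∃ (N : P2 → Fin 3 → ℝ) (h11 h12 h22 : P2 → ℝ),
      ContDiffOn ℝ ∞ N U ∧ ContDiffOn ℝ ∞ h11 U ∧ ContDiffOn ℝ ∞ h12 U ∧ ContDiffOn ℝ ∞ h22 U ∧
      ∀ z ∈ U,
        (∑ i, N z i * N z i) = 1 ∧ h11 z * h22 z - h12 z ^ 2 = curvTerm E z ∧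
        (h11 z = 0 → h12 z = 0 → h22 z = 0 → fderiv ℝ N z = 0) ∧
        (∀ e : Fin 3 → ℝ,
          hess11 E (height F e) z = h11 z * (∑ i, e i * N z i) ∧
          hess12 E (height F e) z = h12 z * (∑ i, e i * N z i) ∧
          hess22 E (height F e) z = h22 z * (∑ i, e i * N z i) ∧
          (∑ i, e i * e i) * E z =
            (∑ i, e i * N z i) ^ 2 * E z + dp (height F e) z ^ 2 + dy (height F e) z ^ 2)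

/-- Some boundary point of a small square around a compact bump is not planar. -/
def SquareSpec : Prop :=
  ∀ M : ℝ, 0 < M → ∃ r0 : ℝ, 0 < r0 ∧ ∀ (r η : ℝ) (c : P2) (E Z : P2 → ℝ) (V : Set P2),
    0 < r → r ≤ r0 → 0 < η → η ≤ r ^ 4 →
    IsOpen V → {z : P2 | |z.1 - c.1| ≤ 2 * r ∧ |z.2 - c.2| ≤ 2 * r} ⊆ V →
    ContDiff ℝ ∞ E → ContDiffOn ℝ ∞ Z V →
    (∀ z : P2, |z.1 - c.1| ≤ 2 * r → |z.2 - c.2| ≤ 2 * r →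
      E z = 1 - η * blob ((z.1 - c.1) / r, (z.2 - c.2) / r) ∧
      |dp (dp Z) z| ≤ M ∧ |dy (dp Z) z| ≤ M ∧ |dy (dy Z) z| ≤ M ∧
      hess11 E Z z * hess22 E Z z - hess12 E Z z ^ 2
        = curvTerm E z * (1 - (dp Z z ^ 2 + dy Z z ^ 2) / E z)) →
    (∀ z : P2, |z.1 - c.1| ≤ 2 * r → |z.2 - c.2| ≤ 2 * r →
      (|z.1 - c.1| = 2 * r ∨ |z.2 - c.2| = 2 * r) → dp Z z = 0 ∧ dy Z z = 0) →
    False

/-- The final assembly. -/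
def FinalSpec : Prop :=
  ∃ E : P2 → ℝ, ContDiff ℝ ∞ E ∧ (∀ z, 0 < E z) ∧
    ∀ U : Set P2, IsOpen U → (0, 0) ∈ U → ¬ ∃ F : P2 → Fin 3 → ℝ, IsIso E U F

end Vale.Agent.P229
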