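import Vale.Agent.P229.Calc
import Vale.Agent.P229.Spec

/-
P229: composition bounds, the two top orders of a derivative along the first direction,
and the recovery of all derivatives from two pure rows.
-/

namespace Vale.Agent.P229

open Finset
open scoped ContDiff

section Iterates

variable {f : P2 → ℝ} {z : P2}

/-- Evaluation at a fixed vector, with its norm. -/
theorem norm_apply_clm_le {E : Type*} [NormedAddCommGroup E] [NormedSpace ℝ E] (v : E) :
    ‖ContinuousLinearMap.apply ℝ ℝ v‖ ≤ ‖v‖ :=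
  ContinuousLinearMap.opNorm_le_bound _ (norm_nonneg v) fun T => by
    rw [ContinuousLinearMap.apply_apply, mul_comm]; exact T.le_opNorm v

theorem norm_unit_p : ‖((1, 0) : P2)‖ ≤ 1 := by simp [Prod.norm_def]

theorem norm_unit_y : ‖((0, 1) : P2)‖ ≤ 1 := by simp [Prod.norm_def]

/-- Derivatives of a directional derivative are controlled by one more derivative. -/
theorem norm_iter_dir_le {E : Type*} [NormedAddCommGroup E] [NormedSpace ℝ E] {g : E → ℝ}
    (hg : ContDiff ℝ ∞ g) (v : E) (hv : ‖v‖ ≤ 1) (n : ℕ) (u : E) :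
    ‖iteratedFDeriv ℝ n (fun w => fderiv ℝ g w v) u‖ ≤ ‖iteratedFDeriv ℝ (n + 1) g u‖ := by
  have h := (ContinuousLinearMap.apply ℝ ℝ v).norm_iteratedFDeriv_comp_left
    (hg.fderiv_right (m := ∞) le_rfl).contDiffAt (x := u) (n := n) (mod_cast le_top)
  refine h.trans ?_
  rw [norm_iteratedFDeriv_fderiv]
  exact mul_le_of_le_one_left (norm_nonneg _) ((norm_apply_clm_le v).trans hv)

theorem norm_iter_dp_le (hf : ContDiff ℝ ∞ f) (n : ℕ) (z : P2) :
    ‖iteratedFDeriv ℝ n (dp f) z‖ ≤ ‖iteratedFDeriv ℝ (n + 1) f z‖ :=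
  norm_iter_dir_le hf _ norm_unit_p n z

theorem norm_iter_dy_le (hf : ContDiff ℝ ∞ f) (n : ℕ) (z : P2) :
    ‖iteratedFDeriv ℝ n (dy f) z‖ ≤ ‖iteratedFDeriv ℝ (n + 1) f z‖ :=
  norm_iter_dir_le hf _ norm_unit_y n z

/-- The iterated first partial as a value of the iterated derivative. -/
theorem dp_iter_eq (hf : ContDiff ℝ ∞ f) (n : ℕ) (z : P2) :
    dp^[n] f z = iteratedFDeriv ℝ n f z (fun _ => ((1, 0) : P2)) := by
  induction n generalizing f with
  | zero => simp [iteratedFDeriv_zero_apply]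
  | succ n ih =>
    rw [Function.iterate_succ_apply, ih (smooth_dp hf), iteratedFDeriv_succ_apply_right]
    have h := (ContinuousLinearMap.apply ℝ ℝ ((1, 0) : P2)).iteratedFDeriv_comp_left
      (hf.fderiv_right (m := ∞) le_rfl).contDiffAt (x := z) (i := n) (mod_cast le_top)
    rw [show dp f = (ContinuousLinearMap.apply ℝ ℝ ((1, 0) : P2)) ∘ fderiv ℝ f from rfl, h]
    rfl

theorem norm_multilinear_unit {F : Type*} [NormedAddCommGroup F] [NormedSpace ℝ F] {n : ℕ}
    (T : ContinuousMultilinearMap ℝ (fun _ : Fin n => P2) F) :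
    ‖T (fun _ => ((1, 0) : P2))‖ ≤ ‖T‖ :=
  (T.le_opNorm _).trans (mul_le_of_le_one_right (norm_nonneg T)
    (prod_le_one (fun _ _ => norm_nonneg _) fun _ _ => norm_unit_p))

theorem abs_dp_iter_le (hf : ContDiff ℝ ∞ f) (n : ℕ) (z : P2) :
    |dp^[n] f z| ≤ ‖iteratedFDeriv ℝ n f z‖ := by
  rw [dp_iter_eq hf, ← Real.norm_eq_abs]
  exact norm_multilinear_unit _

theorem smooth_coord {W : P2 → V6} (hW : ContDiff ℝ ∞ W) (i : Fin 6) :
    ContDiff ℝ ∞ (fun v => W v i) := contDiff_pi.1 hW i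

/-- The iterated first partial of a coordinate. -/
theorem dp_iter_coord {W : P2 → V6} (hW : ContDiff ℝ ∞ W) (n : ℕ) (z : P2) (i : Fin 6) :
    dp^[n] (fun v => W v i) z = iteratedFDeriv ℝ n W z (fun _ => ((1, 0) : P2)) i := by
  rw [dp_iter_eq (smooth_coord hW i)]
  have h := (ContinuousLinearMap.proj (R := ℝ) (φ := fun _ : Fin 6 => ℝ) i).iteratedFDeriv_comp_left
    hW.contDiffAt (x := z) (i := n) (mod_cast le_top)
  rw [show (fun v => W v i) = (ContinuousLinearMap.proj (R := ℝ) (φ := fun _ : Fin 6 => ℝ) i) ∘ W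
    from rfl, h]
  rfl

theorem abs_dp_iter_coord_le {W : P2 → V6} (hW : ContDiff ℝ ∞ W) (n : ℕ) (z : P2) (i : Fin 6) :
    |dp^[n] (fun v => W v i) z| ≤ ‖iteratedFDeriv ℝ n W z‖ := by
  rw [dp_iter_coord hW, ← Real.norm_eq_abs]
  exact (norm_le_pi_norm _ i).trans (norm_multilinear_unit _)

/-- All derivatives of order `n + 1` from those of order `n` of both partials. -/
theorem norm_iter_succ_le (hf : ContDiff ℝ ∞ f) (n : ℕ) (z : P2) :
    ‖iteratedFDeriv ℝ (n + 1) f z‖
      ≤ ‖iteratedFDeriv ℝ n (dp f) z‖ + ‖iteratedFDeriv ℝ n (dy f) z‖ := by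
  let A := ContinuousLinearMap.smulRightL ℝ ℝ (P2 →L[ℝ] ℝ)
  let Φ₁ : ℝ →L[ℝ] P2 →L[ℝ] ℝ :=
    ContinuousLinearMap.smulRight (1 : ℝ →L[ℝ] ℝ) (ContinuousLinearMap.fst ℝ ℝ ℝ)
  let Φ₂ : ℝ →L[ℝ] P2 →L[ℝ] ℝ :=
    ContinuousLinearMap.smulRight (1 : ℝ →L[ℝ] ℝ) (ContinuousLinearMap.snd ℝ ℝ ℝ)
  have hΦ₁ : ‖Φ₁‖ ≤ 1 := ContinuousLinearMap.opNorm_le_bound _ zero_le_one fun t => by
    simp only [Φ₁, ContinuousLinearMap.smulRight_apply, ContinuousLinearMap.one_apply, norm_smul,
      one_mul]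
    exact mul_le_of_le_one_right (norm_nonneg t) (ContinuousLinearMap.norm_fst_le ℝ ℝ ℝ)
  have hΦ₂ : ‖Φ₂‖ ≤ 1 := ContinuousLinearMap.opNorm_le_bound _ zero_le_one fun t => by
    simp only [Φ₂, ContinuousLinearMap.smulRight_apply, ContinuousLinearMap.one_apply, norm_smul,
      one_mul]
    exact mul_le_of_le_one_right (norm_nonneg t) (ContinuousLinearMap.norm_snd_le ℝ ℝ ℝ)
  have e : fderiv ℝ f = (Φ₁ ∘ dp f) + (Φ₂ ∘ dy f) := by
    funext v
    refine ContinuousLinearMap.ext fun u => ?_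
    have hu : u = u.1 • ((1, 0) : P2) + u.2 • ((0, 1) : P2) := by ext <;> simp
    conv_lhs => rw [hu, map_add, map_smul, map_smul]
    simp [Φ₁, Φ₂, dp, dy, mul_comm]
  have s₁ : ContDiff ℝ ∞ (Φ₁ ∘ dp f) := Φ₁.contDiff.comp (smooth_dp hf)
  have s₂ : ContDiff ℝ ∞ (Φ₂ ∘ dy f) := Φ₂.contDiff.comp (smooth_dy hf)
  rw [← norm_iteratedFDeriv_fderiv, e,
    iteratedFDeriv_add_apply (s₁.contDiffAt.of_le (mod_cast le_top))
      (s₂.contDiffAt.of_le (mod_cast le_top))]
  refine (norm_add_le _ _).trans (add_le_add ?_ ?_)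
  · exact (Φ₁.norm_iteratedFDeriv_comp_left (smooth_dp hf).contDiffAt (mod_cast le_top)).trans
      (mul_le_of_le_one_left (norm_nonneg _) hΦ₁)
  · exact (Φ₂.norm_iteratedFDeriv_comp_left (smooth_dy hf).contDiffAt (mod_cast le_top)).trans
      (mul_le_of_le_one_left (norm_nonneg _) hΦ₂)

end Iterates

/-- All derivatives from two pure rows and the second derivative in `y`. -/
theorem mixed : MixedSpec := by
  intro k hk
  induction k, hk using Nat.le_induction with
  | base =>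
    refine ⟨2, fun f hf z => ?_⟩
    have h : ‖iteratedFDeriv ℝ 2 f z‖
        ≤ ‖iteratedFDeriv ℝ 1 (dp f) z‖ + ‖iteratedFDeriv ℝ 1 (dy f) z‖ := norm_iter_succ_le hf 1 z
    have h1 : ‖iteratedFDeriv ℝ 1 (dp f) z‖ ≤ _ := norm_iter_succ_le (smooth_dp hf) 0 z
    have h2 : ‖iteratedFDeriv ℝ 1 (dy f) z‖ ≤ _ := norm_iter_succ_le (smooth_dy hf) 0 z
    simp only [norm_iteratedFDeriv_zero, Real.norm_eq_abs] at h1 h2
    show ‖iteratedFDeriv ℝ 2 f z‖ ≤ 2 * (|dp^[2] f z| + |dp^[1] (dy f) z|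
      + ‖iteratedFDeriv ℝ 0 (dy (dy f)) z‖)
    simp only [norm_iteratedFDeriv_zero, Function.iterate_succ_apply', Function.iterate_zero_apply,
      Real.norm_eq_abs]
    rw [dy_dp_eq (by exact_mod_cast contDiff_infty.1 hf 2)] at h1
    linarith [abs_nonneg (dp (dp f) z), abs_nonneg (dy (dy f) z)]
  | succ k hk ih =>
    obtain ⟨C, hC⟩ := ih
    refine ⟨4 * max C 0, fun f hf z => ?_⟩
    have h1 := (hC (dp f) (smooth_dp hf) z).trans
      (mul_le_mul_of_nonneg_right (le_max_left C 0) (by positivity))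
    have h2 := (hC (dy f) (smooth_dy hf) z).trans
      (mul_le_mul_of_nonneg_right (le_max_left C 0) (by positivity))
    have hC0 := le_max_right C 0
    generalize max C 0 = C' at *
    obtain ⟨m, rfl⟩ : ∃ m, k = m + 2 := ⟨k - 2, by omega⟩
    have e1 : dy (dp f) = dp (dy f) := funext fun u =>
      dy_dp_eq (by exact_mod_cast contDiff_infty.1 hf 2) u
    have e2 : dy (dy (dp f)) = dp (dy (dy f)) := by
      rw [e1]
      exact funext fun u =>
        dy_dp_eq (by exact_mod_cast contDiff_infty.1 (smooth_dy hf) 2) u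
    have syy := smooth_dy (smooth_dy hf)
    show ‖iteratedFDeriv ℝ (m + 2 + 1) f z‖ ≤ 4 * C' * (|dp^[m + 2 + 1] f z|
      + |dp^[m + 2] (dy f) z| + ‖iteratedFDeriv ℝ (m + 1) (dy (dy f)) z‖)
    change ‖iteratedFDeriv ℝ (m + 2) (dp f) z‖ ≤ C' * (|dp^[m + 2] (dp f) z|
      + |dp^[m + 1] (dy (dp f)) z| + ‖iteratedFDeriv ℝ m (dy (dy (dp f))) z‖) at h1
    change ‖iteratedFDeriv ℝ (m + 2) (dy f) z‖ ≤ C' * (|dp^[m + 2] (dy f) z|
      + |dp^[m + 1] (dy (dy f)) z| + ‖iteratedFDeriv ℝ m (dy (dy (dy f))) z‖) at h2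
    rw [e2, e1, ← Function.iterate_succ_apply dp (m + 2) f,
      ← Function.iterate_succ_apply dp (m + 1) (dy f)] at h1
    have b1 := abs_dp_iter_le syy (m + 1) z
    have b2 := norm_iter_dp_le syy m z
    have b3 := norm_iter_dy_le syy m z
    have b4 := norm_iter_succ_le hf (m + 2) z
    simp only [Nat.succ_eq_add_one, show m + 1 + 1 = m + 2 by omega] at h1 h2
    have n1 := abs_nonneg (dp^[m + 2 + 1] f z)
    have n2 := abs_nonneg (dp^[m + 2] (dy f) z)
    have n3 := norm_nonneg (iteratedFDeriv ℝ (m + 1) (dy (dy f)) z)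
    nlinarith [mul_le_mul_of_nonneg_left b1 hC0, mul_le_mul_of_nonneg_left b2 hC0,
      mul_le_mul_of_nonneg_left b3 hC0, mul_nonneg hC0 n1, mul_nonneg hC0 n2, mul_nonneg hC0 n3]

/-- A product in which at most one factor is large. -/
theorem prod_le_of_one_big {ι : Type*} (s : Finset ι) (a : ι → ℝ) (p : ι → ℕ) (B : ℕ) {L A : ℝ}
    (h0 : ∀ i ∈ s, 0 ≤ a i) (hL : 1 ≤ L) (hA : 1 ≤ A)
    (hsmall : ∀ i ∈ s, p i ≤ B → a i ≤ L) (hall : ∀ i ∈ s, a i ≤ A)
    (hone : ∀ i ∈ s, ∀ j ∈ s, B < p i → B < p j → i = j) :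
    ∏ i ∈ s, a i ≤ L ^ s.card * A := by
  classical
  by_cases h : ∃ i ∈ s, B < p i
  · obtain ⟨i0, hi0, hb⟩ := h
    rw [← mul_prod_erase s a hi0, mul_comm (L ^ s.card)]
    refine mul_le_mul (hall i0 hi0) ?_ (prod_nonneg fun i hi => h0 i (mem_of_mem_erase hi))
      (by linarith)
    refine le_trans (prod_le_prod (g := fun _ => L) (fun i hi => h0 i (mem_of_mem_erase hi))
      fun i hi => ?_) ?_
    · refine hsmall i (mem_of_mem_erase hi) (not_lt.1 fun hc => ?_)
      exact (mem_erase.1 hi).1 (hone i (mem_of_mem_erase hi) i0 hi0 hc hb)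
    · rw [prod_const]
      exact pow_le_pow_right₀ hL card_erase_le
  · push Not at h
    refine le_trans (prod_le_prod (g := fun _ => L) h0 fun i hi => hsmall i hi (h i hi)) ?_
    rw [prod_const]
    exact le_mul_of_one_le_right (pow_nonneg (by linarith) _) hA

/-- Composition with the linear top term removed. -/
theorem comp_rest (k : ℕ) (L : ℝ) :
    ∃ C : ℝ, 0 ≤ C ∧ ∀ (H : V6 → ℝ) (W : P2 → V6) (z : P2),
      ContDiff ℝ ∞ H → ContDiff ℝ ∞ W →
      (∀ m, m ≤ k / 2 + 2 → ‖iteratedFDeriv ℝ m H (W z)‖ ≤ L) →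
      (∀ i, 1 ≤ i → i ≤ k / 2 + 2 → ‖iteratedFDeriv ℝ i W z‖ ≤ L) →
      1 ≤ k →
      ‖iteratedFDeriv ℝ k (fun v => H (W v)) z
          - (fderiv ℝ H (W z)).compContinuousMultilinearMap (iteratedFDeriv ℝ k W z)‖ ≤
        C * (1 + (∑ m ∈ Finset.range (k + 1), ‖iteratedFDeriv ℝ m H (W z)‖)
          + ∑ i ∈ Finset.Icc 1 (k - 1), ‖iteratedFDeriv ℝ i W z‖) := by
  refine ⟨(Fintype.card (OrderedFinpartition k) : ℝ) * max L 1 ^ (k + 1), by positivity,
    fun H W z hH hW hbH hbW hk => ?_⟩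
  set M := max L 1 with hMd
  have hM1 : 1 ≤ M := le_max_right _ _
  have hM0 : 0 ≤ M := by linarith
  set ℓ := fderiv ℝ H (W z) with hℓ
  set SH := ∑ m ∈ Finset.range (k + 1), ‖iteratedFDeriv ℝ m H (W z)‖ with hSH
  set SW := ∑ i ∈ Finset.Icc 1 (k - 1), ‖iteratedFDeriv ℝ i W z‖ with hSW
  have hSH0 : 0 ≤ SH := sum_nonneg fun _ _ => norm_nonneg _
  have hSW0 : 0 ≤ SW := sum_nonneg fun _ _ => norm_nonneg _
  set q := ftaylorSeries ℝ H (W z) with hq
  set q' := ftaylorSeries ℝ ℓ (W z) with hq'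
  set p := ftaylorSeries ℝ W z with hp
  have hcomp : ∀ g : V6 → ℝ, ContDiff ℝ ∞ g → iteratedFDeriv ℝ k (g ∘ W) z
      = (ftaylorSeries ℝ g (W z)).taylorComp p k := fun g hg =>
    iteratedFDeriv_comp (n := ∞) hg.contDiffAt hW.contDiffAt (mod_cast le_top)
  have htop : ℓ.compContinuousMultilinearMap (iteratedFDeriv ℝ k W z)
      = iteratedFDeriv ℝ k (ℓ ∘ W) z :=
    (ℓ.iteratedFDeriv_comp_left hW.contDiffAt (mod_cast le_top)).symm
  rw [htop, show (fun v => H (W v)) = H ∘ W from rfl, hcomp H hH, hcomp ℓ ℓ.contDiff,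
    ← hq, ← hq']
  simp only [FormalMultilinearSeries.taylorComp]
  rw [← sum_sub_distrib]
  refine (norm_sum_le _ _).trans ?_
  refine (sum_le_card_nsmul _ _ (M ^ (k + 1) * (1 + SH + SW)) fun c _ => ?_).trans
    (le_of_eq (by rw [card_univ, nsmul_eq_mul]; ring))
  have hq1 : q 1 = q' 1 := by
    refine ContinuousMultilinearMap.ext fun v => ?_
    show iteratedFDeriv ℝ 1 H (W z) v = iteratedFDeriv ℝ 1 ℓ (W z) v
    rw [iteratedFDeriv_one_apply, iteratedFDeriv_one_apply, ContinuousLinearMap.fderiv, hℓ]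
  have hR : 0 ≤ M ^ (k + 1) * (1 + SH + SW) := by positivity
  rcases lt_or_ge c.length 2 with hc | hc
  · have hlen : c.length = 1 := le_antisymm (by omega) (c.length_pos hk)
    have hsame : q c.length = q' c.length := by
      revert hlen
      generalize c.length = m
      rintro rfl
      exact hq1
    simp [FormalMultilinearSeries.compAlongOrderedFinpartition, hsame, hR]
  have hzero : q' c.length = 0 := by
    obtain ⟨m, hm⟩ : ∃ m, c.length = m + 2 := ⟨c.length - 2, by omega⟩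
    show iteratedFDeriv ℝ c.length ℓ (W z) = 0
    refine norm_eq_zero.1 ?_
    rw [hm, ← norm_iteratedFDeriv_fderiv, show fderiv ℝ (ℓ : V6 → ℝ) = fun _ => ℓ from
      funext fun u => ℓ.fderiv]
    rw [iteratedFDeriv_const_of_ne (by omega)]
    simp
  have hterm : ‖q.compAlongOrderedFinpartition p c - q'.compAlongOrderedFinpartition p c‖
      ≤ ‖q c.length‖ * ∏ i, ‖p (c.partSize i)‖ := by
    have e : q'.compAlongOrderedFinpartition p c = 0 := by
      refine ContinuousMultilinearMap.ext fun v => ?_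
      simp [FormalMultilinearSeries.compAlongOrderedFinpartition_apply, hzero]
    rw [e, sub_zero]
    exact c.norm_compAlongOrderedFinpartition_le _ _
  refine hterm.trans ?_
  have hsum : ∑ i, c.partSize i = k := by
    have := Fintype.card_congr c.equivSigma
    simpa [Fintype.card_sigma] using this
  have hpart : ∀ i, c.partSize i ≤ k - 1 := by
    intro i
    obtain ⟨j, hj⟩ : ∃ j, j ≠ i := by
      have : Nontrivial (Fin c.length) := Fin.nontrivial_iff_two_le.2 hc
      exact exists_ne i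
    have h2 := add_le_sum (f := c.partSize) (fun _ _ => Nat.zero_le _) (mem_univ i) (mem_univ j)
      hj.symm
    have := c.partSize_pos j
    omega
  have hlk : c.length ≤ k := c.length_le
  have hpM : ∀ i, c.partSize i ≤ k / 2 + 2 → ‖p (c.partSize i)‖ ≤ M := fun i hi =>
    (hbW _ (c.partSize_pos i) hi).trans (le_max_left _ _)
  by_cases hH' : c.length ≤ k / 2 + 2
  · have h1 : ∏ i, ‖p (c.partSize i)‖ ≤ M ^ c.length * (1 + SW) := by
      refine (prod_le_of_one_big univ (fun i => ‖p (c.partSize i)‖) c.partSize (k / 2 + 2)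
        (fun i _ => norm_nonneg _) hM1 (A := 1 + SW) (by linarith) (fun i _ hi => hpM i hi)
        (fun i _ => ?_) fun i _ j _ hi hj => ?_).trans (le_of_eq (by simp))
      · refine le_trans ?_ (le_add_of_nonneg_left zero_le_one)
        exact single_le_sum (f := fun n => ‖iteratedFDeriv ℝ n W z‖) (fun _ _ => norm_nonneg _)
          (mem_Icc.2 ⟨c.partSize_pos i, hpart i⟩)
      · by_contra hij
        have := add_le_sum (f := c.partSize) (fun _ _ => Nat.zero_le _) (mem_univ i) (mem_univ j) hij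
        omega
    calc ‖q c.length‖ * ∏ i, ‖p (c.partSize i)‖ ≤ M * (M ^ c.length * (1 + SW)) :=
          mul_le_mul ((hbH _ hH').trans (le_max_left _ _)) h1
            (prod_nonneg fun _ _ => norm_nonneg _) hM0
      _ = M ^ (c.length + 1) * (1 + SW) := by ring
      _ ≤ _ := mul_le_mul (pow_le_pow_right₀ hM1 (by omega)) (by linarith) (by linarith)
          (by positivity)
  · have h1 : ∏ i, ‖p (c.partSize i)‖ ≤ M ^ (k + 1) := by
      refine (prod_le_prod (g := fun _ => M) (fun i _ => norm_nonneg _) fun i _ => hpM i ?_).trans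
        (by rw [prod_const, card_univ, Fintype.card_fin]; exact pow_le_pow_right₀ hM1 (by omega))
      have h2 : (univ.erase i).card • 1 ≤ ∑ j ∈ univ.erase i, c.partSize j :=
        card_nsmul_le_sum _ _ _ fun j _ => c.partSize_pos j
      rw [card_erase_of_mem (mem_univ i), card_univ, Fintype.card_fin, smul_eq_mul, mul_one] at h2
      have h3 := sum_erase_add univ c.partSize (mem_univ i)
      omega
    calc ‖q c.length‖ * ∏ i, ‖p (c.partSize i)‖ ≤ (1 + SH + SW) * M ^ (k + 1) := by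
          refine mul_le_mul (le_trans ?_ (by linarith : SH ≤ 1 + SH + SW)) h1
            (prod_nonneg fun _ _ => norm_nonneg _) (by linarith)
          exact single_le_sum (f := fun n => ‖iteratedFDeriv ℝ n H (W z)‖)
            (fun _ _ => norm_nonneg _) (mem_range.2 (by omega))
      _ = _ := mul_comm _ _

/-- Composition bound. -/
theorem comp : CompSpec := by
  intro k L
  obtain ⟨C, hC0, hC⟩ := comp_rest k L
  refine ⟨C + 1, fun H W z hH hW hbH hbW => ?_⟩
  set SH := ∑ m ∈ Finset.range (k + 1), ‖iteratedFDeriv ℝ m H (W z)‖ with hSH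
  set SW := ∑ i ∈ Finset.Icc 1 (k - 1), ‖iteratedFDeriv ℝ i W z‖ with hSW
  have hSH0 : 0 ≤ SH := sum_nonneg fun _ _ => norm_nonneg _
  have hSW0 : 0 ≤ SW := sum_nonneg fun _ _ => norm_nonneg _
  rcases Nat.eq_zero_or_pos k with rfl | hk
  · refine le_trans ?_ (le_add_of_nonneg_left (mul_nonneg (norm_nonneg _) (norm_nonneg _)))
    have h1 : ‖iteratedFDeriv ℝ 0 (fun v => H (W v)) z‖ ≤ SH := by
      simp [hSH]
    nlinarith
  refine (norm_le_norm_add_norm_sub' _ _).trans (add_le_add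
    (ContinuousLinearMap.norm_compContinuousMultilinearMap_le _ _) ((hC H W z hH hW hbH hbW hk).trans ?_))
  exact mul_le_mul_of_nonneg_right (by linarith) (by linarith)

section LinRem

variable {f g : P2 → ℝ} {z : P2}

theorem dp_sum {ι : Type*} (s : Finset ι) (u : ι → P2 → ℝ)
    (h : ∀ i ∈ s, ContDiff ℝ ∞ (u i)) :
    dp (fun v => ∑ i ∈ s, u i v) = fun v => ∑ i ∈ s, dp (u i) v := by
  funext v
  unfold dp
  rw [fderiv_fun_sum fun i hi => ((h i hi).differentiable (by simp)).differentiableAt]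
  simp

theorem dp_iter_sum {ι : Type*} (s : Finset ι) (u : ι → P2 → ℝ)
    (h : ∀ i ∈ s, ContDiff ℝ ∞ (u i)) (n : ℕ) :
    dp^[n] (fun v => ∑ i ∈ s, u i v) = fun v => ∑ i ∈ s, dp^[n] (u i) v := by
  induction n with
  | zero => rfl
  | succ n ih =>
    rw [Function.iterate_succ_apply', ih, dp_sum s _ fun i hi => smooth_iter (h i hi) n]
    simp only [Function.iterate_succ_apply']

/-- Leibniz rule along the first direction. -/
theorem dp_iter_mul (hf : ContDiff ℝ ∞ f) (hg : ContDiff ℝ ∞ g) (n : ℕ) :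
    dp^[n] (fun v => f v * g v)
      = fun v => ∑ l ∈ Finset.range (n + 1), (n.choose l : ℝ) * (dp^[l] f v * dp^[n - l] g v) := by
  induction n with
  | zero => funext v; simp
  | succ n ih =>
    funext v
    rw [Function.iterate_succ_apply', ih]
    have hsm : ∀ l, ContDiff ℝ ∞ (fun u => (n.choose l : ℝ) * (dp^[l] f u * dp^[n - l] g u)) :=
      fun l => contDiff_const.mul ((smooth_iter hf l).mul (smooth_iter hg _))
    rw [dp_sum _ _ fun l _ => hsm l]
    rw [Finset.sum_choose_succ_mul (fun i j => dp^[i] f v * dp^[j] g v), ← sum_add_distrib]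
    refine sum_congr rfl fun l hl => ?_
    have hl' := mem_range.1 hl
    rw [dp_mul (differentiableAt_const _)
      ((((smooth_iter hf l).mul (smooth_iter hg _)).differentiable (by simp)).differentiableAt),
      dp_mul ((smooth_iter hf l).differentiable (by simp)).differentiableAt
        ((smooth_iter hg _).differentiable (by simp)).differentiableAt]
    have hc : dp (fun _ : P2 => (n.choose l : ℝ)) v = 0 := by simp [dp]
    rw [hc, show n + 1 - l = n - l + 1 by omega]
    simp only [Function.iterate_succ_apply']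
    ring

/-- The sum of the coordinates against the unit vectors. -/
theorem clm_sum_single (T : V6 →L[ℝ] ℝ) (v : V6) : ∑ i, T (Pi.single i 1) * v i = T v := by
  conv_rhs => rw [pi_eq_sum_univ' v, map_sum]
  exact sum_congr rfl fun i _ => by rw [map_smul, smul_eq_mul, mul_comm]

theorem dp_comp {K : V6 → ℝ} {W : P2 → V6} (hK : ContDiff ℝ ∞ K) (hW : ContDiff ℝ ∞ W) (v : P2) :
    dp (fun u => K (W u)) v = fderiv ℝ K (W v) (fun i => dp (fun u => W u i) v) := by
  unfold dp
  rw [show (fun u => K (W u)) = K ∘ W from rfl,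
    fderiv_comp v (hK.differentiable (by simp)).differentiableAt
      (hW.differentiable (by simp)).differentiableAt]
  refine congrArg (fderiv ℝ K (W v)) (funext fun i => ?_)
  rw [fderiv_apply (hW.differentiable (by simp)).differentiableAt i]
  rfl

end LinRem

/-- The gradient component of `H` in slot `i`. -/
noncomputable def slotDer (H : V6 → ℝ) (i : Fin 6) (u : V6) : ℝ := fderiv ℝ H u (Pi.single i 1)

/-- The vector of the `n`-th derivatives along the first direction. -/
noncomputable def rowVec (W : P2 → V6) (n : ℕ) (z : P2) : V6 :=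
  fun i => dp^[n] (fun v => W v i) z

theorem smooth_slot {H : V6 → ℝ} (hH : ContDiff ℝ ∞ H) (i : Fin 6) :
    ContDiff ℝ ∞ (slotDer H i) := (hH.fderiv_right (m := ∞) le_rfl).clm_apply contDiff_const

theorem norm_slot_le {H : V6 → ℝ} (hH : ContDiff ℝ ∞ H) (i : Fin 6) (m : ℕ) (u : V6) :
    ‖iteratedFDeriv ℝ m (slotDer H i) u‖ ≤ ‖iteratedFDeriv ℝ (m + 1) H u‖ :=
  norm_iter_dir_le hH _ ((pi_norm_le_iff_of_nonneg zero_le_one).2 fun n => by
    by_cases h : n = i <;> simp [Pi.single_apply, h]) m u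

theorem norm_rowVec_le {W : P2 → V6} (hW : ContDiff ℝ ∞ W) (n : ℕ) (z : P2) :
    ‖rowVec W n z‖ ≤ ‖iteratedFDeriv ℝ n W z‖ :=
  (pi_norm_le_iff_of_nonneg (norm_nonneg _)).2 fun i => by
    rw [Real.norm_eq_abs]; exact abs_dp_iter_coord_le hW n z i

/-- Derivatives of the gradient along the jet, with the top term removed. -/
theorem slot_rest (j : ℕ) (L : ℝ) : ∃ C : ℝ, 1 ≤ C ∧ ∀ (H : V6 → ℝ) (W : P2 → V6) (z : P2),
    ContDiff ℝ ∞ H → ContDiff ℝ ∞ W →
    (∀ m, m ≤ j / 2 + 3 → ‖iteratedFDeriv ℝ m H (W z)‖ ≤ L) →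
    (∀ i, 1 ≤ i → i ≤ j / 2 + 3 → ‖iteratedFDeriv ℝ i W z‖ ≤ L) →
    ∀ (i : Fin 6) (l : ℕ), 1 ≤ l → l ≤ j →
      |dp^[l] (fun v => slotDer H i (W v)) z
          - fderiv ℝ (slotDer H i) (W z) (rowVec W l z)|
        ≤ C * (1 + (∑ m ∈ Finset.range (j + 2), ‖iteratedFDeriv ℝ m H (W z)‖)
          + ∑ n ∈ Finset.Icc 1 (j - 1), ‖iteratedFDeriv ℝ n W z‖) ∧
      (l ≤ j / 2 + 2 → |dp^[l] (fun v => slotDer H i (W v)) z| ≤ C) := by
  choose C hC0 hC using fun k => comp_rest k L
  set M := max L 1 with hMd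
  have hM1 : 1 ≤ M := le_max_right _ _
  have hM0 : 0 ≤ M := by linarith
  set Cs := ∑ k ∈ Finset.range (j + 1), C k with hCs
  have hCs0 : 0 ≤ Cs := sum_nonneg fun k _ => hC0 k
  set X := 1 + 2 * ((j : ℝ) + 2) * M with hX
  have hX1 : 1 ≤ X := le_add_of_nonneg_right (by positivity)
  refine ⟨Cs * X + M * M, by nlinarith, fun H W z hH hW hbH hbW i l hl hlj => ?_⟩
  have h := hC l (slotDer H i) W z (smooth_slot hH i) hW
    (fun m hm => (norm_slot_le hH i m _).trans (hbH _ (by omega)))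
    (fun n h1 h2 => hbW n h1 (by omega)) hl
  have hd : |dp^[l] (fun v => slotDer H i (W v)) z
      - fderiv ℝ (slotDer H i) (W z) (rowVec W l z)|
      ≤ Cs * (1 + (∑ m ∈ Finset.range (l + 1), ‖iteratedFDeriv ℝ (m + 1) H (W z)‖)
          + ∑ n ∈ Finset.Icc 1 (l - 1), ‖iteratedFDeriv ℝ n W z‖) := by
    rw [dp_iter_eq (show ContDiff ℝ ∞ (fun v => slotDer H i (W v)) from (smooth_slot hH i).comp hW),
      show rowVec W l z
      = iteratedFDeriv ℝ l W z (fun _ => ((1, 0) : P2)) from funext (dp_iter_coord hW l z),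
      ← Real.norm_eq_abs]
    refine ((norm_multilinear_unit (iteratedFDeriv ℝ l (fun v => slotDer H i (W v)) z
      - (fderiv ℝ (slotDer H i) (W z)).compContinuousMultilinearMap
        (iteratedFDeriv ℝ l W z))).trans h).trans ?_
    refine mul_le_mul (single_le_sum (fun k _ => hC0 k) (mem_range.2 (by omega))) ?_
      (by positivity) hCs0
    exact add_le_add (add_le_add le_rfl (sum_le_sum fun m _ => norm_slot_le hH i m _)) le_rfl
  refine ⟨hd.trans ?_, fun hl2 => ?_⟩
  · refine mul_le_mul ?_ ?_ (by positivity) (by positivity)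
    · nlinarith
    · refine add_le_add (add_le_add le_rfl ?_) ?_
      · refine le_trans (le_of_eq (sum_image (f := fun m => ‖iteratedFDeriv ℝ m H (W z)‖)
          (g := (· + 1)) fun a _ b _ h => Nat.add_right_cancel h).symm) ?_
        refine sum_le_sum_of_subset_of_nonneg (fun m hm => ?_) fun _ _ _ => norm_nonneg _
        obtain ⟨a, ha, rfl⟩ := mem_image.1 hm
        exact mem_range.2 (by have := mem_range.1 ha; omega)
      · exact sum_le_sum_of_subset_of_nonneg (fun n hn => by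
          have := mem_Icc.1 hn; exact mem_Icc.2 ⟨this.1, by omega⟩) fun _ _ _ => norm_nonneg _
  · have a1 : ∑ m ∈ Finset.range (l + 1), ‖iteratedFDeriv ℝ (m + 1) H (W z)‖ ≤ (j + 2) * M := by
      refine (sum_le_card_nsmul _ _ M fun m hm => ?_).trans ?_
      · have := mem_range.1 hm
        exact (hbH _ (by omega)).trans (le_max_left _ _)
      · rw [nsmul_eq_mul, card_range]
        refine mul_le_mul_of_nonneg_right ?_ hM0
        exact_mod_cast (by omega : l + 1 ≤ j + 2)
    have a2 : ∑ n ∈ Finset.Icc 1 (l - 1), ‖iteratedFDeriv ℝ n W z‖ ≤ (j + 2) * M := by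
      refine (sum_le_card_nsmul _ _ M fun n hn => ?_).trans ?_
      · have := mem_Icc.1 hn
        exact (hbW n this.1 (by omega)).trans (le_max_left _ _)
      · rw [nsmul_eq_mul, Nat.card_Icc]
        refine mul_le_mul_of_nonneg_right ?_ hM0
        exact_mod_cast (by omega : l - 1 + 1 - 1 ≤ j + 2)
    have htop : |fderiv ℝ (slotDer H i) (W z) (rowVec W l z)| ≤ M * M := by
      rw [← Real.norm_eq_abs]
      refine ((fderiv ℝ (slotDer H i) (W z)).le_opNorm _).trans
        (mul_le_mul ?_ ((norm_rowVec_le hW l z).trans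
          ((hbW l hl (by omega)).trans (le_max_left _ _))) (norm_nonneg _) hM0)
      rw [← norm_iteratedFDeriv_one]
      exact (norm_slot_le hH i 1 _).trans ((hbH 2 (by omega)).trans (le_max_left _ _))
    have hY : Cs * (1 + (∑ m ∈ Finset.range (l + 1), ‖iteratedFDeriv ℝ (m + 1) H (W z)‖)
        + ∑ n ∈ Finset.Icc 1 (l - 1), ‖iteratedFDeriv ℝ n W z‖) ≤ Cs * X :=
      mul_le_mul_of_nonneg_left (by linarith) hCs0
    have := abs_sub_abs_le_abs_sub (dp^[l] (fun v => slotDer H i (W v)) z)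
      (fderiv ℝ (slotDer H i) (W z) (rowVec W l z))
    linarith

/-- The exact expansion behind `linRem`. -/
theorem linRem_expand {H : V6 → ℝ} {W : P2 → V6} (hH : ContDiff ℝ ∞ H) (hW : ContDiff ℝ ∞ W)
    (a : ℕ) (z : P2) :
    dp^[a + 2 + 1] (fun v => H (W v)) z
        - fderiv ℝ H (W z) (rowVec W (a + 2 + 1) z)
        - ((a + 2 : ℕ) + 1 : ℝ) * ∑ i, dp (fun v => slotDer H i (W v)) z
            * dp^[a + 2] (fun v => W v i) z
      = (∑ i, ∑ l ∈ Finset.range a, ((a + 2).choose (l + 1 + 1) : ℝ) *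
          (dp^[l + 1 + 1] (fun v => slotDer H i (W v)) z
            * dp^[a + 2 - (l + 1 + 1) + 1] (fun v => W v i) z))
        + ∑ i, (dp^[a + 2] (fun v => slotDer H i (W v)) z
            - fderiv ℝ (slotDer H i) (W z) (rowVec W (a + 2) z)) * dp (fun u => W u i) z := by
  have hs : ∀ i, ContDiff ℝ ∞ (fun v => slotDer H i (W v)) := fun i => (smooth_slot hH i).comp hW
  have hd1 : dp (fun v => H (W v))
      = fun v => ∑ i, slotDer H i (W v) * dp (fun u => W u i) v := by
    funext v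
    rw [dp_comp hH hW]
    exact (clm_sum_single _ _).symm
  rw [Function.iterate_succ_apply, hd1,
    dp_iter_sum _ _ (fun i _ => (hs i).mul (smooth_dp (smooth_coord hW i)))]
  simp only [dp_iter_mul (hs _) (smooth_dp (smooth_coord hW _)), ← Function.iterate_succ_apply]
  simp only [Nat.succ_eq_add_one, sum_range_succ _ (a + 2), sum_range_succ' _ (a + 1),
    sum_range_succ' _ a, Nat.choose_zero_right, Nat.choose_self, zero_add, Nat.choose_one_right,
    Function.iterate_one, Function.iterate_zero_apply, Nat.cast_one, one_mul, Nat.sub_zero,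
    Nat.sub_self, sum_add_distrib]
  have hd : DifferentiableAt ℝ (fderiv ℝ H) (W z) :=
    ((hH.fderiv_right (m := ∞) le_rfl).differentiable (by simp)).differentiableAt
  have eK : ∀ i u, fderiv ℝ (slotDer H i) (W z) u
      = fderiv ℝ (fderiv ℝ H) (W z) u (Pi.single i 1) := by
    intro i u
    unfold slotDer
    rw [fderiv_clm_apply hd (differentiableAt_const _)]
    simp
  have hsym : ∑ i, fderiv ℝ (slotDer H i) (W z) (rowVec W (a + 2) z) * dp (fun u => W u i) z
      = ∑ i, dp (fun v => slotDer H i (W v)) z * rowVec W (a + 2) z i := by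
    simp only [dp_comp (smooth_slot hH _) hW, eK]
    rw [clm_sum_single, clm_sum_single]
    exact ((show ContDiff ℝ 2 H from contDiff_infty.1 hH 2).contDiffAt.isSymmSndFDerivAt
      (by simp)) _ _
  have hlead : fderiv ℝ H (W z) (rowVec W (a + 2 + 1) z)
      = ∑ i, slotDer H i (W z) * dp^[a + 2 + 1] (fun u => W u i) z := (clm_sum_single _ _).symm
  simp only [sub_mul, sum_sub_distrib]
  rw [hsym, hlead]
  simp only [mul_sum, ← sum_add_distrib, ← sum_sub_distrib, rowVec]
  refine sum_congr rfl fun i _ => ?_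
  rw [show a + 2 - 1 + 1 = a + 2 from rfl]
  push_cast
  ring

/-- The two top orders of a derivative along the first direction of a composition. -/
theorem linRem : LinRemSpec := by
  intro j L hj
  obtain ⟨C, hC1, hC⟩ := slot_rest j L
  set M := max L 1 with hMd
  have hM1 : 1 ≤ M := le_max_right _ _
  have hM0 : 0 ≤ M := by linarith
  set Cm := C + M * M with hCm
  refine ⟨6 * ((j : ℝ) * 2 ^ j * (2 * (Cm * M)) + C * M), fun H W z hH hW hbH hbW => ?_⟩
  set S := 1 + (∑ m ∈ Finset.range (j + 2), ‖iteratedFDeriv ℝ m H (W z)‖)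
    + ∑ i ∈ Finset.Icc 1 (j - 1), ‖iteratedFDeriv ℝ i W z‖ with hS
  have hSW0 : 0 ≤ ∑ i ∈ Finset.Icc 1 (j - 1), ‖iteratedFDeriv ℝ i W z‖ :=
    sum_nonneg fun _ _ => norm_nonneg _
  have hSH0 : 0 ≤ ∑ m ∈ Finset.range (j + 2), ‖iteratedFDeriv ℝ m H (W z)‖ :=
    sum_nonneg fun _ _ => norm_nonneg _
  have hS0 : 0 ≤ S := by linarith
  have hWS : ∀ n, 1 ≤ n → n ≤ j - 1 → ‖iteratedFDeriv ℝ n W z‖ ≤ S := fun n h1 h2 =>
    le_trans (single_le_sum (f := fun n => ‖iteratedFDeriv ℝ n W z‖) (fun _ _ => norm_nonneg _)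
      (mem_Icc.2 ⟨h1, h2⟩)) (by linarith)
  have hCm0 : 0 ≤ Cm := by positivity
  have hmid : ∀ i l, 2 ≤ l → l ≤ j - 1 →
      |dp^[l] (fun v => slotDer H i (W v)) z * dp^[j + 1 - l] (fun v => W v i) z|
        ≤ 2 * (Cm * M) * S := by
    intro i l hl hlj
    rw [abs_mul]
    obtain ⟨h1, h2⟩ := hC H W z hH hW hbH hbW i l (by omega) (by omega)
    have hW' := abs_dp_iter_coord_le hW (j + 1 - l) z i
    have hC0 : 0 ≤ C := by linarith
    rcases le_or_gt l (j / 2 + 2) with hcase | hcase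
    · refine (mul_le_mul (h2 hcase) (hW'.trans (hWS _ (by omega) (by omega))) (abs_nonneg _)
        hC0).trans (mul_le_mul_of_nonneg_right ?_ hS0)
      nlinarith
    · have htop : |fderiv ℝ (slotDer H i) (W z) (rowVec W l z)| ≤ M * S := by
        rw [← Real.norm_eq_abs]
        refine ((fderiv ℝ (slotDer H i) (W z)).le_opNorm _).trans
          (mul_le_mul ?_ ((norm_rowVec_le hW l z).trans (hWS l (by omega) hlj)) (norm_nonneg _) hM0)
        rw [← norm_iteratedFDeriv_one]
        exact (norm_slot_le hH i 1 _).trans ((hbH 2 (by omega)).trans (le_max_left _ _))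
      have hG : |dp^[l] (fun v => slotDer H i (W v)) z| ≤ 2 * Cm * S := by
        have := abs_sub_abs_le_abs_sub (dp^[l] (fun v => slotDer H i (W v)) z)
          (fderiv ℝ (slotDer H i) (W z) (rowVec W l z))
        have e1 : C * S ≤ Cm * S := mul_le_mul_of_nonneg_right (by nlinarith) hS0
        have e2 : M * S ≤ Cm * S := mul_le_mul_of_nonneg_right (by nlinarith) hS0
        linarith
      refine (mul_le_mul hG (hW'.trans ((hbW _ (by omega) (by omega)).trans (le_max_left L 1)))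
        (abs_nonneg _) (by positivity)).trans (le_of_eq ?_)
      ring
  obtain ⟨a, rfl⟩ : ∃ a, j = a + 2 := ⟨j - 2, by omega⟩
  rw [show (fun i => dp^[a + 2 + 1] (fun v => W v i) z) = rowVec W (a + 2 + 1) z from rfl]
  refine le_trans (le_of_eq (congrArg abs (linRem_expand hH hW a z))) ((abs_add_le _ _).trans ?_)
  rw [show 6 * (((a + 2 : ℕ) : ℝ) * 2 ^ (a + 2) * (2 * (Cm * M)) + C * M) * S
    = 6 * (((a + 2 : ℕ) : ℝ) * (2 ^ (a + 2) * (2 * (Cm * M) * S))) + 6 * (C * S * M) by ring]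
  refine add_le_add ?_ ?_
  · refine (abs_sum_le_sum_abs _ _).trans ((sum_le_card_nsmul _ _
      (((a + 2 : ℕ) : ℝ) * (2 ^ (a + 2) * (2 * (Cm * M) * S))) fun i _ => ?_).trans (by simp))
    refine (abs_sum_le_sum_abs _ _).trans ((sum_le_card_nsmul _ _
      (2 ^ (a + 2) * (2 * (Cm * M) * S)) fun l hl => ?_).trans ?_)
    · have hl := mem_range.1 hl
      rw [abs_mul, Nat.abs_cast, show a + 2 - (l + 1 + 1) + 1 = a + 2 + 1 - (l + 1 + 1) by omega]
      exact mul_le_mul (by exact_mod_cast Nat.choose_le_two_pow _ _)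
        (hmid i (l + 1 + 1) (by omega) (by omega)) (abs_nonneg _) (by positivity)
    · rw [card_range, nsmul_eq_mul]
      exact mul_le_mul_of_nonneg_right (by exact_mod_cast Nat.le_add_right a 2) (by positivity)
  · refine (abs_sum_le_sum_abs _ _).trans ((sum_le_card_nsmul _ _ (C * S * M) fun i _ => ?_).trans
      (by simp))
    rw [abs_mul]
    exact mul_le_mul (hC H W z hH hW hbH hbW i (a + 2) (by omega) le_rfl).1
      ((abs_dp_iter_coord_le hW 1 z i).trans ((hbW 1 le_rfl (by omega)).trans (le_max_left L 1)))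
      (abs_nonneg _) (by positivity)

end Vale.Agent.P229
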