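import Vale.Agent.P229.CoreDefs
import Vale.Agent.P229.Calc

/-
P229: the classes `HFam` and `Sol` are invariant under the reflection
`x~(p,y) = -x(-p,y)`, `q~(p,y) = q(-p,y)`, `H~(u) = H(-u0,u1,-u2,u3,u4,-u5)`.
-/

namespace Vale.Agent.P229

open MeasureTheory
open scoped ContDiff

/-- The reflection `(p, y) ↦ (-p, y)` of the parameter plane. -/
def refP : P2 ≃ₗᵢ[ℝ] P2 where
  toFun z := (-z.1, z.2)
  invFun z := (-z.1, z.2)
  map_add' a b := by ext <;> simp; ring
  map_smul' c a := by ext <;> simp
  left_inv a := by simp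
  right_inv a := by simp
  norm_map' a := by simp [Prod.norm_def]

/-- Signs of the reflection on the arguments of the nonlinearity. -/
def refSign : Fin 6 → ℝ := ![-1, 1, -1, 1, 1, -1]

lemma abs_refSign (i : Fin 6) : |refSign i| = 1 := by fin_cases i <;> simp [refSign]

lemma refSign_mul_self (i : Fin 6) : refSign i * refSign i = 1 := by
  fin_cases i <;> simp [refSign]

/-- The reflection of the arguments of the nonlinearity. -/
def refV : V6 ≃ₗᵢ[ℝ] V6 where
  toFun u i := refSign i * u i
  invFun u i := refSign i * u i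
  map_add' a b := by funext i; simp [mul_add]
  map_smul' c a := by funext i; simp [mul_left_comm]
  left_inv a := by funext i; simp [← mul_assoc, refSign_mul_self]
  right_inv a := by funext i; simp [← mul_assoc, refSign_mul_self]
  norm_map' a := by
    simp only [Pi.norm_def]
    congr 1
    exact Finset.sup_congr rfl fun i _ => NNReal.eq (by simp [abs_refSign])

@[simp] lemma refP_apply (z : P2) : refP z = (-z.1, z.2) := rfl

lemma refV_apply (u : V6) (i : Fin 6) : refV u i = refSign i * u i := rfl

lemma refV_refV (u : V6) : refV (refV u) = u := by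
  funext i; simp [refV_apply, ← mul_assoc, refSign_mul_self]

/-- The reflected first unknown. -/
def refX (x : P2 → ℝ) (z : P2) : ℝ := -x (refP z)

/-- The reflected second unknown. -/
def refQ (q : P2 → ℝ) (z : P2) : ℝ := q (refP z)

/-- The reflected nonlinearity. -/
def refH (H : V6 → ℝ) (u : V6) : ℝ := H (refV u)

lemma refX_refX (x : P2 → ℝ) : refX (refX x) = x := by funext z; simp [refX]

lemma refQ_refQ (q : P2 → ℝ) : refQ (refQ q) = q := by funext z; simp [refQ]

variable {f : P2 → ℝ}

lemma dp_comp_refP (hf : Differentiable ℝ f) (z : P2) :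
    dp (fun v => f (refP v)) z = -dp f (refP z) := by
  unfold dp
  rw [fderiv_fun_comp z (hf _) refP.differentiable.differentiableAt]
  have : (fderiv ℝ (fun v => refP v) z) (1, 0) = -(1, 0) := by
    rw [show (fun v => refP v) = ⇑refP from rfl, refP.fderiv]
    ext <;> simp
  rw [ContinuousLinearMap.comp_apply, this, map_neg]

lemma dy_comp_refP (hf : Differentiable ℝ f) (z : P2) :
    dy (fun v => f (refP v)) z = dy f (refP z) := by
  unfold dy
  rw [fderiv_fun_comp z (hf _) refP.differentiable.differentiableAt]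
  have : (fderiv ℝ (fun v => refP v) z) (0, 1) = (0, 1) := by
    rw [show (fun v => refP v) = ⇑refP from rfl, refP.fderiv]
    ext <;> simp
  simp [this]

lemma dp_refX {x : P2 → ℝ} (hx : Differentiable ℝ x) (z : P2) :
    dp (refX x) z = dp x (refP z) := by
  have h : dp (refX x) z = -dp (fun v => x (refP v)) z := by
    unfold dp refX; rw [fderiv_fun_neg]; rfl
  rw [h, dp_comp_refP hx, neg_neg]

lemma dy_refX {x : P2 → ℝ} (hx : Differentiable ℝ x) (z : P2) :
    dy (refX x) z = -dy x (refP z) := by
  have h : dy (refX x) z = -dy (fun v => x (refP v)) z := by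
    unfold dy refX; rw [fderiv_fun_neg]; rfl
  rw [h, dy_comp_refP hx]

lemma jet_ref {x q : P2 → ℝ} (hx : Differentiable ℝ x) (z : P2) :
    jet (refX x) (refQ q) z = refV (jet x q (refP z)) := by
  funext i
  rw [refV_apply]
  fin_cases i <;> simp [jet, refSign, dp_refX hx, dy_refX hx] <;> simp [refX, refQ]

lemma norm_iter_refQ {q : P2 → ℝ} (k : ℕ) (z : P2) :
    ‖iteratedFDeriv ℝ k (refQ q) z‖ = ‖iteratedFDeriv ℝ k q (refP z)‖ :=
  refP.norm_iteratedFDeriv_comp_right q z k

lemma norm_iter_refX {x : P2 → ℝ} (k : ℕ) (z : P2) :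
    ‖iteratedFDeriv ℝ k (refX x) z‖ = ‖iteratedFDeriv ℝ k x (refP z)‖ := by
  have e : refX x = -(fun v => x (refP v)) := rfl
  rw [e, iteratedFDeriv_neg_apply, norm_neg]
  exact refP.norm_iteratedFDeriv_comp_right x z k

lemma norm_iter_refH {H : V6 → ℝ} (k : ℕ) (u : V6) :
    ‖iteratedFDeriv ℝ k (refH H) u‖ = ‖iteratedFDeriv ℝ k H (refV u)‖ :=
  refV.norm_iteratedFDeriv_comp_right H u k

lemma refH_H0 : refH H0 = H0 := by
  funext u; simp [refH, H0, refV_apply, refSign]

lemma contDiff_blob : ContDiff ℝ ∞ blob :=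
  bump1.contDiff.comp (by unfold rsq; fun_prop)

lemma blob_refP : (fun v => blob (refP v)) = blob := by
  funext v; simp [blob, rsq]

lemma blobK_neg (a b : ℝ) : blobK (-a, b) = blobK (a, b) := by
  have hd : Differentiable ℝ blob := contDiff_blob.differentiable (by simp)
  have hdp : Differentiable ℝ (dp blob) := (smooth_dp contDiff_blob).differentiable (by simp)
  have hdy : Differentiable ℝ (dy blob) := (smooth_dy contDiff_blob).differentiable (by simp)
  have e1 : dp blob = fun z => -dp blob (refP z) := by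
    funext z
    conv_lhs => rw [← blob_refP]
    exact dp_comp_refP hd z
  have e2 : dy blob = fun z => dy blob (refP z) := by
    funext z
    conv_lhs => rw [← blob_refP]
    exact dy_comp_refP hd z
  have e11 : dp (dp blob) (a, b) = dp (dp blob) (-a, b) := by
    have h : dp (fun z => -dp blob (refP z)) (a, b) = -dp (fun z => dp blob (refP z)) (a, b) := by
      show fderiv ℝ (fun z => -dp blob (refP z)) (a, b) (1, 0) = _
      rw [fderiv_fun_neg]; rfl
    rw [← e1, dp_comp_refP hdp, neg_neg] at h
    simpa using h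
  have e22 : dy (dy blob) (a, b) = dy (dy blob) (-a, b) := by
    have h := dy_comp_refP hdy (a, b)
    rw [← e2] at h
    simpa using h
  simp [blobK, e11, e22]

lemma iter_refH_sub {H : V6 → ℝ} (k : ℕ) (u : V6) :
    ‖iteratedFDeriv ℝ k (refH H) u - iteratedFDeriv ℝ k (refH H0) u‖
      = ‖iteratedFDeriv ℝ k H (refV u) - iteratedFDeriv ℝ k H0 (refV u)‖ := by
  have e : ∀ F : V6 → ℝ, iteratedFDeriv ℝ k (refH F) u
      = (iteratedFDeriv ℝ k F (refV u)).compContinuousLinearMap
        (fun _ => (refV.toContinuousLinearEquiv : V6 →L[ℝ] V6)) := fun F => by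
    simp only [← iteratedFDerivWithin_univ]
    have h := refV.toContinuousLinearEquiv.iteratedFDerivWithin_comp_right F uniqueDiffOn_univ
        (x := u) (Set.mem_univ _) k
    rw [Set.preimage_univ] at h
    exact h
  rw [e, e]
  exact ((iteratedFDeriv ℝ k H (refV u) - iteratedFDeriv ℝ k H0 (refV u))
    ).norm_compContinuous_linearIsometryEquiv fun _ => refV

theorem HFam.reflect {L : ℕ → ℝ} {δ s lam : ℝ} {Hb Hs : V6 → ℝ} (h : HFam L δ s lam Hb Hs) :
    HFam L δ s lam (refH Hb) (refH Hs) := by
  refine ⟨h.smb.comp refV.toContinuousLinearEquiv.contDiff,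
    h.sms.comp refV.toContinuousLinearEquiv.contDiff, fun k u => ?_, fun k u => ?_, ?_, ?_, ?_, ?_⟩
  · rw [norm_iter_refH]; exact h.bnd k _
  · rw [norm_iter_refH]; exact h.bndS k _
  · intro u hu
    exact h.supp _ (by simpa [refV_apply, refSign] using hu)
  · intro u hu
    have hd : Differentiable ℝ Hb := h.smb.differentiable (by simp)
    have hd0 : Differentiable ℝ H0 := by unfold H0; fun_prop
    have e : fderiv ℝ (refH Hb) u - fderiv ℝ H0 u
        = (fderiv ℝ Hb (refV u) - fderiv ℝ H0 (refV u)).comp
          (refV.toContinuousLinearEquiv : V6 →L[ℝ] V6) := by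
      conv_lhs => rw [← refH_H0]
      unfold refH
      rw [fderiv_fun_comp u (hd _) refV.differentiable.differentiableAt,
        fderiv_fun_comp u (hd0 _) refV.differentiable.differentiableAt,
        refV.fderiv, ContinuousLinearMap.sub_comp]
    rw [e]
    refine le_trans (ContinuousLinearMap.opNorm_comp_le _ _) ?_
    refine le_trans (mul_le_of_le_one_right (norm_nonneg _) ?_) (h.close1 _ (by simpa using hu))
    exact ContinuousLinearMap.opNorm_le_bound _ zero_le_one fun v => by simp
  · intro u hu
    conv_lhs => rw [← refH_H0]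
    rw [iter_refH_sub]
    exact h.close2 _ (by simpa using hu)
  · obtain ⟨P, hlip, hP⟩ := h.profile
    refine ⟨fun u => P (refV u), fun u v hu hv => ?_, fun u hu => ?_⟩
    · refine (hlip _ _ (by simpa using hu) (by simpa using hv)).trans_eq ?_
      rw [← map_sub, refV.norm_map]
    · obtain ⟨h1, h2⟩ := hP (refV u) (by simpa using hu)
      refine ⟨h1, ?_⟩
      have e : blobK (lam * refV u 2, lam * refV u 1) * refV u 4
          = blobK (lam * u 2, lam * u 1) * u 4 := by
        simp [refV_apply, refSign, blobK_neg]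
      simp only [refH]
      rwa [mul_assoc s, e, ← mul_assoc] at h2

theorem Sol.reflect {η δ : ℝ} {H : V6 → ℝ} {x q : P2 → ℝ} (h : Sol η δ H x q) :
    Sol η δ (refH H) (refX x) (refQ q) := by
  have hx : Differentiable ℝ x := h.smx.differentiable (by simp)
  have hq : Differentiable ℝ q := h.smq.differentiable (by simp)
  have hbox : ∀ z ∈ Box, refP z ∈ Box := fun z hz => by simpa [Box] using hz
  refine ⟨(h.smx.comp refP.toContinuousLinearEquiv.contDiff).neg,
    h.smq.comp refP.toContinuousLinearEquiv.contDiff, fun z hz => ?_, fun z hz => ?_,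
    fun k hk z hz => ?_, fun k hk z hz => ?_, ?_⟩
  · rw [dy_refX hx, show refQ q = fun v => q (refP v) from rfl, dp_comp_refP hq,
      h.eqp _ (hbox z hz)]
  · rw [show refQ q = fun v => q (refP v) from rfl, dy_comp_refP hq, h.eqy _ (hbox z hz)]
    show _ = η * H (refV (jet (refX x) (refQ q) z))
    rw [jet_ref hx, refV_refV]
  · have e : (fun v => refX x v - v.1) = refX (fun v => x v - v.1) := by
      funext v; simp [refX]; ring
    rw [e, norm_iter_refX]
    exact h.closex k hk _ (hbox z hz)
  · rw [norm_iter_refQ]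
    exact h.closeq k hk _ (hbox z hz)
  · simp [refX, h.x0]

lemma refH_add (Hb Hs : V6 → ℝ) :
    refH (fun u => Hb u + Hs u) = fun u => refH Hb u + refH Hs u := rfl

lemma measurePreserving_refP : MeasurePreserving refP (volume : Measure P2) volume := by
  have h : (fun z : P2 => (-z.1, z.2)) = Prod.map (fun t : ℝ => -t) id := rfl
  show MeasurePreserving (fun z : P2 => (-z.1, z.2)) volume volume
  rw [h, Measure.volume_eq_prod]
  exact (Measure.measurePreserving_neg volume).prod (MeasurePreserving.id volume)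

/-- Change of variables under the reflection. -/
lemma setIntegral_refP (g : P2 → ℝ) (s : Set P2) :
    ∫ z in s, g (refP z) = ∫ z in refP '' s, g z :=
  (measurePreserving_refP.setIntegral_image_emb
    refP.toHomeomorph.measurableEmbedding g s).symm

lemma refP_image_prod (a b : ℝ) (t : Set ℝ) :
    refP '' (Set.Icc a b ×ˢ t) = Set.Icc (-b) (-a) ×ˢ t := by
  ext z
  constructor
  · rintro ⟨w, ⟨⟨h1, h2⟩, h3⟩, rfl⟩
    exact ⟨⟨by simpa using h2, by simpa using h1⟩, by simpa using h3⟩
  · rintro ⟨⟨h1, h2⟩, h3⟩
    exact ⟨(-z.1, z.2), ⟨⟨by simp; linarith, by simp; linarith⟩, h3⟩, by simp⟩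

end Vale.Agent.P229
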