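import Vale.Agent.P229.CoreDefs
import Vale.Agent.P229.Calc
import Vale.Agent.P229.Compose
import Vale.Agent.P229.Reflect

/-
P229: base of the bootstrap: admissible data, energies, and the three tools
(edge estimate, core estimate, pointwise bounds) with uniform constants.
-/

namespace Vale.Agent.P229
namespace Boot

open MeasureTheory Set
open scoped ContDiff

/-- Parameters and unknowns. -/
structure Dt where
  η : ℝ
  s : ℝ
  lam : ℝ
  Hb : V6 → ℝ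
  Hs : V6 → ℝ
  x : P2 → ℝ
  q : P2 → ℝ

/-- The nonlinearity. -/
def Dt.H (D : Dt) : V6 → ℝ := fun u => D.Hb u + D.Hs u

/-- Admissible data. -/
structure Dt.Adm (D : Dt) (L : ℕ → ℝ) (N : ℕ) (δ η0 η1 S lam0 : ℝ) : Prop where
  eta1_pos : 0 < η1
  eta_ge : η1 ≤ D.η
  eta_le : D.η ≤ 2 * η1
  eta0 : D.η ≤ η0
  one_le_lam : 1 ≤ D.lam
  lam_ge : lam0 ≤ D.lam
  s_nonneg : 0 ≤ D.s
  small : ∀ m ≤ N - 1, D.s * D.lam ^ m ≤ δ
  top : D.s * D.lam ^ N ≤ S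
  fam : HFam L δ D.s D.lam D.Hb D.Hs
  sol : Sol D.η δ D.H D.x D.q

lemma Dt.Adm.mono {D : Dt} {L : ℕ → ℝ} {N : ℕ} {δ η0 η1 S lam0 lam0' : ℝ}
    (h : D.Adm L N δ η0 η1 S lam0) (hl : lam0' ≤ lam0) : D.Adm L N δ η0 η1 S lam0' :=
  { h with lam_ge := hl.trans h.lam_ge }

lemma Dt.Adm.eta_pos {D : Dt} {L : ℕ → ℝ} {N : ℕ} {δ η0 η1 S lam0 : ℝ}
    (h : D.Adm L N δ η0 η1 S lam0) : 0 < D.η := h.eta1_pos.trans_le h.eta_ge

/-- The reflected data. -/
def Dt.refl (D : Dt) : Dt :=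
  { D with Hb := refH D.Hb, Hs := refH D.Hs, x := refX D.x, q := refQ D.q }

lemma Dt.Adm.refl {D : Dt} {L : ℕ → ℝ} {N : ℕ} {δ η0 η1 S lam0 : ℝ}
    (h : D.Adm L N δ η0 η1 S lam0) : D.refl.Adm L N δ η0 η1 S lam0 :=
  ⟨h.eta1_pos, h.eta_ge, h.eta_le, h.eta0, h.one_le_lam, h.lam_ge, h.s_nonneg, h.small, h.top,
    h.fam.reflect, h.sol.reflect⟩

/-- Sum of squares of the derivatives of order at most `n`. -/
noncomputable def en (f : P2 → ℝ) (n : ℕ) (z : P2) : ℝ :=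
  ∑ i ∈ Finset.range (n + 1), ‖iteratedFDeriv ℝ i f z‖ ^ 2

lemma en_nonneg (f : P2 → ℝ) (n : ℕ) (z : P2) : 0 ≤ en f n z :=
  Finset.sum_nonneg fun _ _ => sq_nonneg _

lemma en_succ (f : P2 → ℝ) (n : ℕ) (z : P2) :
    en f (n + 1) z = en f n z + ‖iteratedFDeriv ℝ (n + 1) f z‖ ^ 2 :=
  Finset.sum_range_succ _ _

lemma en_mono (f : P2 → ℝ) {n m : ℕ} (h : n ≤ m) (z : P2) : en f n z ≤ en f m z :=
  Finset.sum_le_sum_of_subset_of_nonneg (Finset.range_mono (by omega)) fun _ _ _ => sq_nonneg _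

lemma sq_le_en (f : P2 → ℝ) {i n : ℕ} (h : i ≤ n) (z : P2) :
    ‖iteratedFDeriv ℝ i f z‖ ^ 2 ≤ en f n z :=
  Finset.single_le_sum (f := fun i => ‖iteratedFDeriv ℝ i f z‖ ^ 2) (fun _ _ => sq_nonneg _)
    (Finset.mem_range.2 (by omega))

lemma en_cont {f : P2 → ℝ} (hf : ContDiff ℝ ∞ f) (n : ℕ) : Continuous (en f n) :=
  continuous_finsetSum _ fun i _ =>
    ((hf.continuous_iteratedFDeriv (by norm_cast; simp)).norm).pow 2

lemma lowSum_sq_le (f : P2 → ℝ) (n : ℕ) (z : P2) :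
    lowSum f n z ^ 2 ≤ (n + 1 : ℕ) * en f n z := by
  have h := sq_sum_le_card_mul_sum_sq (s := Finset.range (n + 1))
    (f := fun i => ‖iteratedFDeriv ℝ i f z‖)
  rwa [Finset.card_range] at h

lemma blobInd_eq (lam : ℝ) (z : P2) : blobInd lam z = 0 ∨ blobInd lam z = 1 :=
  (Set.indicator_eq_zero_or_self _ _ z).imp id id

lemma blobInd_range (lam : ℝ) (z : P2) : 0 ≤ blobInd lam z ∧ blobInd lam z ≤ 1 := by
  rcases blobInd_eq lam z with h | h <;> rw [h] <;> norm_num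

lemma blobInd_sq (lam : ℝ) (z : P2) : blobInd lam z ^ 2 = blobInd lam z := by
  rcases blobInd_eq lam z with h | h <;> rw [h] <;> norm_num

lemma blobInd_zero {lam : ℝ} {z : P2} (h : 2 / lam < |z.1| ∨ 1 / lam < |z.2|) :
    blobInd lam z = 0 := by
  refine Set.indicator_of_notMem ?_ _
  rintro ⟨h1, h2⟩
  rcases h with h | h <;> linarith

/-- A compact box containing all the regions. -/
def Big : Set P2 := Icc (-3) 3 ×ˢ Icc (-3) 3

/-- A rectangle symmetric in the second variable. -/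
def rect (a b y : ℝ) : Set P2 := Icc a b ×ˢ Icc (-y) y

lemma mem_rect {a b y : ℝ} {z : P2} :
    z ∈ rect a b y ↔ (a ≤ z.1 ∧ z.1 ≤ b) ∧ (-y ≤ z.2 ∧ z.2 ≤ y) := Iff.rfl

lemma measurable_rect (a b y : ℝ) : MeasurableSet (rect a b y) :=
  measurableSet_Icc.prod measurableSet_Icc

lemma rect_mono {a a' b b' y y' : ℝ} (ha : a' ≤ a) (hb : b ≤ b') (hy : y ≤ y') :
    rect a b y ⊆ rect a' b' y' :=
  Set.prod_mono (Icc_subset_Icc ha hb) (Icc_subset_Icc (by linarith) hy)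

lemma rect_big {a b y : ℝ} (ha : -3 ≤ a) (hb : b ≤ 3) (hy : y ≤ 3) : rect a b y ⊆ Big :=
  rect_mono ha hb hy

lemma reg_big {t e : ℝ} (ht : 0 ≤ t) : Reg t e ⊆ Big := by
  intro z hz
  have h := hz.1
  unfold rsq at h
  refine ⟨⟨?_, ?_⟩, ⟨?_, ?_⟩⟩ <;> nlinarith [sq_nonneg z.1, sq_nonneg z.2]

lemma reg_box {t e : ℝ} (ht : 0 ≤ t) : Reg t e ⊆ Box := by
  intro z hz
  have h := hz.1
  unfold rsq at h
  constructor <;> rw [abs_lt] <;> constructor <;> nlinarith [sq_nonneg z.1, sq_nonneg z.2]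

lemma rect_box {a b y : ℝ} (ha : -3 < a) (hb : b < 3) (hy : y < 3) : rect a b y ⊆ Box := by
  rintro z ⟨⟨h1, h2⟩, h3, h4⟩
  constructor <;> rw [abs_lt] <;> constructor <;> linarith

lemma measurable_reg (t e : ℝ) : MeasurableSet (Reg t e) := by
  refine IsOpen.measurableSet ?_
  have hc : Continuous rsq := by unfold rsq; fun_prop
  have e1 : Reg t e = {z | rsq z < 4 - t} ∩ ({z | 1.1 + t < rsq z} ∪ {z | z.1 < e}) := rfl
  rw [e1]
  exact (isOpen_lt hc continuous_const).inter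
    ((isOpen_lt continuous_const hc).union (isOpen_lt continuous_fst continuous_const))

lemma integ {f : P2 → ℝ} (hf : Continuous f) {S : Set P2} (hS : S ⊆ Big) : IntegrableOn f S :=
  (hf.continuousOn.integrableOn_compact (isCompact_Icc.prod isCompact_Icc)).mono_set hS

lemma volume_big : (volume : Measure P2).real Big = 36 := by
  rw [Big, Measure.volume_eq_prod, measureReal_prod_prod,
    Real.volume_real_Icc_of_le (by norm_num)]
  norm_num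

lemma big_lt_top : (volume : Measure P2) Big < ⊤ :=
  (isCompact_Icc.prod isCompact_Icc).measure_lt_top

lemma vol_le_big {S : Set P2} (hS : S ⊆ Big) : (volume : Measure P2).real S ≤ 36 :=
  (measureReal_mono hS big_lt_top.ne).trans_eq volume_big

lemma measurable_blobSet (lam : ℝ) :
    MeasurableSet {v : P2 | |v.1| ≤ 2 / lam ∧ |v.2| ≤ 1 / lam} :=
  ((isClosed_le (f := fun v : P2 => |v.1|) (g := fun _ => 2 / lam) (by fun_prop) continuous_const).inter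
    (isClosed_le (f := fun v : P2 => |v.2|) (g := fun _ => 1 / lam) (by fun_prop) continuous_const)).measurableSet

lemma integ_blob (lam : ℝ) {S : Set P2} (hS : S ⊆ Big) : IntegrableOn (blobInd lam) S := by
  have h : IntegrableOn (fun _ : P2 => (1 : ℝ)) S := integ continuous_const hS
  exact h.indicator (measurable_blobSet lam)

lemma int_blob_le {lam : ℝ} (hl : 0 < lam) {S : Set P2} :
    ∫ z in S, blobInd lam z ≤ 8 / lam ^ 2 := by
  unfold blobInd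
  rw [setIntegral_indicator (measurable_blobSet lam), setIntegral_const, smul_eq_mul, mul_one]
  have hsub : S ∩ {v : P2 | |v.1| ≤ 2 / lam ∧ |v.2| ≤ 1 / lam}
      ⊆ Icc (-(2 / lam)) (2 / lam) ×ˢ Icc (-(1 / lam)) (1 / lam) :=
    fun v hv => ⟨abs_le.1 hv.2.1, abs_le.1 hv.2.2⟩
  refine (measureReal_mono hsub (isCompact_Icc.prod isCompact_Icc).measure_lt_top.ne).trans_eq ?_
  have h2 : 0 < 2 / lam := by positivity
  have h1 : 0 < 1 / lam := by positivity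
  rw [Measure.volume_eq_prod, measureReal_prod_prod,
    Real.volume_real_Icc_of_le (by linarith), Real.volume_real_Icc_of_le (by linarith)]
  field_simp
  ring

lemma int_mono_set {f : P2 → ℝ} (hf : Continuous f) (h0 : ∀ z, 0 ≤ f z) {S T : Set P2}
    (hST : S ⊆ T) (hT : T ⊆ Big) : ∫ z in S, f z ≤ ∫ z in T, f z :=
  setIntegral_mono_set (integ hf hT) (Filter.Eventually.of_forall h0) hST.eventuallyLE

lemma int_union_le {f : P2 → ℝ} (hf : Continuous f) (h0 : ∀ z, 0 ≤ f z) {S A B : Set P2}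
    (hAm : MeasurableSet A) (hBm : MeasurableSet B) (hS : S ⊆ A ∪ B)
    (hA : A ⊆ Big) (hB : B ⊆ Big) : ∫ z in S, f z ≤ (∫ z in A, f z) + ∫ z in B, f z := by
  refine (int_mono_set hf h0 hS (union_subset hA hB)).trans ?_
  rw [← union_sdiff_self, setIntegral_union disjoint_sdiff_self_right (hBm.diff hAm) (integ hf hA)
    (integ hf (sdiff_subset.trans hB))]
  exact add_le_add le_rfl (int_mono_set hf h0 sdiff_subset hB)

/-- Integration of a pointwise bound by a constant, an energy and the blob indicator. -/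
lemma int_bound {f g : P2 → ℝ} {lam C D : ℝ} {S : Set P2} (hS : S ⊆ Big) (hSm : MeasurableSet S)
    (hf : IntegrableOn f S) (hg : Continuous g)
    (h : ∀ z ∈ S, f z ≤ C * (1 + g z + blobInd lam z * D)) :
    ∫ z in S, f z ≤ C * ((volume : Measure P2).real S + (∫ z in S, g z)
      + (∫ z in S, blobInd lam z) * D) := by
  have i1 : IntegrableOn (fun z : P2 => (1 : ℝ) + g z) S := integ (by fun_prop) hS
  have i2 : IntegrableOn (fun z => blobInd lam z * D) S := (integ_blob lam hS).mul_const D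
  refine (setIntegral_mono_on hf ((i1.add i2).const_mul C) hSm h).trans_eq ?_
  rw [integral_const_mul, integral_add' i1 i2, integral_add (integ continuous_const hS) (integ hg hS),
    setIntegral_const, integral_mul_const, smul_eq_mul, mul_one]

/-- Bound of all low orders of both unknowns at a point. -/
def Dt.Sup (D : Dt) (n : ℕ) (M : ℝ) (z : P2) : Prop :=
  ∀ i ≤ n, ‖iteratedFDeriv ℝ i D.x z‖ ≤ M ∧ ‖iteratedFDeriv ℝ i D.q z‖ ≤ M

lemma Dt.Sup.mono {D : Dt} {n n' : ℕ} {M M' : ℝ} {z : P2} (h : D.Sup n M z) (hn : n' ≤ n)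
    (hM : M ≤ M') : D.Sup n' M' z :=
  fun i hi => ⟨(h i (hi.trans hn)).1.trans hM, (h i (hi.trans hn)).2.trans hM⟩

/-- Squared energy of the row `j`. -/
noncomputable def Dt.grad (D : Dt) (j : ℕ) (z : P2) : ℝ :=
  dp (der D.x j) z ^ 2 + dy (der D.x j) z ^ 2

/-- The three tools with uniform constants. -/
structure Kit (L : ℕ → ℝ) (N : ℕ) (δ η0 θ0 c0 : ℝ) : Prop where
  edge : ∀ j, 3 ≤ j → j ≤ N + 6 → ∀ η1 θ t t' : ℝ,
    0 < η1 → 0 < θ → θ ≤ θ0 → 0 ≤ t → t < t' → t' ≤ 1 → ∃ C : ℝ,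
    ∀ (D : Dt) (S lam0 e : ℝ), D.Adm L N δ η0 η1 S lam0 → D.η ≤ θ → |e| ≤ θ0 →
      (∫ z in Reg t' (e - θ), D.grad j z)
        ≤ C * ∫ z in Reg t (e + θ), (en D.x j z + coefR D.H D.x D.q j z ^ 2)
  core : ∀ j, 3 ≤ j → j ≤ N + 6 → ∀ η1 y1 y2 K θc : ℝ,
    0 < η1 → 0 < y1 → y1 < y2 → y2 ≤ 0.7 → 2 ≤ K → 0 < θc → θc ≤ 0.01 →
    θc ≤ c0 * Real.sqrt η1 * (y2 - y1) ^ 2 → ∃ C : ℝ,
    ∀ (D : Dt) (S lam0 w0 e : ℝ), D.Adm L N δ η0 η1 S lam0 → 0 < w0 → K * w0 ≤ θc → |e| ≤ θc →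
      (∫ z in rect (-2 * θc) (e - w0) y1, D.grad j z)
        + w0⁻¹ * (∫ z in rect (max (e - K * w0) (-2 * θc)) (e - w0) y1, D.grad j z)
        ≤ C * ((∫ z in rect (-3 * θc) (-2 * θc) y2, D.grad j z)
          + (∫ z in rect (-3 * θc) (e - K * w0) y2, coefR D.H D.x D.q j z ^ 2)
          + w0 * ∫ z in rect (e - K * w0) e y2, coefR D.H D.x D.q j z ^ 2)
  point : ∀ j, 3 ≤ j → j ≤ N + 6 → ∀ M : ℝ, ∃ C : ℝ, 0 ≤ C ∧
    ∀ (D : Dt) (η1 S lam0 : ℝ), D.Adm L N δ η0 η1 S lam0 → ∀ z ∈ Box, D.Sup (j / 2 + 6) M z →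
      coefR D.H D.x D.q j z ^ 2
        ≤ C * (1 + en D.x j z + blobInd D.lam z * (D.s * D.lam ^ (j + 1)) ^ 2) ∧
      ‖iteratedFDeriv ℝ (j + 1) D.x z‖ ^ 2
        ≤ C * (1 + (D.grad j z + en D.x j z) + blobInd D.lam z * (D.s * D.lam ^ j) ^ 2) ∧
      ‖iteratedFDeriv ℝ (j + 1) D.q z‖ ^ 2
        ≤ C * (1 + en D.x (j + 1) z + blobInd D.lam z * (D.s * D.lam ^ j) ^ 2)
  cont : ∀ j, 3 ≤ j → j ≤ N + 6 → ∀ (D : Dt) (η1 S lam0 : ℝ), D.Adm L N δ η0 η1 S lam0 →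
    Continuous (coefR D.H D.x D.q j)

lemma smooth_der {x : P2 → ℝ} (hx : ContDiff ℝ ∞ x) (j : ℕ) : ContDiff ℝ ∞ (der x j) :=
  smooth_iter hx j

lemma grad_cont {D : Dt} (hx : ContDiff ℝ ∞ D.x) (j : ℕ) : Continuous (D.grad j) :=
  ((smooth_dp (smooth_der hx j)).continuous.pow 2).add
    ((smooth_dy (smooth_der hx j)).continuous.pow 2)

lemma grad_nonneg (D : Dt) (j : ℕ) (z : P2) : 0 ≤ D.grad j z :=
  add_nonneg (sq_nonneg _) (sq_nonneg _)

lemma grad_le_en {D : Dt} (hx : ContDiff ℝ ∞ D.x) (j : ℕ) (z : P2) :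
    D.grad j z ≤ 2 * ‖iteratedFDeriv ℝ (j + 1) D.x z‖ ^ 2 := by
  have h1 : |dp (der D.x j) z| ≤ ‖iteratedFDeriv ℝ (j + 1) D.x z‖ := by
    have h := abs_dp_iter_le hx (j + 1) z
    rwa [Function.iterate_succ_apply'] at h
  have h2 : |dy (der D.x j) z| ≤ ‖iteratedFDeriv ℝ (j + 1) D.x z‖ := by
    unfold der dy
    have hd : DifferentiableAt ℝ (iteratedFDeriv ℝ j D.x) z :=
      (hx.differentiable_iteratedFDeriv (by exact_mod_cast ENat.natCast_lt_top j)) z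
    have e : dp^[j] D.x = fun v => iteratedFDeriv ℝ j D.x v (fun _ => (1, 0)) :=
      funext fun v => dp_iter_eq hx j v
    rw [e, fderiv_continuousMultilinear_apply_const_apply hd, ← norm_fderiv_iteratedFDeriv,
      ← Real.norm_eq_abs]
    refine ((fderiv ℝ (iteratedFDeriv ℝ j D.x) z (0, 1)).le_opNorm _).trans ?_
    simpa [Prod.norm_def] using (fderiv ℝ (iteratedFDeriv ℝ j D.x) z).le_opNorm (0, 1)
  unfold Dt.grad
  have := sq_le_sq' (neg_le_of_abs_le h1) (le_of_abs_le h1)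
  have := sq_le_sq' (neg_le_of_abs_le h2) (le_of_abs_le h2)
  linarith

/-- Sobolev bound in a form convenient here. -/
lemma sup_tool (hs : SobolevSpec) (ρ : ℝ) (n : ℕ) (hρ : 0 < ρ) : ∃ C : ℝ, 0 ≤ C ∧
    ∀ (f : P2 → ℝ), ContDiff ℝ ∞ f → ∀ z : P2, ∀ i, i + 2 ≤ n → ‖iteratedFDeriv ℝ i f z‖ ≤
      1 + C * ∫ v in Icc (z.1 - ρ) (z.1 + ρ) ×ˢ Icc (z.2 - ρ) (z.2 + ρ), en f n v := by
  choose C hC using fun k => hs ρ k hρ
  refine ⟨∑ k ∈ Finset.range (n + 1), |C k|, Finset.sum_nonneg fun _ _ => abs_nonneg _,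
    fun f hf z i hi => ?_⟩
  set B := Icc (z.1 - ρ) (z.1 + ρ) ×ˢ Icc (z.2 - ρ) (z.2 + ρ)
  have hI : (∫ v in B, ∑ m ∈ Finset.range (i + 3), ‖iteratedFDeriv ℝ m f v‖ ^ 2)
      ≤ ∫ v in B, en f n v := by
    have hB : IsCompact B := isCompact_Icc.prod isCompact_Icc
    refine setIntegral_mono_on ?_ ((en_cont hf n).continuousOn.integrableOn_compact hB)
      (measurableSet_Icc.prod measurableSet_Icc) fun v _ => en_mono f (n := i + 2) hi v
    exact (en_cont hf (i + 2)).continuousOn.integrableOn_compact hB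
  have h0 : 0 ≤ ∫ v in B, ∑ m ∈ Finset.range (i + 3), ‖iteratedFDeriv ℝ m f v‖ ^ 2 :=
    integral_nonneg fun v => Finset.sum_nonneg fun _ _ => sq_nonneg _
  have h1 : ‖iteratedFDeriv ℝ i f z‖ ^ 2
      ≤ (∑ k ∈ Finset.range (n + 1), |C k|) * ∫ v in B, en f n v := by
    refine (hC i f hf z).trans (mul_le_mul ?_ hI h0 (Finset.sum_nonneg fun _ _ => abs_nonneg _))
    exact (le_abs_self _).trans
      (Finset.single_le_sum (fun k _ => abs_nonneg (C k)) (Finset.mem_range.2 (by omega)))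
  nlinarith [sq_nonneg (‖iteratedFDeriv ℝ i f z‖ - 1 / 2)]

lemma le_one_add_of_sq_le {a b : ℝ} (h : a ^ 2 ≤ b) : a ≤ 1 + b := by
  nlinarith [sq_nonneg (a - 1 / 2)]

/-- Bounds of the low orders given by the closeness to the model. -/
lemma base_sup {D : Dt} {L : ℕ → ℝ} {N : ℕ} {δ η0 η1 S lam0 : ℝ}
    (h : D.Adm L N δ η0 η1 S lam0) {z : P2} (hz : z ∈ Box) : D.Sup 15 (δ + 4) z := by
  intro i hi
  refine ⟨?_, (h.sol.closeq i hi z hz).trans (by linarith)⟩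
  have hle : (i : WithTop ℕ∞) ≤ ∞ := by exact_mod_cast le_top
  have hx : ContDiffAt ℝ i (fun v => D.x v - v.1) z :=
    ((h.sol.smx.sub contDiff_fst).of_le hle).contDiffAt
  have hp : ContDiffAt ℝ i (fun v : P2 => v.1) z := contDiff_fst.contDiffAt
  have e : D.x = (fun v => D.x v - v.1) + (fun v : P2 => v.1) := by funext v; simp
  rw [e, iteratedFDeriv_add_apply hx hp]
  refine (norm_add_le _ _).trans (add_le_add (h.sol.closex i (by omega) z hz) ?_)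
  match i with
  | 0 => simp; linarith [hz.1]
  | 1 =>
    rw [norm_iteratedFDeriv_one, show (fun v : P2 => v.1) = ⇑(ContinuousLinearMap.fst ℝ ℝ ℝ) from rfl,
      ContinuousLinearMap.fderiv]
    exact (ContinuousLinearMap.norm_fst_le ℝ ℝ ℝ).trans (by norm_num)
  | n + 2 =>
    rw [← norm_iteratedFDeriv_fderiv]
    have : fderiv ℝ (fun v : P2 => v.1) = fun _ => ContinuousLinearMap.fst ℝ ℝ ℝ := by
      funext v; exact (ContinuousLinearMap.fst ℝ ℝ ℝ).fderiv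
    rw [this, iteratedFDeriv_const_of_ne (by omega)]
    simp

lemma HFam.mono' {L : ℕ → ℝ} {δ δ' s lam : ℝ} {Hb Hs : V6 → ℝ} (h : HFam L δ s lam Hb Hs)
    (hd : δ ≤ δ') : HFam L δ' s lam Hb Hs :=
  { h with
    close1 := fun u hu => (h.close1 u hu).trans hd
    close2 := fun u hu => (h.close2 u hu).trans hd }

lemma Sol.mono' {η δ δ' : ℝ} {H : V6 → ℝ} {x q : P2 → ℝ} (h : Sol η δ H x q) (hd : δ ≤ δ') :
    Sol η δ' H x q :=
  { h with
    closex := fun k hk z hz => (h.closex k hk z hz).trans hd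
    closeq := fun k hk z hz => (h.closeq k hk z hz).trans hd }

lemma sq_le_five {C a b c d e X : ℝ} (hX : |X| ≤ C * (a + b + c + d + e)) :
    X ^ 2 ≤ 5 * C ^ 2 * (a ^ 2 + b ^ 2 + c ^ 2 + d ^ 2 + e ^ 2) := by
  have hs := sq_le_sq' (neg_le_of_abs_le hX) (le_of_abs_le hX)
  have h5 : (a + b + c + d + e) ^ 2 ≤ 5 * (a ^ 2 + b ^ 2 + c ^ 2 + d ^ 2 + e ^ 2) := by
    nlinarith only [sq_nonneg (a - b), sq_nonneg (a - c), sq_nonneg (a - d), sq_nonneg (a - e),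
      sq_nonneg (b - c), sq_nonneg (b - d), sq_nonneg (b - e), sq_nonneg (c - d),
      sq_nonneg (c - e), sq_nonneg (d - e)]
  nlinarith only [hs, mul_le_mul_of_nonneg_left h5 (sq_nonneg C)]

/-- From the pointwise bounds of `PrepSpec` to squares. -/
lemma squares {C a m l l' E E' β X Y R Qn T T' k : ℝ} (hk : 1 ≤ k) (hβ : β ^ 2 = β)
    (hβ0 : 0 ≤ β) (hl : l ^ 2 ≤ k * E) (hl' : l' ^ 2 ≤ k * E')
    (h1 : |R| ≤ C * (1 + l + β * T'))
    (h2 : |X| ≤ C * (|a| + |m| + 1 + l + β * T))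
    (h3 : |Qn| ≤ C * (1 + l' + β * T)) (hY : Y = a ^ 2 + m ^ 2) :
    R ^ 2 ≤ 5 * C ^ 2 * k * (1 + E + β * T' ^ 2) ∧
    X ^ 2 ≤ 5 * C ^ 2 * k * (1 + (Y + E) + β * T ^ 2) ∧
    Qn ^ 2 ≤ 5 * C ^ 2 * k * (1 + E' + β * T ^ 2) := by
  have big : ∀ u : ℝ, 0 ≤ u → u ≤ k * u := fun u hu => le_mul_of_one_le_left hu hk
  have u1 := big (β * T ^ 2) (mul_nonneg hβ0 (sq_nonneg _))
  have u2 := big (β * T' ^ 2) (mul_nonneg hβ0 (sq_nonneg _))
  have u3 := big Y (hY ▸ add_nonneg (sq_nonneg _) (sq_nonneg _))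
  refine ⟨?_, ?_, ?_⟩
  · have h := sq_le_five (C := C) (a := 1) (b := l) (c := β * T') (d := 0) (e := 0) (X := R)
      (by simpa only [add_zero] using h1)
    rw [mul_pow, hβ] at h
    refine h.trans ?_
    rw [mul_assoc (5 * C ^ 2)]
    exact mul_le_mul_of_nonneg_left (by linarith) (by positivity)
  · have h := sq_le_five (C := C) (a := |a|) (b := |m|) (c := 1) (d := l) (e := β * T) (X := X) h2
    rw [mul_pow, hβ, sq_abs, sq_abs] at h
    refine h.trans ?_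
    rw [mul_assoc (5 * C ^ 2)]
    exact mul_le_mul_of_nonneg_left (by linarith) (by positivity)
  · have h := sq_le_five (C := C) (a := 1) (b := l') (c := β * T) (d := 0) (e := 0) (X := Qn)
      (by simpa only [add_zero] using h3)
    rw [mul_pow, hβ] at h
    refine h.trans ?_
    rw [mul_assoc (5 * C ^ 2)]
    exact mul_le_mul_of_nonneg_left (by linarith) (by positivity)

/-- The numerical hypotheses of the core estimate. -/
lemma core_coef {n g δ1 z1 r k dk dk' v dv dv' G G1 yz : ℝ} (hn : 0 ≤ n) (hd : δ1 ≤ 0.01)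
    (hz : |z1| ≤ 0.03) (hy : |yz| ≤ 0.7) (hr : r = z1 ^ 2 + yz ^ 2) (hg : 0 ≤ g) (hgn : g ≤ n + 8)
    (a1 : |k - (r - 1)| ≤ δ1) (a2 : |dk - 2 * z1| ≤ δ1) (a3 : |dk' - 2 * yz| ≤ δ1)
    (a4 : |v| ≤ δ1) (a5 : |dv| ≤ δ1) (a6 : |dv'| ≤ δ1) (a7 : |G - 2 * g * z1| ≤ δ1)
    (a8 : |G1| ≤ 1) :
    k ≤ -(1 / 4) ∧ |k| ≤ 2 * (n + 10) + 3 ∧ |dk| ≤ 2 * (n + 10) + 3 ∧ |dk'| ≤ 2 * (n + 10) + 3 ∧
    |v| ≤ 2 * (n + 10) + 3 ∧ |dv| ≤ 2 * (n + 10) + 3 ∧ |dv'| ≤ 2 * (n + 10) + 3 ∧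
    |G| ≤ 2 * (n + 10) + 3 ∧ |G1| ≤ 2 * (n + 10) + 3 := by
  have hp2 : z1 ^ 2 ≤ 0.03 ^ 2 := by rw [← sq_abs]; gcongr
  have hy2' : yz ^ 2 ≤ 0.7 ^ 2 := by rw [← sq_abs yz]; gcongr
  norm_num at hp2 hy2'
  have : 0 ≤ z1 ^ 2 := sq_nonneg _
  have : 0 ≤ yz ^ 2 := sq_nonneg _
  rw [abs_le] at a1 a2 a3 a4 a5 a6 a7 a8 hz hy
  have g1 : 2 * g * z1 ≤ 2 * (n + 8) * 1 := by
    nlinarith only [mul_le_mul_of_nonneg_left hz.2 (show (0:ℝ) ≤ 2 * g by linarith), hgn, hg]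
  have g2 : -(2 * (n + 8) * 1) ≤ 2 * g * z1 := by
    nlinarith only [mul_le_mul_of_nonneg_left hz.1 (show (0:ℝ) ≤ 2 * g by linarith), hgn, hg]
  refine ⟨by linarith, ?_, ?_, ?_, ?_, ?_, ?_, ?_, ?_⟩ <;> rw [abs_le] <;>
    constructor <;> linarith

lemma coefClose_mono {δ δ' Γ g : ℝ} {κ ν G G1 : P2 → ℝ} (hd : δ ≤ δ')
    (h : CoefClose δ Γ g κ ν G G1) : CoefClose δ' Γ g κ ν G G1 := by
  intro z hz
  obtain ⟨a1, a2, a3, a4, a5, a6, a7, a8⟩ := h z hz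
  exact ⟨a1.trans hd, a2.trans hd, a3.trans hd, a4.trans hd, a5.trans hd, a6.trans hd,
    a7.trans hd, a8⟩

/-- The edge estimate for one row, with the energy on the right. -/
lemma edge_field {η η1 η0 θ θ0 δ Γ g t t' e C : ℝ} {κ ν G G1 R x : P2 → ℝ} {j : ℕ}
    (hx : ContDiff ℝ ∞ x) (ht : 0 ≤ t)
    (hC : ∀ η : ℝ, η1 ≤ η → η ≤ η0 → η ≤ θ →
      ∀ (κ ν G G1 R w : P2 → ℝ) (e : ℝ), |e| ≤ θ0 →
      CoefClose δ Γ g κ ν G G1 → LinEq η κ ν G G1 R w (Reg t (e + θ)) →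
      (∫ z in Reg t' (e - θ), (dp w z ^ 2 + dy w z ^ 2))
        ≤ C * ∫ z in Reg t (e + θ), (w z ^ 2 + R z ^ 2))
    (hcc : CoefClose δ Γ g κ ν G G1) (hlin : LinEq η κ ν G G1 R (der x j) Box)
    (h1 : η1 ≤ η) (h2 : η ≤ η0) (h3 : η ≤ θ) (h4 : |e| ≤ θ0) :
    (∫ z in Reg t' (e - θ), (dp (der x j) z ^ 2 + dy (der x j) z ^ 2))
      ≤ |C| * ∫ z in Reg t (e + θ), (en x j z + R z ^ 2) := by
  have hlin' : LinEq η κ ν G G1 R (der x j) (Reg t (e + θ)) :=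
    { hlin with eq := fun z hz => hlin.eq z (reg_box ht hz) }
  refine (hC η h1 h2 h3 _ _ _ _ _ _ e h4 hcc hlin').trans ?_
  have hin : 0 ≤ ∫ z in Reg t (e + θ), (der x j z ^ 2 + R z ^ 2) :=
    integral_nonneg fun z => add_nonneg (sq_nonneg _) (sq_nonneg _)
  refine (mul_le_mul_of_nonneg_right (le_abs_self C) hin).trans
    (mul_le_mul_of_nonneg_left ?_ (abs_nonneg _))
  refine setIntegral_mono_on (integ ((hlin.smw.continuous.pow 2).add (hlin.cR.pow 2)) (reg_big ht))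
    (integ ((en_cont hx j).add (hlin.cR.pow 2)) (reg_big ht)) (measurable_reg _ _)
    fun z _ => add_le_add ?_ le_rfl
  have h := abs_dp_iter_le hx j z
  exact (sq_le_sq' (neg_le_of_abs_le h) (le_of_abs_le h)).trans (sq_le_en x le_rfl z)

theorem exists_kit (he : EdgeSpec) (hc : CoreEnergySpec) (hp : PrepSpec) (L : ℕ → ℝ) (N : ℕ)
    (hN : 40 ≤ N) : ∃ δ η0 θ0 c0 : ℝ, 0 < δ ∧ 0 < η0 ∧ 0 < θ0 ∧ 0 < c0 ∧
      Kit L N δ η0 θ0 c0 := by
  have h2 : ∀ j : ℕ, (2 : ℝ) ≤ ((j : ℕ) : ℝ) + 2 := fun j => by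
    linarith [show (0 : ℝ) ≤ j from Nat.cast_nonneg j]
  choose dE eE tE hdE heE htE hEdge using fun j : ℕ => he ((j : ℝ) + 2) 1 (h2 j) zero_le_one
  choose dP eP hdP heP hPrep using fun j : ℕ =>
    hp L (max j 3) (min (dE (max j 3)) 0.01) (le_max_right _ _) (lt_min (hdE _) (by norm_num))
  obtain ⟨eC, c0, heC, hc0, hCore⟩ := hc (2 * ((N : ℝ) + 10) + 3) (by positivity)
  have hne : (Finset.range (N + 7)).Nonempty := ⟨0, by simp⟩
  set δ := (Finset.range (N + 7)).inf' hne dP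
  set η0 := min eC ((Finset.range (N + 7)).inf' hne (fun j => min (eP j) (eE j)))
  set θ0 := (Finset.range (N + 7)).inf' hne tE
  have hδ : ∀ j, j ≤ N + 6 → δ ≤ dP j := fun j hj =>
    Finset.inf'_le _ (Finset.mem_range.2 (by omega))
  have hη : ∀ j, j ≤ N + 6 → η0 ≤ eP j ∧ η0 ≤ eE j := fun j hj => by
    have h := (min_le_right eC _).trans (Finset.inf'_le (fun j => min (eP j) (eE j))
      (Finset.mem_range.2 (show j < N + 7 by omega)))
    exact ⟨h.trans (min_le_left _ _), h.trans (min_le_right _ _)⟩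
  have hθ : ∀ j, j ≤ N + 6 → θ0 ≤ tE j := fun j hj =>
    Finset.inf'_le _ (Finset.mem_range.2 (by omega))
  -- consequences of `PrepSpec` for admissible data
  have facts : ∀ j, 3 ≤ j → j ≤ N + 6 → ∀ (D : Dt) (η1 S lam0 : ℝ),
      D.Adm L N δ η0 η1 S lam0 →
      CoefClose (min (dE j) 0.01) 1 ((j : ℝ) + 2) (hDer D.H D.x D.q 4) (hDer D.H D.x D.q 5)
        (coefG D.H D.x D.q j) (coefG1 D.H D.x D.q j) ∧
      LinEq D.η (hDer D.H D.x D.q 4) (hDer D.H D.x D.q 5) (coefG D.H D.x D.q j)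
        (coefG1 D.H D.x D.q j) (coefR D.H D.x D.q j) (der D.x j) Box := by
    intro j hj hjN D η1 S lam0 hD
    obtain ⟨C, hC⟩ := hPrep j 0
    rw [max_eq_left hj] at hC
    have h := hC D.η D.s D.lam D.Hb D.Hs D.x D.q hD.eta_pos (hD.eta0.trans (hη j hjN).1)
      hD.one_le_lam hD.s_nonneg
      (fun m hm => (hD.small m (by omega)).trans (hδ j hjN))
      (HFam.mono' hD.fam (hδ j hjN)) (Sol.mono' hD.sol (hδ j hjN))
    exact ⟨h.1, h.2.1⟩
  refine ⟨δ, η0, θ0, c0, (Finset.lt_inf'_iff _).2 fun j _ => hdP j,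
    lt_min heC ((Finset.lt_inf'_iff _).2 fun j _ => lt_min (heP j) (heE j)),
    (Finset.lt_inf'_iff _).2 fun j _ => htE j, hc0, ?_, ?_, ?_, ?_⟩
  · intro j hj hjN η1 θ t t' hη1 hθp hθle ht htt ht'
    obtain ⟨C, hC⟩ := hEdge j η1 θ t t' hη1 hθp (hθle.trans (hθ j hjN)) ht htt ht'
    refine ⟨|C|, fun D S lam0 e hD hηθ he' => ?_⟩
    obtain ⟨hcc, hlin⟩ := facts j hj hjN D η1 S lam0 hD
    exact edge_field hD.sol.smx ht hC (coefClose_mono (min_le_left _ _) hcc) hlin hD.eta_ge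
      (hD.eta0.trans (hη j hjN).2) hηθ (he'.trans (hθ j hjN))
  · intro j hj hjN η1 y1 y2 K θc hη1 hy1 hy12 hy2 hK hθc hθcs hθcb
    obtain ⟨C, hC⟩ := hCore η1 y1 y2 K θc hη1 hy1 hy12 hy2 hK hθc hθcb
    refine ⟨C, fun D S lam0 w0 e hD hw0 hKw he' => ?_⟩
    obtain ⟨hcc, hlin⟩ := facts j hj hjN D η1 S lam0 hD
    have he1 := abs_le.1 he'
    have hsub : rect (-3 * θc) e y2 ⊆ Box := rect_box (by linarith) (by linarith) (by linarith)
    refine hC D.η w0 e hD.eta_ge (hD.eta0.trans (min_le_left _ _)) hw0 hKw he' _ _ _ _ _ _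
      (fun z hz => ?_) { hlin with eq := fun z hz => hlin.eq z (hsub hz) }
    obtain ⟨⟨p1, p2⟩, q1, q2⟩ := hz
    have hp : |z.1| ≤ 0.03 := abs_le.2 ⟨by linarith, by linarith⟩
    have hy : |z.2| ≤ 0.7 := abs_le.2 ⟨by linarith, by linarith⟩
    have hr : rsq z ≤ 4 := by
      have h1 := sq_le_sq' (neg_le_of_abs_le hp) (le_of_abs_le hp)
      have h2 := sq_le_sq' (neg_le_of_abs_le hy) (le_of_abs_le hy)
      unfold rsq; norm_num at h1 h2; linarith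
    obtain ⟨a1, a2, a3, a4, a5, a6, a7, a8⟩ := hcc z hr
    have hjr : (j : ℝ) ≤ N + 6 := by exact_mod_cast hjN
    exact core_coef (n := (N : ℝ)) (Nat.cast_nonneg N) (min_le_right _ _) hp hy rfl (by positivity)
      (by linarith) a1 a2 a3 a4 a5 a6 a7 a8
  · intro j hj hjN M
    obtain ⟨C, hC⟩ := hPrep j M
    rw [max_eq_left hj] at hC
    refine ⟨5 * C ^ 2 * ((j + 2 : ℕ) : ℝ), by positivity, fun D η1 S lam0 hD z hz hM => ?_⟩
    obtain ⟨-, -, h⟩ := hC D.η D.s D.lam D.Hb D.Hs D.x D.q hD.eta_pos (hD.eta0.trans (hη j hjN).1)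
      hD.one_le_lam hD.s_nonneg
      (fun m hm => (hD.small m (by omega)).trans (hδ j hjN))
      (HFam.mono' hD.fam (hδ j hjN)) (Sol.mono' hD.sol (hδ j hjN))
    obtain ⟨h1, h2, h3⟩ := h z hz hM
    refine squares (k := ((j + 2 : ℕ) : ℝ)) (by exact_mod_cast Nat.le_add_left 1 (j + 1)) (blobInd_sq _ z) (blobInd_range _ z).1
      ((lowSum_sq_le D.x j z).trans (mul_le_mul_of_nonneg_right (by norm_cast; omega) (en_nonneg _ _ _)))
      ((lowSum_sq_le D.x (j + 1) z).trans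
        (mul_le_mul_of_nonneg_right (by norm_cast) (en_nonneg _ _ _)))
      h1 (by rw [abs_norm]; exact h2) (by rw [abs_norm]; exact h3) rfl
  · intro j hj hjN D η1 S lam0 hD
    exact (facts j hj hjN D η1 S lam0 hD).2.cR

/-- Mesh of the vertical shrinking. -/
noncomputable def mesh (N : ℕ) : ℝ := 1 / (100 * ((N : ℝ) + 10))

/-- Conditions on the width of the core. -/
structure Good (N : ℕ) (θ0 c0 η1 θc : ℝ) : Prop where
  eta1_pos : 0 < η1
  pos : 0 < θc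
  le_small : θc ≤ 0.01
  le_theta0 : 4 * θc ≤ θ0
  le_core : θc ≤ c0 * Real.sqrt η1 * mesh N ^ 2
  eta_le : 2 * η1 ≤ θc / (100 * ((N : ℝ) + 10))

/-- Output of the blob free phase. -/
def AOut (N : ℕ) (θc C : ℝ) (D : Dt) : Prop :=
  ∀ z : P2, z.1 ≤ -(5 / 4) * θc → rsq z ≤ 3.4 → D.Sup (N + 3) C z

/-- Output of the middle phase. -/
def BOut (N : ℕ) (θc C : ℝ) (D : Dt) : Prop :=
  ∀ z ∈ rect (-3 * θc) (θc / 4) 0.5, D.Sup (N - 2) C z

end Boot
end Vale.Agent.P229
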