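import Vale.Agent.P229.Spec

/-
P229: coefficients of the differentiated equation and statements of the modules
that make up the proof of `CoreSpec`.
-/

namespace Vale.Agent.P229

open MeasureTheory
open scoped ContDiff

/-- Partial derivative of `H` in the slot `i` along the jet. -/
noncomputable def hDer (H : V6 → ℝ) (x q : P2 → ℝ) (i : Fin 6) (z : P2) : ℝ :=
  fderiv ℝ H (jet x q z) (Pi.single i 1)

/-- The `j`-th derivative of `x` in the first variable. -/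
noncomputable def der (x : P2 → ℝ) (j : ℕ) : P2 → ℝ := dp^[j] x

/-- First order coefficient in front of `w_p`. -/
noncomputable def coefG (H : V6 → ℝ) (x q : P2 → ℝ) (j : ℕ) (z : P2) : ℝ :=
  ((j : ℝ) + 1) * dp (hDer H x q 4) z + hDer H x q 2 z

/-- First order coefficient in front of `w_y`. -/
noncomputable def coefG1 (H : V6 → ℝ) (x q : P2 → ℝ) (j : ℕ) (z : P2) : ℝ :=
  ((j : ℝ) + 1) * dp (hDer H x q 5) z - hDer H x q 3 z

/-- Remainder of the differentiated equation. -/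
noncomputable def coefR (H : V6 → ℝ) (x q : P2 → ℝ) (j : ℕ) (z : P2) : ℝ :=
  dp^[j + 1] (fun v => H (jet x q v)) z
    - (hDer H x q 4 z * dp (dp (der x j)) z + hDer H x q 5 z * dy (dp (der x j)) z
      + coefG H x q j z * dp (der x j) z + coefG1 H x q j z * dy (der x j) z)

/-- Indicator of the strip neighbourhood of the blob. -/
noncomputable def blobInd (lam : ℝ) (z : P2) : ℝ :=
  Set.indicator {v : P2 | |v.1| ≤ 2 / lam ∧ |v.2| ≤ 1 / lam} (fun _ => (1 : ℝ)) z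

/-- Sum of the norms of the derivatives of order at most `j`. -/
noncomputable def lowSum (x : P2 → ℝ) (j : ℕ) (z : P2) : ℝ :=
  ∑ i ∈ Finset.range (j + 1), ‖iteratedFDeriv ℝ i x z‖

/-- The differentiated equation and its pointwise bounds. -/
def PrepSpec : Prop :=
  ∀ (L : ℕ → ℝ) (j : ℕ) (δ1 : ℝ), 3 ≤ j → 0 < δ1 → ∃ δ η0 : ℝ,
    0 < δ ∧ 0 < η0 ∧ ∀ M : ℝ, ∃ C : ℝ,
    ∀ (η s lam : ℝ) (Hb Hs : V6 → ℝ) (x q : P2 → ℝ),
      0 < η → η ≤ η0 → 1 ≤ lam → 0 ≤ s → (∀ m ≤ j / 2 + 6, s * lam ^ m ≤ δ) →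
      HFam L δ s lam Hb Hs → Sol η δ (fun u => Hb u + Hs u) x q →
      (CoefClose δ1 1 ((j : ℝ) + 2) (hDer (fun u => Hb u + Hs u) x q 4)
          (hDer (fun u => Hb u + Hs u) x q 5) (coefG (fun u => Hb u + Hs u) x q j)
          (coefG1 (fun u => Hb u + Hs u) x q j)) ∧
      LinEq η (hDer (fun u => Hb u + Hs u) x q 4) (hDer (fun u => Hb u + Hs u) x q 5)
          (coefG (fun u => Hb u + Hs u) x q j) (coefG1 (fun u => Hb u + Hs u) x q j)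
          (coefR (fun u => Hb u + Hs u) x q j) (der x j) Box ∧
      ∀ z ∈ Box, (∀ i ≤ j / 2 + 6,
          ‖iteratedFDeriv ℝ i x z‖ ≤ M ∧ ‖iteratedFDeriv ℝ i q z‖ ≤ M) →
        |coefR (fun u => Hb u + Hs u) x q j z|
            ≤ C * (1 + lowSum x j z + blobInd lam z * (s * lam ^ (j + 1))) ∧
        ‖iteratedFDeriv ℝ (j + 1) x z‖
            ≤ C * (|dp (der x j) z| + |dy (der x j) z| + 1 + lowSum x j z
              + blobInd lam z * (s * lam ^ j)) ∧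
        ‖iteratedFDeriv ℝ (j + 1) q z‖
            ≤ C * (1 + lowSum x (j + 1) z + blobInd lam z * (s * lam ^ j))

/-- Interior sup bound from square integrals of two more derivatives. -/
def SobolevSpec : Prop :=
  ∀ (ρ : ℝ) (k : ℕ), 0 < ρ → ∃ C : ℝ, ∀ (f : P2 → ℝ), ContDiff ℝ ∞ f → ∀ z : P2,
    ‖iteratedFDeriv ℝ k f z‖ ^ 2 ≤ C * ∫ v in Set.Icc (z.1 - ρ) (z.1 + ρ) ×ˢ
        Set.Icc (z.2 - ρ) (z.2 + ρ),
      ∑ i ∈ Finset.range (k + 3), ‖iteratedFDeriv ℝ i f v‖ ^ 2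

/-- The outcome of the bootstrap: sup bounds for low orders, sharp strip bounds for high orders. -/
def BootSpec : Prop :=
  ∀ L : ℕ → ℝ, ∀ N : ℕ, 40 ≤ N → ∃ δ η0 : ℝ, 0 < δ ∧ 0 < η0 ∧
    ∀ η1 S : ℝ, 0 < η1 → η1 ≤ η0 → 1 ≤ S → ∃ C θ lam0 : ℝ, 0 < θ ∧ 1 ≤ lam0 ∧
    ∀ lam η s : ℝ, lam0 ≤ lam → η1 ≤ η → η ≤ 2 * η1 → η ≤ η0 →
      S⁻¹ ≤ s * lam ^ N → s * lam ^ N ≤ S →
    ∀ (Hb Hs : V6 → ℝ) (x q : P2 → ℝ),
      HFam L δ s lam Hb Hs → Sol η δ (fun u => Hb u + Hs u) x q →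
      (∀ z : P2, |z.1| ≤ θ → |z.2| ≤ θ → ∀ i ≤ N / 2 + 8,
        ‖iteratedFDeriv ℝ i x z‖ ≤ C ∧ ‖iteratedFDeriv ℝ i q z‖ ≤ C) ∧
      ∀ i ≤ N + 3,
        (∫ z in Set.Icc (-5 / lam) (5 / lam) ×ˢ Set.Icc (-θ) θ,
          ‖iteratedFDeriv ℝ i x z‖ ^ 2 + ‖iteratedFDeriv ℝ i q z‖ ^ 2)
            ≤ C * (1 / lam + (s * lam ^ i / lam ^ 2) ^ 2) ∧
        (∫ z in Set.Icc (-5 / lam) (-3 / lam) ×ˢ Set.Icc (-θ) θ,
          ‖iteratedFDeriv ℝ i x z‖ ^ 2 + ‖iteratedFDeriv ℝ i q z‖ ^ 2) ≤ C / lam ∧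
        (∫ z in Set.Icc (3 / lam) (5 / lam) ×ˢ Set.Icc (-θ) θ,
          ‖iteratedFDeriv ℝ i x z‖ ^ 2 + ‖iteratedFDeriv ℝ i q z‖ ^ 2) ≤ C / lam

end Vale.Agent.P229
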