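import Vale.Agent.P229.Calc

/-
P229: the multiplier identity for `w_yy + η (κ w_pp + ν w_py + ...)` with multiplier
`b w_p + γ w_y - τ w`.
-/

namespace Vale.Agent.P229

open MeasureTheory
open scoped ContDiff

/-- Coefficient of `w_y ^ 2`. -/
noncomputable def qmm (η : ℝ) (ν G1 b γ τ : P2 → ℝ) (z : P2) : ℝ :=
  dp b z / 2 + τ z - dy γ z / 2 - η * dp (fun v => γ v * ν v) z / 2 + η * γ z * G1 z

/-- Coefficient of `w_p w_y`. -/
noncomputable def qam (η : ℝ) (κ ν G G1 b γ τ : P2 → ℝ) (z : P2) : ℝ :=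
  -dy b z - η * dp (fun v => γ v * κ v) z + η * τ z * ν z + η * (b z * G1 z + γ z * G z)

/-- Coefficient of `w_p ^ 2`. -/
noncomputable def qaa (η : ℝ) (κ ν G b γ τ : P2 → ℝ) (z : P2) : ℝ :=
  η * (-(dp (fun v => b v * κ v) z) / 2 - dy (fun v => b v * ν v) z / 2
    + dy (fun v => γ v * κ v) z / 2 + τ z * κ z + b z * G z)

/-- The terms with lower order factors. -/
noncomputable def qlow (η : ℝ) (κ ν G G1 R w b γ τ : P2 → ℝ) (z : P2) : ℝ :=
  dy τ z * w z * dy w z
    + η * (dp (fun v => τ v * κ v) z + dy (fun v => τ v * ν v) z) * w z * dp w z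
    - η * τ z * w z * (G z * dp w z + G1 z * dy w z)
    + η * (b z * dp w z + γ z * dy w z - τ z * w z) * R z

/-- The full quadratic density. -/
noncomputable def qform (η : ℝ) (κ ν G G1 R w b γ τ : P2 → ℝ) (z : P2) : ℝ :=
  qmm η ν G1 b γ τ z * dy w z ^ 2 + qam η κ ν G G1 b γ τ z * (dp w z * dy w z)
    + qaa η κ ν G b γ τ z * dp w z ^ 2 + qlow η κ ν G G1 R w b γ τ z

variable {η : ℝ} {κ ν G G1 R w b γ τ : P2 → ℝ} {U : Set P2}

/-- Horizontal flux. -/
noncomputable def fluxP (η : ℝ) (κ ν w b γ τ : P2 → ℝ) : P2 → ℝ :=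
  fun v => (-(1 / 2) * b v + η / 2 * (γ v * ν v)) * (dy w v * dy w v)
    + η / 2 * (b v * κ v) * (dp w v * dp w v)
    + η * (γ v * κ v) * (dy w v * dp w v) - η * (τ v * κ v) * (w v * dp w v)

/-- Vertical flux. -/
noncomputable def fluxY (η : ℝ) (κ ν w b γ τ : P2 → ℝ) : P2 → ℝ :=
  fun v => b v * (dp w v * dy w v)
    + η / 2 * (b v * ν v - γ v * κ v) * (dp w v * dp w v)
    + 1 / 2 * γ v * (dy w v * dy w v)
    - τ v * (w v * dy w v) - η * (τ v * ν v) * (w v * dp w v)

lemma qform_pointwise (hk : ContDiff ℝ 1 κ) (hn : ContDiff ℝ 1 ν) (hw : ContDiff ℝ 2 w)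
    (hb : ContDiff ℝ 1 b) (hg : ContDiff ℝ 1 γ) (ht : ContDiff ℝ 1 τ) (z : P2) :
    (b z * dp w z + γ z * dy w z - τ z * w z) *
      (dy (dy w) z + η * (κ z * dp (dp w) z + ν z * dy (dp w) z + G z * dp w z
        + G1 z * dy w z + R z))
      = qform η κ ν G G1 R w b γ τ z + dp (fluxP η κ ν w b γ τ) z
        + dy (fluxY η κ ν w b γ τ) z := by
  have hk' := (hk.differentiable one_ne_zero) z
  have hn' := (hn.differentiable one_ne_zero) z
  have hb' := (hb.differentiable one_ne_zero) z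
  have hg' := (hg.differentiable one_ne_zero) z
  have ht' := (ht.differentiable one_ne_zero) z
  have hw' := ((hw.of_le one_le_two).differentiable one_ne_zero) z
  have ha' := ((contDiff_dp (n := 1) (by simpa [one_add_one_eq_two] using hw)).differentiable one_ne_zero) z
  have hm' := ((contDiff_dy (n := 1) (by simpa [one_add_one_eq_two] using hw)).differentiable one_ne_zero) z
  have hsym := dy_dp_eq hw z
  unfold fluxP fluxY qform qmm qam qaa qlow
  have eA : dp w z = fderiv ℝ w z (1, 0) := rfl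
  have eM : dy w z = fderiv ℝ w z (0, 1) := rfl
  generalize hA : dp w = A at ha' hsym eA ⊢
  generalize hM : dy w = M at hm' hsym eM ⊢
  simp (disch := fun_prop) only [dp, dy, fderiv_fun_add, fderiv_fun_sub, fderiv_fun_mul,
    fderiv_fun_const, fderiv_fun_neg, _root_.add_apply, _root_.sub_apply, _root_.smul_apply,
    _root_.neg_apply, _root_.zero_apply, smul_eq_mul, smul_zero, add_zero, Pi.zero_apply,
    ← eA, ← eM] at hsym ⊢
  rw [hsym]
  ring

lemma contDiff_fluxP (hk : ContDiff ℝ 1 κ) (hn : ContDiff ℝ 1 ν) (hw : ContDiff ℝ 2 w)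
    (hb : ContDiff ℝ 1 b) (hg : ContDiff ℝ 1 γ) (ht : ContDiff ℝ 1 τ) :
    ContDiff ℝ 1 (fluxP η κ ν w b γ τ) ∧ ContDiff ℝ 1 (fluxY η κ ν w b γ τ) := by
  have hw1 := hw.of_le one_le_two
  have ha : ContDiff ℝ 1 (dp w) := contDiff_dp (by simpa [one_add_one_eq_two] using hw)
  have hm : ContDiff ℝ 1 (dy w) := contDiff_dy (by simpa [one_add_one_eq_two] using hw)
  constructor
  · unfold fluxP; fun_prop
  · unfold fluxY; fun_prop

/-- Integral form of the multiplier identity. -/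
theorem qform_integral (hk : ContDiff ℝ 1 κ) (hn : ContDiff ℝ 1 ν) (hw : ContDiff ℝ 2 w)
    (hb : ContDiff ℝ 1 b) (hg : ContDiff ℝ 1 γ) (ht : ContDiff ℝ 1 τ)
    (hcb : HasCompactSupport b) (hcg : HasCompactSupport γ) (hct : HasCompactSupport τ)
    (heq : ∀ z, z ∈ tsupport b ∪ tsupport γ ∪ tsupport τ → dy (dy w) z
      + η * (κ z * dp (dp w) z + ν z * dy (dp w) z + G z * dp w z + G1 z * dy w z + R z) = 0) :
    Integrable (qform η κ ν G G1 R w b γ τ) ∧ ∫ z, qform η κ ν G G1 R w b γ τ z = 0 := by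
  obtain ⟨hP, hY⟩ := contDiff_fluxP (η := η) hk hn hw hb hg ht
  have hK : IsCompact (tsupport b ∪ tsupport γ ∪ tsupport τ) :=
    (hcb.isCompact.union hcg.isCompact).union hct.isCompact
  have hout : ∀ z, z ∉ tsupport b ∪ tsupport γ ∪ tsupport τ → b z = 0 ∧ γ z = 0 ∧ τ z = 0 := by
    intro z hz
    simp only [Set.mem_union, not_or] at hz
    exact ⟨image_eq_zero_of_notMem_tsupport hz.1.1, image_eq_zero_of_notMem_tsupport hz.1.2,
      image_eq_zero_of_notMem_tsupport hz.2⟩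
  have cP : HasCompactSupport (fluxP η κ ν w b γ τ) :=
    HasCompactSupport.intro hK fun z hz => by
      obtain ⟨x1, x2, x3⟩ := hout z hz; simp [fluxP, x1, x2, x3]
  have cY : HasCompactSupport (fluxY η κ ν w b γ τ) :=
    HasCompactSupport.intro hK fun z hz => by
      obtain ⟨x1, x2, x3⟩ := hout z hz; simp [fluxY, x1, x2, x3]
  have e : ∀ z, qform η κ ν G G1 R w b γ τ z
      = -(dp (fluxP η κ ν w b γ τ) z + dy (fluxY η κ ν w b γ τ) z) := by
    intro z
    have h := qform_pointwise (η := η) (G := G) (G1 := G1) (R := R) hk hn hw hb hg ht z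
    by_cases hz : z ∈ tsupport b ∪ tsupport γ ∪ tsupport τ
    · rw [heq z hz, mul_zero] at h; linarith
    · obtain ⟨x1, x2, x3⟩ := hout z hz
      rw [x1, x2, x3] at h; simp only [zero_mul, add_zero, sub_zero] at h; linarith
  have i1 : Integrable (fun z => dp (fluxP η κ ν w b γ τ) z) :=
    (continuous_dp hP).integrable_of_hasCompactSupport (cP.fderiv_apply ℝ _)
  have i2 : Integrable (fun z => dy (fluxY η κ ν w b γ τ) z) :=
    (continuous_dy hY).integrable_of_hasCompactSupport (cY.fderiv_apply ℝ _)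
  have e' : qform η κ ν G G1 R w b γ τ
      = fun z => -(dp (fluxP η κ ν w b γ τ) z + dy (fluxY η κ ν w b γ τ) z) := funext e
  refine ⟨e' ▸ (i1.add i2).neg, ?_⟩
  rw [e', integral_neg, integral_add i1 i2, int_dp hP cP, int_dy hY cY]
  simp

end Vale.Agent.P229
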