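import Vale.Agent.P229.Spec
import Vale.Agent.P229.Ident

/-
P229: the hyperbolic energy estimate in the core.  The multiplier is `b w_p` with
`b = cut(p) exp(-Λ p) S((e - p) / w0) Ξ(y ^ 2 + L p)`, where `S` is the glue function
`exp (-1 / s)`: then `-b_p` dominates `b`, `b / (K ^ 2 w0)` on the strip, and `b_y`.
-/

namespace Vale.Agent.P229

open MeasureTheory Set
open scoped ContDiff

namespace CoreEnergy

/-- The glue weight. -/
noncomputable def sg (s : ℝ) : ℝ := expNegInvGlue s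

lemma hasDerivAt_sg (s : ℝ) : HasDerivAt sg (s⁻¹ ^ 2 * sg s) s := by
  show HasDerivAt (fun x => expNegInvGlue x) (s⁻¹ ^ 2 * expNegInvGlue s) s
  simpa using expNegInvGlue.hasDerivAt_polynomial_eval_inv_mul 1 s

/-- Derivative of the smooth transition. -/
noncomputable def st' (s : ℝ) : ℝ := deriv Real.smoothTransition s

lemma hasDerivAt_st (s : ℝ) : HasDerivAt Real.smoothTransition (st' s) s :=
  ((Real.smoothTransition.contDiff (n := 1)).differentiable one_ne_zero s).hasDerivAt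

lemma st'_nonneg (s : ℝ) : 0 ≤ st' s := Real.smoothTransition.monotone.deriv_nonneg

lemma st'_bound : ∃ M : ℝ, 0 ≤ M ∧ ∀ s, |st' s| ≤ M := by
  have hc : Continuous st' := (Real.smoothTransition.contDiff (n := 1)).continuous_deriv_one
  obtain ⟨M, hM⟩ := (isCompact_Icc (a := (0 : ℝ)) (b := 1)).exists_bound_of_continuousOn
    hc.continuousOn
  refine ⟨max M 0, le_max_right _ _, fun s => ?_⟩
  by_cases hs : s ∈ Icc (0 : ℝ) 1
  · exact le_trans (hM s hs) (le_max_left _ _)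
  · have h : st' s = 0 := by
      simp only [mem_Icc, not_and_or, not_le] at hs
      rcases hs with hs | hs
      · exact IsLocalMin.deriv_eq_zero (Filter.Eventually.of_forall fun t => by
          rw [Real.smoothTransition.zero_of_nonpos hs.le]; exact Real.smoothTransition.nonneg t)
      · exact IsLocalMax.deriv_eq_zero (Filter.Eventually.of_forall fun t => by
          rw [Real.smoothTransition.one_of_one_le hs.le]; exact Real.smoothTransition.le_one t)
    simp [h]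

lemma st'_zero_of_one_le {s : ℝ} (hs : 1 ≤ s) : st' s = 0 :=
  IsLocalMax.deriv_eq_zero (Filter.Eventually.of_forall fun t => by
    rw [Real.smoothTransition.one_of_one_le hs]; exact Real.smoothTransition.le_one t)

/-- The parameters of the weight. -/
structure Par where
  Λ : ℝ
  L : ℝ
  A : ℝ
  D : ℝ
  θc : ℝ
  w0 : ℝ
  e : ℝ

variable (P : Par)

/-- Cutoff on the left. -/
noncomputable def cut (p : ℝ) : ℝ := Real.smoothTransition ((p + 3 * P.θc) / P.θc)

/-- Exponential factor. -/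
noncomputable def expo (p : ℝ) : ℝ := Real.exp (-P.Λ * p)

/-- Cutoff in the curved variable. -/
noncomputable def xi (z : P2) : ℝ := Real.smoothTransition ((P.A - (z.2 ^ 2 + P.L * z.1)) / P.D)

/-- The weight. -/
noncomputable def wt (z : P2) : ℝ :=
  cut P z.1 * expo P z.1 * sg ((P.e - z.1) / P.w0) * xi P z

/-- Positive part of the derivative of the weight. -/
noncomputable def gain (z : P2) : ℝ :=
  st' ((z.1 + 3 * P.θc) / P.θc) / P.θc * expo P z.1 * sg ((P.e - z.1) / P.w0) * xi P z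

/-- The part controlling the vertical derivative. -/
noncomputable def side (z : P2) : ℝ :=
  cut P z.1 * expo P z.1 * sg ((P.e - z.1) / P.w0)
    * (st' ((P.A - (z.2 ^ 2 + P.L * z.1)) / P.D) / P.D)

/-- The good part of the derivative of the weight. -/
noncomputable def drop (z : P2) : ℝ :=
  P.Λ * wt P z + ((P.e - z.1) / P.w0)⁻¹ ^ 2 / P.w0 * wt P z + P.L * side P z

lemma wt_smooth : ContDiff ℝ ∞ (wt P) := by
  have h1 : ContDiff ℝ ∞ Real.smoothTransition := Real.smoothTransition.contDiff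
  have h2 : ContDiff ℝ ∞ sg := expNegInvGlue.contDiff
  unfold wt cut expo xi
  fun_prop

lemma dp_eq_deriv {f : P2 → ℝ} {z : P2} (hf : DifferentiableAt ℝ f z) {d : ℝ}
    (h : HasDerivAt (fun t => f (t, z.2)) d z.1) : dp f z = d := by
  have h2 : HasDerivAt (fun t => f (t, z.2)) (fderiv ℝ f z (1, 0)) z.1 := by
    have := hf.hasFDerivAt.comp_hasDerivAt z.1
      ((hasDerivAt_id z.1).prodMk (hasDerivAt_const z.1 z.2))
    simpa [Function.comp_def] using this
  exact h2.unique h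

lemma dy_eq_deriv {f : P2 → ℝ} {z : P2} (hf : DifferentiableAt ℝ f z) {d : ℝ}
    (h : HasDerivAt (fun t => f (z.1, t)) d z.2) : dy f z = d := by
  have h2 : HasDerivAt (fun t => f (z.1, t)) (fderiv ℝ f z (0, 1)) z.2 := by
    have := hf.hasFDerivAt.comp_hasDerivAt z.2
      ((hasDerivAt_const z.2 z.1).prodMk (hasDerivAt_id z.2))
    simpa [Function.comp_def] using this
  exact h2.unique h

lemma dp_wt (z : P2) : dp (wt P) z = gain P z - drop P z := by
  refine dp_eq_deriv ((wt_smooth P).differentiable (by simp) z) ?_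
  have h1 : HasDerivAt (fun t => cut P t) (st' ((z.1 + 3 * P.θc) / P.θc) * (1 / P.θc)) z.1 :=
    (hasDerivAt_st _).comp z.1 (((hasDerivAt_id z.1).add_const (3 * P.θc)).div_const P.θc)
  have h2 : HasDerivAt (fun t => expo P t) (Real.exp (-P.Λ * z.1) * (-P.Λ * 1)) z.1 :=
    ((hasDerivAt_id z.1).const_mul (-P.Λ)).exp
  have h3 := (hasDerivAt_sg ((P.e - z.1) / P.w0)).comp z.1
    (((hasDerivAt_id z.1).const_sub P.e).div_const P.w0)
  have h4 := (hasDerivAt_st ((P.A - (z.2 ^ 2 + P.L * z.1)) / P.D)).comp z.1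
    (((((hasDerivAt_id z.1).const_mul P.L).const_add (z.2 ^ 2)).const_sub P.A).div_const P.D)
  refine (((h1.mul h2).mul h3).mul h4).congr_deriv ?_
  simp only [Pi.mul_apply, Function.comp_apply, id_eq, gain, drop, side, wt, xi, cut, expo]
  ring

lemma dy_wt (z : P2) : dy (wt P) z = -(2 * z.2) * side P z := by
  refine dy_eq_deriv ((wt_smooth P).differentiable (by simp) z) ?_
  have h4 := (hasDerivAt_st ((P.A - (z.2 ^ 2 + P.L * z.1)) / P.D)).comp z.2
    (((((hasDerivAt_pow 2 z.2)).add_const (P.L * z.1)).const_sub P.A).div_const P.D)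
  refine (h4.const_mul (cut P z.1 * expo P z.1 * sg ((P.e - z.1) / P.w0))).congr_deriv ?_
  simp only [side]
  push_cast
  ring

lemma wt_nonneg (z : P2) : 0 ≤ wt P z :=
  mul_nonneg (mul_nonneg (mul_nonneg (Real.smoothTransition.nonneg _) (Real.exp_pos _).le)
    (expNegInvGlue.nonneg _)) (Real.smoothTransition.nonneg _)

lemma sg_le_one (s : ℝ) : sg s ≤ 1 := by
  unfold sg expNegInvGlue
  split_ifs with h
  · exact zero_le_one
  · exact Real.exp_le_one_iff.2 (by simp only [not_le] at h; simpa using h.le)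

lemma sg_ge {s : ℝ} (hs : 1 ≤ s) : Real.exp (-1) ≤ sg s := by
  refine le_trans (le_of_eq ?_) (expNegInvGlue.monotone hs)
  simp [expNegInvGlue]

/-- The pointwise inequality behind the estimate. -/
lemma quad_bound {η s Γ L Λ b B Pd β bp by' a m Rv κ κp ν νy G G1 μ : ℝ}
    (hη : 0 < η) (hη1 : η ≤ 1) (hs : 0 < s) (hsη : s ^ 2 ≤ η) (hΓ : 0 ≤ Γ)
    (hL : L = 32 / s + 64 * Γ) (hΛ : Λ = 128 * Γ + 64)
    (hb : 0 ≤ b) (hPd : 0 ≤ Pd) (hβ : 0 ≤ β) (hbB : Λ * b ≤ B) (hPB : L * Pd ≤ B)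
    (hbp : bp = β - B) (hby : |by'| ≤ 2 * Pd) (hκ : κ ≤ -(1 / 4)) (hκa : |κ| ≤ Γ)
    (hκp : |κp| ≤ Γ) (hν : |ν| ≤ Γ) (hνy : |νy| ≤ Γ) (hG : |G| ≤ Γ) (hG1 : |G1| ≤ Γ)
    (hμ : 0 < μ) (hμB : b ≤ μ * B) :
    bp / 2 * m ^ 2 + (-by' + η * b * G1) * (a * m)
        + η * (-(bp * κ + b * κp) / 2 - (by' * ν + b * νy) / 2 + b * G) * a ^ 2
        + η * (b * a) * Rv
        + η / 32 * B * (a ^ 2 + m ^ 2)
      ≤ β * (1 + Γ) * (a ^ 2 + m ^ 2) + 8 * μ * b * Rv ^ 2 := by
  have h32 : 0 < 32 / s := div_pos (by norm_num) hs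
  have hB : 0 ≤ B := le_trans (mul_nonneg (by rw [hL]; linarith) hPd) hPB
  have t1 : Pd * Γ ≤ B / 64 := by
    have h1 : 64 * Γ * Pd ≤ L * Pd := mul_le_mul_of_nonneg_right (by rw [hL]; linarith) hPd
    linarith
  have t2 : b * Γ ≤ B / 128 := by
    have h1 : 128 * Γ * b ≤ Λ * b := mul_le_mul_of_nonneg_right (by rw [hΛ]; linarith) hb
    linarith
  have t3 : Pd ≤ s * B / 32 := by
    have h1 : 32 / s * Pd ≤ B :=
      le_trans (mul_le_mul_of_nonneg_right (by rw [hL]; linarith) hPd) hPB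
    rw [div_mul_eq_mul_div, div_le_iff₀ hs] at h1
    linarith
  have hbabs : ∀ x : ℝ, |x| ≤ Γ → |b * x| ≤ B / 128 := fun x hx => by
    rw [abs_mul, abs_of_nonneg hb]
    exact (mul_le_mul_of_nonneg_left hx hb).trans t2
  -- cross term
  have hq : (-by' + η * b * G1) * (a * m) ≤ B * m ^ 2 / 8 + η * (B * a ^ 2) / 32 := by
    have h1 : |-by' + η * b * G1| ≤ s * B / 16 + η * (B / 128) := by
      refine (abs_add_le _ _).trans (add_le_add ?_ ?_)
      · rw [abs_neg]; linarith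
      · rw [mul_assoc, abs_mul, abs_of_pos hη]
        exact mul_le_mul_of_nonneg_left (hbabs G1 hG1) hη.le
    refine (le_abs_self _).trans ?_
    rw [abs_mul]
    refine (mul_le_mul_of_nonneg_right h1 (abs_nonneg _)).trans ?_
    rw [abs_mul, ← sq_abs a, ← sq_abs m]
    have k1 : s * (|a| * |m|) ≤ η * |a| ^ 2 / 4 + |m| ^ 2 := by
      nlinarith [sq_nonneg (s * |a| / 2 - |m|), mul_le_mul_of_nonneg_right hsη (sq_nonneg |a|)]
    have k2 : η * (|a| * |m|) ≤ η * |a| ^ 2 / 2 + |m| ^ 2 / 2 := by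
      nlinarith [mul_nonneg hη.le (sq_nonneg (|a| - |m|)),
        mul_le_mul_of_nonneg_right hη1 (sq_nonneg |m|)]
    have k3 := mul_le_mul_of_nonneg_left k1 hB
    have k4 := mul_le_mul_of_nonneg_left k2 hB
    have k5 : 0 ≤ B * |m| ^ 2 := by positivity
    have k6 : 0 ≤ η * (B * |a| ^ 2) := by positivity
    linarith
  -- coefficient of a^2
  have hqa : -(bp * κ + b * κp) / 2 - (by' * ν + b * νy) / 2 + b * G
      ≤ β * Γ - 3 / 32 * B := by
    rw [hbp]
    have a1 := neg_le_of_abs_le (hbabs κp hκp)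
    have a2 : |by' * ν| ≤ B / 32 := by
      rw [abs_mul]
      exact (mul_le_mul hby hν (abs_nonneg _) (by linarith)).trans (by linarith)
    have a2' := neg_le_of_abs_le a2
    have a3 := neg_le_of_abs_le (hbabs νy hνy)
    have a4 := le_of_abs_le (hbabs G hG)
    have a5 : β * -κ ≤ β * Γ := mul_le_mul_of_nonneg_left ((neg_le_abs κ).trans hκa) hβ
    have a6 : B * κ ≤ B * (-(1 / 4)) := mul_le_mul_of_nonneg_left hκ hB
    have a7 : 0 ≤ β * Γ := mul_nonneg hβ hΓ
    linarith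
  -- right hand side
  have hR : η * (b * a) * Rv ≤ η * (B * a ^ 2) / 32 + 8 * μ * b * Rv ^ 2 := by
    have k1 : a * Rv ≤ a ^ 2 / (32 * μ) + 8 * μ * Rv ^ 2 := by
      rw [div_add' _ _ _ (by positivity), le_div_iff₀ (by positivity)]
      nlinarith [sq_nonneg (a - 16 * μ * Rv)]
    have k2 : b * (a ^ 2 / (32 * μ)) ≤ B * a ^ 2 / 32 := by
      rw [mul_div_assoc', div_le_div_iff₀ (by positivity) (by norm_num)]
      have := mul_le_mul_of_nonneg_right hμB (sq_nonneg a)
      linarith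
    have k3 := mul_le_mul_of_nonneg_left (mul_le_mul_of_nonneg_left k1 hb) hη.le
    have k4 := mul_le_mul_of_nonneg_left k2 hη.le
    have k5 : η * (8 * μ * b * Rv ^ 2) ≤ 1 * (8 * μ * b * Rv ^ 2) :=
      mul_le_mul_of_nonneg_right hη1 (by positivity)
    linarith
  have hqa2 := mul_le_mul_of_nonneg_left hqa (mul_nonneg hη.le (sq_nonneg a))
  have hbm : bp / 2 * m ^ 2 = β / 2 * m ^ 2 - B / 2 * m ^ 2 := by rw [hbp]; ring
  have e1 : η * (β * Γ * a ^ 2) ≤ β * Γ * a ^ 2 := mul_le_of_le_one_left (by positivity) hη1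
  have e2 : 0 ≤ β * Γ * m ^ 2 := by positivity
  have e3 : 0 ≤ β * m ^ 2 := by positivity
  have e4 : 0 ≤ β * a ^ 2 := by positivity
  have e5 : η * (B * m ^ 2) ≤ B * m ^ 2 := mul_le_of_le_one_left (by positivity) hη1
  have e6 : 0 ≤ η * (B * a ^ 2) := by positivity
  have e7 : 0 ≤ B * m ^ 2 := by positivity
  linarith

/-- Conditions on the parameters. -/
structure Par.Good (P : Par) (y1 y2 K : ℝ) : Prop where
  Λ_pos : 0 < P.Λ
  L_pos : 0 < P.L
  D_pos : 0 < P.D
  θ_pos : 0 < P.θc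
  θ_le : P.θc ≤ 1 / 4
  w_pos : 0 < P.w0
  K_ge : 2 ≤ K
  Kw : K * P.w0 ≤ P.θc
  e_le : |P.e| ≤ P.θc
  Lθ : P.L * P.θc ≤ P.D / 3
  A_eq : P.A = y1 ^ 2 + 2 * P.D
  D_eq : 3 * P.D = y2 ^ 2 - y1 ^ 2
  y1_pos : 0 < y1
  y12 : y1 < y2
  y2_le : y2 ≤ 1

/-- The rectangle carrying the weight. -/
def Par.box (P : Par) (y2 : ℝ) : Set P2 := Icc (-3 * P.θc) P.e ×ˢ Icc (-y2) y2

variable {P} {y1 y2 K : ℝ}

lemma side_nonneg (h : P.Good y1 y2 K) (z : P2) : 0 ≤ side P z :=
  mul_nonneg (mul_nonneg (mul_nonneg (Real.smoothTransition.nonneg _) (Real.exp_pos _).le)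
    (expNegInvGlue.nonneg _)) (div_nonneg (st'_nonneg _) h.D_pos.le)

lemma drop_ge (h : P.Good y1 y2 K) (z : P2) :
    P.Λ * wt P z ≤ drop P z ∧ P.L * side P z ≤ drop P z ∧
      ((P.e - z.1) / P.w0)⁻¹ ^ 2 / P.w0 * wt P z ≤ drop P z ∧ 0 ≤ drop P z := by
  have h1 : 0 ≤ P.Λ * wt P z := mul_nonneg h.Λ_pos.le (wt_nonneg P z)
  have h2 : 0 ≤ P.L * side P z := mul_nonneg h.L_pos.le (side_nonneg h z)
  have h3 : 0 ≤ ((P.e - z.1) / P.w0)⁻¹ ^ 2 / P.w0 * wt P z :=
    mul_nonneg (div_nonneg (sq_nonneg _) h.w_pos.le) (wt_nonneg P z)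
  simp only [drop]
  exact ⟨by linarith, by linarith, by linarith, by linarith⟩

lemma wt_out (h : P.Good y1 y2 K) : ∀ z, z ∉ P.box y2 → wt P z = 0 := by
  intro z hz
  have hθ0 := h.θ_pos
  simp only [Par.box, mem_prod, mem_Icc, not_and_or, not_le] at hz
  by_cases h1 : z.1 ≤ -3 * P.θc
  · have : cut P z.1 = 0 := Real.smoothTransition.zero_of_nonpos
      (div_nonpos_of_nonpos_of_nonneg (by linarith) hθ0.le)
    simp [wt, this]
  by_cases h2 : P.e ≤ z.1
  · have : sg ((P.e - z.1) / P.w0) = 0 := expNegInvGlue.zero_of_nonpos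
      (div_nonpos_of_nonpos_of_nonneg (by linarith) h.w_pos.le)
    simp [wt, this]
  have hy : y2 ^ 2 ≤ z.2 ^ 2 := by
    refine sq_le_sq.2 ?_
    rw [abs_of_pos (h.y1_pos.trans h.y12)]
    rcases hz with (g | g) | (g | g)
    · exact absurd g.le h1
    · exact absurd g.le h2
    · exact le_trans (by linarith) (neg_le_abs z.2)
    · exact le_trans g.le (le_abs_self _)
  have : xi P z = 0 := Real.smoothTransition.zero_of_nonpos
    (div_nonpos_of_nonpos_of_nonneg (by
      have := mul_le_mul_of_nonneg_left (le_of_not_ge h1) h.L_pos.le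
      linarith [h.A_eq, h.D_eq, h.Lθ]) h.D_pos.le)
  simp [wt, this]

lemma expo_bounds (h : P.Good y1 y2 K) {z : P2} (hz : z ∈ P.box y2) :
    Real.exp (-P.Λ) ≤ expo P z.1 ∧ expo P z.1 ≤ Real.exp P.Λ := by
  obtain ⟨⟨h1, h2⟩, -⟩ := hz
  obtain ⟨he1, he2⟩ := abs_le.1 h.e_le
  have := h.θ_le
  simp only [expo, Real.exp_le_exp]
  constructor
  · have := mul_le_mul_of_nonneg_left (show z.1 ≤ 1 by linarith) h.Λ_pos.le
    linarith
  · have := mul_le_mul_of_nonneg_left (show -1 ≤ z.1 by linarith) h.Λ_pos.le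
    linarith

lemma wt_le (h : P.Good y1 y2 K) {z : P2} (hz : z ∈ P.box y2) : wt P z ≤ Real.exp P.Λ := by
  have n1 : 0 ≤ cut P z.1 * expo P z.1 :=
    mul_nonneg (Real.smoothTransition.nonneg _) (Real.exp_pos _).le
  calc wt P z ≤ cut P z.1 * expo P z.1 * sg ((P.e - z.1) / P.w0) :=
        mul_le_of_le_one_right (mul_nonneg n1 (expNegInvGlue.nonneg _))
          (Real.smoothTransition.le_one _)
    _ ≤ cut P z.1 * expo P z.1 := mul_le_of_le_one_right n1 (sg_le_one _)
    _ ≤ expo P z.1 := mul_le_of_le_one_left (Real.exp_pos _).le (Real.smoothTransition.le_one _)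
    _ ≤ _ := (expo_bounds h hz).2

lemma gain_bounds (h : P.Good y1 y2 K) {M : ℝ} (hM : ∀ s, |st' s| ≤ M) {z : P2}
    (hz : z ∈ P.box y2) :
    0 ≤ gain P z ∧ gain P z ≤ (Icc (-3 * P.θc) (-2 * P.θc) ×ˢ Icc (-y2) y2).indicator
      (fun _ => M / P.θc * Real.exp P.Λ) z := by
  have hθ0 := h.θ_pos
  have n1 : 0 ≤ st' ((z.1 + 3 * P.θc) / P.θc) / P.θc * expo P z.1 :=
    mul_nonneg (div_nonneg (st'_nonneg _) hθ0.le) (Real.exp_pos _).le
  refine ⟨mul_nonneg (mul_nonneg n1 (expNegInvGlue.nonneg _)) (Real.smoothTransition.nonneg _), ?_⟩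
  by_cases hl : z.1 ≤ -2 * P.θc
  · rw [indicator_of_mem (show z ∈ (Icc (-3 * P.θc) (-2 * P.θc) ×ˢ Icc (-y2) y2) from
      ⟨⟨hz.1.1, hl⟩, hz.2⟩)]
    calc gain P z ≤ st' ((z.1 + 3 * P.θc) / P.θc) / P.θc * expo P z.1
          * sg ((P.e - z.1) / P.w0) :=
          mul_le_of_le_one_right (mul_nonneg n1 (expNegInvGlue.nonneg _))
            (Real.smoothTransition.le_one _)
      _ ≤ st' ((z.1 + 3 * P.θc) / P.θc) / P.θc * expo P z.1 :=
          mul_le_of_le_one_right n1 (sg_le_one _)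
      _ ≤ M / P.θc * Real.exp P.Λ := mul_le_mul
          (div_le_div_of_nonneg_right ((le_abs_self _).trans (hM _)) hθ0.le) (expo_bounds h hz).2
          (Real.exp_pos _).le (div_nonneg ((abs_nonneg _).trans (hM 0)) hθ0.le)
  · have h0 : st' ((z.1 + 3 * P.θc) / P.θc) = 0 := st'_zero_of_one_le (by
      rw [le_div_iff₀ hθ0]; linarith)
    rw [indicator_of_notMem fun hm => hl hm.1.2]
    simp [gain, h0]

lemma drop_low (h : P.Good y1 y2 K) {η η1 : ℝ} (hη1 : 0 < η1) (hη : η1 ≤ η) (z : P2) :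
    η1 / 32 * (Real.exp (-1) / Real.exp P.Λ) / (2 * K ^ 2) * min 1 P.Λ
        * ((Icc (-2 * P.θc) (P.e - P.w0) ×ˢ Icc (-y1) y1).indicator 1 z + P.w0⁻¹ *
          (Icc (max (P.e - K * P.w0) (-2 * P.θc)) (P.e - P.w0) ×ˢ Icc (-y1) y1).indicator 1 z)
      ≤ η / 32 * drop P z := by
  have hθ0 := h.θ_pos
  have hw0 := h.w_pos
  have hK0 : 0 < K := by linarith [h.K_ge]
  have hmin := lt_min one_pos h.Λ_pos
  obtain ⟨hΛd, -, hsd, hd0⟩ := drop_ge h z
  by_cases hm : z ∈ (Icc (-2 * P.θc) (P.e - P.w0) ×ˢ Icc (-y1) y1)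
  swap
  · rw [indicator_of_notMem hm, indicator_of_notMem fun hm2 =>
      hm ⟨⟨le_trans (le_max_right _ _) hm2.1.1, hm2.1.2⟩, hm2.2⟩]
    simp only [mul_zero, add_zero]
    exact mul_nonneg (by linarith) hd0
  rw [indicator_of_mem hm, Pi.one_apply]
  obtain ⟨⟨g1, g2⟩, g3, g4⟩ := hm
  obtain ⟨he1, he2⟩ := abs_le.1 h.e_le
  have hbox : z ∈ P.box y2 := ⟨⟨by linarith, by linarith⟩,
    by linarith [h.y12], by linarith [h.y12]⟩
  have hwlb : Real.exp (-1) / Real.exp P.Λ ≤ wt P z := by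
    have c1 : cut P z.1 = 1 := Real.smoothTransition.one_of_one_le (by
      rw [le_div_iff₀ hθ0]; linarith)
    have c2 : xi P z = 1 := Real.smoothTransition.one_of_one_le (by
      rw [le_div_iff₀ h.D_pos]
      have : z.2 ^ 2 ≤ y1 ^ 2 :=
        sq_le_sq.2 (by rw [abs_of_pos h.y1_pos]; exact abs_le.2 ⟨g3, g4⟩)
      have := mul_le_mul_of_nonneg_left (show z.1 ≤ P.θc by linarith) h.L_pos.le
      linarith [h.A_eq, h.Lθ, h.D_pos])
    have c3 : Real.exp (-1) ≤ sg ((P.e - z.1) / P.w0) := sg_ge (by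
      rw [le_div_iff₀ hw0]; linarith)
    have c4 := (expo_bounds h hbox).1
    simp only [wt, c1, c2, one_mul, mul_one]
    calc Real.exp (-1) / Real.exp P.Λ = Real.exp (-P.Λ) * Real.exp (-1) := by
          rw [Real.exp_neg P.Λ]; ring
      _ ≤ _ := mul_le_mul c4 c3 (Real.exp_pos _).le (Real.exp_pos _).le
  have h2K : 1 ≤ 2 * K ^ 2 := by nlinarith [h.K_ge]
  have hm1 : min 1 P.Λ / (2 * K ^ 2) ≤ P.Λ :=
    (div_le_self hmin.le h2K).trans (min_le_right _ _)
  have hq : 0 < Real.exp (-1) / Real.exp P.Λ := by positivity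
  refine le_trans (le_of_eq ?_) (mul_le_mul (div_le_div_of_nonneg_right hη (by norm_num))
    (?_ : min 1 P.Λ / (2 * K ^ 2) * (1 + P.w0⁻¹ * (Icc (max (P.e - K * P.w0) (-2 * P.θc))
      (P.e - P.w0) ×ˢ Icc (-y1) y1).indicator 1 z) * (Real.exp (-1) / Real.exp P.Λ) ≤ drop P z)
    (by
      refine mul_nonneg (mul_nonneg (by positivity) (add_nonneg zero_le_one (mul_nonneg
        (by positivity) (indicator_nonneg (fun _ _ => zero_le_one) _)))) hq.le)
    (by linarith))
  · ring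
  by_cases hm2 : z ∈ (Icc (max (P.e - K * P.w0) (-2 * P.θc)) (P.e - P.w0) ×ˢ Icc (-y1) y1)
  · rw [indicator_of_mem hm2, Pi.one_apply, mul_one]
    have h1 : 0 < (P.e - z.1) / P.w0 := div_pos (by linarith) hw0
    have h2 : (P.e - z.1) / P.w0 ≤ K := by
      rw [div_le_iff₀ hw0]; linarith [le_trans (le_max_left _ _) hm2.1.1]
    have hKs : P.w0⁻¹ / K ^ 2 ≤ ((P.e - z.1) / P.w0)⁻¹ ^ 2 / P.w0 := by
      rw [div_eq_mul_inv, div_eq_mul_inv _ P.w0, mul_comm, inv_pow]
      exact mul_le_mul_of_nonneg_right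
        ((inv_le_inv₀ (by positivity) (by positivity)).2 (pow_le_pow_left₀ h1.le h2 2))
        (by positivity)
    have h3 : min 1 P.Λ / (2 * K ^ 2) * P.w0⁻¹ ≤ P.w0⁻¹ / K ^ 2 := by
      rw [div_mul_eq_mul_div, div_le_div_iff₀ (by positivity) (by positivity)]
      have := mul_le_mul_of_nonneg_right (min_le_left 1 P.Λ)
        (show 0 ≤ P.w0⁻¹ * K ^ 2 by positivity)
      linarith [show 0 ≤ P.w0⁻¹ * K ^ 2 by positivity]
    have hh : (min 1 P.Λ / (2 * K ^ 2) * (1 + P.w0⁻¹)) * (Real.exp (-1) / Real.exp P.Λ)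
        ≤ (P.Λ + ((P.e - z.1) / P.w0)⁻¹ ^ 2 / P.w0) * wt P z :=
      mul_le_mul (by linarith) hwlb hq.le
        (add_nonneg h.Λ_pos.le (div_nonneg (sq_nonneg _) hw0.le))
    refine hh.trans ?_
    simp only [drop]
    linarith [mul_nonneg h.L_pos.le (side_nonneg h z)]
  · rw [indicator_of_notMem hm2, mul_zero, add_zero, mul_one]
    exact (mul_le_mul hm1 hwlb hq.le h.Λ_pos.le).trans hΛd

lemma weight_R (h : P.Good y1 y2 K) {z : P2} (hz : z ∈ P.box y2) (r : ℝ) (hr : 0 ≤ r) :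
    ∃ μ, 0 < μ ∧ wt P z ≤ μ * drop P z ∧ 8 * μ * wt P z * r ≤
      (8 * Real.exp P.Λ / P.Λ + 8 * K ^ 2 * Real.exp P.Λ) *
        ((Icc (-3 * P.θc) (P.e - K * P.w0) ×ˢ Icc (-y2) y2).indicator (fun _ => r) z
          + P.w0 * (Icc (P.e - K * P.w0) P.e ×ˢ Icc (-y2) y2).indicator (fun _ => r) z) := by
  have hw0 := h.w_pos
  have hΛ0 := h.Λ_pos
  have hK0 : 0 < K := by linarith [h.K_ge]
  obtain ⟨hΛd, -, hsd, hd0⟩ := drop_ge h z
  have hwE := wt_le h hz
  have hc1 : 0 ≤ 8 * Real.exp P.Λ / P.Λ := by positivity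
  have hc2 : 0 ≤ 8 * K ^ 2 * Real.exp P.Λ := by positivity
  by_cases hstr : z.1 ≤ P.e - K * P.w0
  · refine ⟨1 / P.Λ, by positivity, by rw [one_div_mul_eq_div, le_div_iff₀ hΛ0]; linarith, ?_⟩
    rw [indicator_of_mem (show z ∈ (Icc (-3 * P.θc) (P.e - K * P.w0) ×ˢ Icc (-y2) y2) from
      ⟨⟨hz.1.1, hstr⟩, hz.2⟩)]
    calc 8 * (1 / P.Λ) * wt P z * r ≤ 8 * (1 / P.Λ) * Real.exp P.Λ * r :=
          mul_le_mul_of_nonneg_right (mul_le_mul_of_nonneg_left hwE (by positivity)) hr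
      _ = 8 * Real.exp P.Λ / P.Λ * r := by ring
      _ ≤ _ := mul_le_mul (le_add_of_nonneg_right hc2) (le_add_of_nonneg_right
            (mul_nonneg hw0.le (indicator_nonneg (fun _ _ => hr) z))) hr (add_nonneg hc1 hc2)
  · refine ⟨K ^ 2 * P.w0, by positivity, ?_, ?_⟩
    · rcases le_or_gt P.e z.1 with he | he
      · have : sg ((P.e - z.1) / P.w0) = 0 := expNegInvGlue.zero_of_nonpos
          (div_nonpos_of_nonpos_of_nonneg (by linarith) hw0.le)
        rw [show wt P z = 0 by simp [wt, this]]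
        exact mul_nonneg (by positivity) hd0
      · have h1 : 0 < (P.e - z.1) / P.w0 := div_pos (by linarith) hw0
        have h2 : (P.e - z.1) / P.w0 ≤ K := by rw [div_le_iff₀ hw0]; linarith
        have h3 : 1 ≤ K ^ 2 * ((P.e - z.1) / P.w0)⁻¹ ^ 2 := by
          rw [inv_pow, ← div_eq_mul_inv, le_div_iff₀ (by positivity), one_mul]
          exact pow_le_pow_left₀ h1.le h2 2
        refine le_trans ?_ (mul_le_mul_of_nonneg_left hsd (by positivity))
        calc wt P z ≤ (K ^ 2 * ((P.e - z.1) / P.w0)⁻¹ ^ 2) * wt P z :=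
              le_mul_of_one_le_left (wt_nonneg P z) h3
          _ = _ := by rw [div_eq_mul_inv _ P.w0]; field_simp
    · rw [indicator_of_mem (show z ∈ (Icc (P.e - K * P.w0) P.e ×ˢ Icc (-y2) y2) from
        ⟨⟨by linarith, hz.1.2⟩, hz.2⟩)]
      calc 8 * (K ^ 2 * P.w0) * wt P z * r ≤ 8 * (K ^ 2 * P.w0) * Real.exp P.Λ * r :=
            mul_le_mul_of_nonneg_right (mul_le_mul_of_nonneg_left hwE (by positivity)) hr
        _ = 8 * K ^ 2 * Real.exp P.Λ * (P.w0 * r) := by ring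
        _ ≤ _ := mul_le_mul (le_add_of_nonneg_left hc1) (le_add_of_nonneg_left
              (indicator_nonneg (fun _ _ => hr) z)) (mul_nonneg hw0.le hr) (add_nonneg hc1 hc2)

/-- The quadratic density of the weight `b` alone. -/
lemma qform_wt {η : ℝ} {κ ν G G1 R w b : P2 → ℝ} {z : P2} (hb : DifferentiableAt ℝ b z)
    (hk : DifferentiableAt ℝ κ z) (hn : DifferentiableAt ℝ ν z) :
    qform η κ ν G G1 R w b (fun _ => 0) (fun _ => 0) z
      = dp b z / 2 * dy w z ^ 2 + (-dy b z + η * b z * G1 z) * (dp w z * dy w z)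
        + η * (-(dp b z * κ z + b z * dp κ z) / 2
          - (dy b z * ν z + b z * dy ν z) / 2 + b z * G z) * dp w z ^ 2
        + η * (b z * dp w z) * R z := by
  simp only [qform, qmm, qam, qaa, qlow, dp_mul hb hk, dy_mul hb hn]
  simp only [dp, dy, fderiv_fun_const, Pi.zero_apply, zero_apply, mul_zero, zero_mul,
    add_zero, sub_zero, zero_div]
  ring

lemma qform_eq_zero {η : ℝ} {κ ν G G1 R w b : P2 → ℝ} {z : P2}
    (hz : b =ᶠ[nhds z] fun _ => 0) (hk : DifferentiableAt ℝ κ z) (hn : DifferentiableAt ℝ ν z) :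
    qform η κ ν G G1 R w b (fun _ => 0) (fun _ => 0) z = 0 := by
  have hb : DifferentiableAt ℝ b z := (differentiableAt_const (0 : ℝ)).congr_of_eventuallyEq hz
  have d0 : b z = 0 := hz.eq_of_nhds
  have d1 : dp b z = 0 := by simp [dp, hz.fderiv_eq]
  have d2 : dy b z = 0 := by simp [dy, hz.fderiv_eq]
  rw [qform_wt hb hk hn, d0, d1, d2]
  ring

end CoreEnergy

open CoreEnergy in
/-- The hyperbolic energy estimate in the core. -/
theorem coreEnergy : CoreEnergySpec := by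
  intro Γ hΓ
  refine ⟨1, 1 / (9 * (32 + 64 * Γ)), one_pos, by positivity,
    fun η1 y1 y2 K θc hη1 hy1 hy12 hy2 hK hθ0 hθ => ?_⟩
  rcases lt_or_ge 1 η1 with hbig | hη11
  · exact ⟨0, fun η w0 e h1 h2 => absurd (h1.trans h2) (not_le.2 hbig)⟩
  obtain ⟨s, hs⟩ : ∃ s : ℝ, s = Real.sqrt η1 := ⟨_, rfl⟩
  have hs0 : 0 < s := hs ▸ Real.sqrt_pos.2 hη1
  have hsq : s ^ 2 ≤ η1 := by rw [hs, Real.sq_sqrt hη1.le]
  have hs1 : s ≤ 1 := hs ▸ Real.sqrt_le_one.2 hη11
  obtain ⟨L, hL⟩ : ∃ L : ℝ, L = 32 / s + 64 * Γ := ⟨_, rfl⟩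
  obtain ⟨Λ, hΛ⟩ : ∃ Λ : ℝ, Λ = 128 * Γ + 64 := ⟨_, rfl⟩
  obtain ⟨D, hD⟩ : ∃ D : ℝ, D = (y2 ^ 2 - y1 ^ 2) / 3 := ⟨_, rfl⟩
  have hL0 : 0 < L := by rw [hL]; positivity
  have hΛ0 : 0 < Λ := by rw [hΛ]; linarith
  have hd2 : (y2 - y1) ^ 2 ≤ 3 * D := by rw [hD]; nlinarith
  have hD0 : 0 < D := by nlinarith [pow_pos (sub_pos.2 hy12) 2]
  rw [← hs, div_mul_eq_mul_div, one_mul, div_mul_eq_mul_div, le_div_iff₀ (by positivity)] at hθ
  have hθ4 : θc ≤ 1 / 4 := by
    have h1 : (y2 - y1) ^ 2 ≤ 1 := by nlinarith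
    have h2 : s * (y2 - y1) ^ 2 ≤ 1 := mul_le_one₀ hs1 (sq_nonneg _) h1
    nlinarith
  have hLθ : L * θc ≤ D / 3 := by
    have h1 : L * s ≤ 32 + 64 * Γ := by
      rw [hL, add_mul, div_mul_cancel₀ _ hs0.ne']
      linarith [mul_le_of_le_one_right (show 0 ≤ 64 * Γ by linarith) hs1]
    have h2 : 9 * (L * θc) * s ≤ (y2 - y1) ^ 2 * s := by
      have := mul_le_mul_of_nonneg_right h1 (show 0 ≤ 9 * θc by linarith)
      nlinarith
    have := le_of_mul_le_mul_right h2 hs0
    linarith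
  obtain ⟨M, hM0, hM⟩ := st'_bound
  obtain ⟨c, hc⟩ : ∃ c : ℝ,
      c = η1 / 32 * (Real.exp (-1) / Real.exp Λ) / (2 * K ^ 2) * min 1 Λ := ⟨_, rfl⟩
  have hc0 : 0 < c := by rw [hc]; have := lt_min one_pos hΛ0; positivity
  obtain ⟨C0, hC0⟩ : ∃ C0 : ℝ, C0 = M / θc * Real.exp Λ * (1 + Γ)
      + (8 * Real.exp Λ / Λ + 8 * K ^ 2 * Real.exp Λ) := ⟨_, rfl⟩
  have hC1 : 0 ≤ M / θc * Real.exp Λ * (1 + Γ) := by positivity
  have hC2 : 0 ≤ 8 * Real.exp Λ / Λ + 8 * K ^ 2 * Real.exp Λ := by positivity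
  refine ⟨C0 / c, fun η w0 e hη1' hη0 hw0 hKw he κ ν G G1 R w hco hlin => ?_⟩
  have hη : 0 < η := lt_of_lt_of_le hη1 hη1'
  let P : Par := ⟨Λ, L, y1 ^ 2 + 2 * D, D, θc, w0, e⟩
  have hP : P.Good y1 y2 K := ⟨hΛ0, hL0, hD0, hθ0, hθ4, hw0, hK, hKw, he, hLθ, rfl,
    by show 3 * D = _; linarith, hy1, hy12, by linarith⟩
  have hbxc : IsCompact (P.box y2) := isCompact_Icc.prod isCompact_Icc
  have hsupp : tsupport (wt P) ⊆ P.box y2 :=
    closure_minimal (fun z hz => by_contra fun h => hz (wt_out hP z h)) hbxc.isClosed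
  obtain ⟨hint, hzero⟩ := qform_integral (η := η) (κ := κ) (ν := ν) (G := G) (G1 := G1) (R := R)
    (w := w) (b := wt P) (γ := fun _ => 0) (τ := fun _ => 0) (hlin.smk.of_le (by simp))
    (hlin.smn.of_le (by simp)) (hlin.smw.of_le (WithTop.coe_le_coe.2 (le_top : (2 : ℕ∞) ≤ ⊤))) ((wt_smooth P).of_le (by simp))
    contDiff_const contDiff_const (HasCompactSupport.intro hbxc (wt_out hP)) HasCompactSupport.zero
    HasCompactSupport.zero
    (fun z hz => hlin.eq z (hsupp (by simpa [tsupport] using hz)))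
  set f : P2 → ℝ := fun z => dp w z ^ 2 + dy w z ^ 2 with hf
  set r2 : P2 → ℝ := fun z => R z ^ 2 with hr2
  have hf0 : ∀ z, 0 ≤ f z := fun z => add_nonneg (sq_nonneg _) (sq_nonneg _)
  have hfc : Continuous f :=
    ((continuous_dp (hlin.smw.of_le (by simp))).pow 2).add
      ((continuous_dy (hlin.smw.of_le (by simp))).pow 2)
  have hrc : Continuous r2 := hlin.cR.pow 2
  have hdk := hlin.smk.differentiable (by simp)
  have hdn := hlin.smn.differentiable (by simp)
  have e1 : ∀ (S : Set P2) (g : P2 → ℝ) (z : P2), S.indicator g z = S.indicator 1 z * g z :=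
    fun S g z => by by_cases h : z ∈ S <;> simp [h]
  have hpt : ∀ z, c * ((Icc (-2 * θc) (e - w0) ×ˢ Icc (-y1) y1).indicator f z + w0⁻¹ *
        (Icc (max (e - K * w0) (-2 * θc)) (e - w0) ×ˢ Icc (-y1) y1).indicator f z)
        + qform η κ ν G G1 R w (wt P) (fun _ => 0) (fun _ => 0) z
      ≤ C0 * ((Icc (-3 * θc) (-2 * θc) ×ˢ Icc (-y2) y2).indicator f z
        + (Icc (-3 * θc) (e - K * w0) ×ˢ Icc (-y2) y2).indicator r2 z
        + w0 * (Icc (e - K * w0) e ×ˢ Icc (-y2) y2).indicator r2 z) := by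
    intro z
    have hl : c * ((Icc (-2 * θc) (e - w0) ×ˢ Icc (-y1) y1).indicator f z + w0⁻¹ *
        (Icc (max (e - K * w0) (-2 * θc)) (e - w0) ×ˢ Icc (-y1) y1).indicator f z)
        ≤ η / 32 * drop P z * f z := by
      have h := mul_le_mul_of_nonneg_right (drop_low hP hη1 hη1' z) (hf0 z)
      rw [e1 _ f, e1 (Icc (max _ _) _ ×ˢ _) f, hc]
      refine le_trans (le_of_eq ?_) h
      ring
    have i1 := indicator_nonneg (fun v _ => hf0 v) z (s := Icc (-3 * θc) (-2 * θc) ×ˢ Icc (-y2) y2)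
    have i2 : 0 ≤ (Icc (-3 * θc) (e - K * w0) ×ˢ Icc (-y2) y2).indicator r2 z
        + w0 * (Icc (e - K * w0) e ×ˢ Icc (-y2) y2).indicator r2 z :=
      add_nonneg (indicator_nonneg (fun v _ => sq_nonneg _) z)
        (mul_nonneg hw0.le (indicator_nonneg (fun v _ => sq_nonneg _) z))
    by_cases hz : z ∈ P.box y2
    swap
    · have hev : wt P =ᶠ[nhds z] fun _ => 0 :=
        Filter.eventuallyEq_of_mem (hbxc.isClosed.isOpen_compl.mem_nhds hz) (wt_out hP)
      have hd : drop P z * f z = 0 := by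
        have h1 : wt P z = 0 := wt_out hP z hz
        have h2 : dy (wt P) z = 0 := by simp [dy, hev.fderiv_eq]
        have h3 : dp (wt P) z = 0 := by simp [dp, hev.fderiv_eq]
        have hg : gain P z = 0 := by
          by_cases hl : z.1 < -3 * θc ∨ -2 * θc ≤ z.1
          · rcases hl with hl | hl
            · have : st' ((z.1 + 3 * θc) / θc) = 0 :=
                IsLocalMin.deriv_eq_zero (Filter.Eventually.of_forall fun t => by
                  rw [Real.smoothTransition.zero_of_nonpos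
                    (div_nonpos_of_nonpos_of_nonneg (by linarith) hθ0.le)]
                  exact Real.smoothTransition.nonneg t)
              simp [gain, P, this]
            · have : st' ((z.1 + 3 * θc) / θc) = 0 := st'_zero_of_one_le (by
                rw [le_div_iff₀ hθ0]; linarith)
              simp [gain, P, this]
          · simp only [not_or, not_lt, not_le] at hl
            have hc1 : cut P z.1 * expo P z.1 * sg ((P.e - z.1) / P.w0) * xi P z = 0 := h1
            rcases eq_or_ne (sg ((P.e - z.1) / P.w0) * xi P z) 0 with h0 | h0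
            · rw [gain, mul_assoc, h0, mul_zero]
            · have hc2 : cut P z.1 = 0 := by
                rw [mul_assoc] at hc1
                rcases mul_eq_zero.1 hc1 with h4 | h4
                · exact (mul_eq_zero.1 h4).resolve_right (Real.exp_pos _).ne'
                · exact absurd h4 h0
              have := Real.smoothTransition.zero_iff_nonpos.1 hc2
              have heq : z.1 + 3 * θc ≤ 0 := by
                by_contra hcon
                exact absurd this (not_le.2 (div_pos (not_le.1 hcon) hθ0))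
              have : st' ((z.1 + 3 * θc) / θc) = 0 :=
                IsLocalMin.deriv_eq_zero (Filter.Eventually.of_forall fun t => by
                  rw [Real.smoothTransition.zero_of_nonpos
                    (div_nonpos_of_nonpos_of_nonneg heq hθ0.le)]
                  exact Real.smoothTransition.nonneg t)
              simp [gain, P, this]
        have := dp_wt P z
        rw [h3, hg] at this
        rw [show drop P z = 0 by linarith, zero_mul]
      rw [qform_eq_zero hev (hdk z) (hdn z)]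
      rw [mul_assoc] at hl
      rw [hd, mul_zero] at hl
      have h0 : 0 ≤ C0 * ((Icc (-3 * θc) (-2 * θc) ×ˢ Icc (-y2) y2).indicator f z
        + (Icc (-3 * θc) (e - K * w0) ×ˢ Icc (-y2) y2).indicator r2 z
        + w0 * (Icc (e - K * w0) e ×ˢ Icc (-y2) y2).indicator r2 z) :=
        mul_nonneg (by rw [hC0]; linarith) (by linarith)
      linarith
    obtain ⟨k1, k2, k3, -, k5, -, k7, k8, k9⟩ := hco z hz
    obtain ⟨hΛd, hLd, -, -⟩ := drop_ge hP z
    obtain ⟨hg0, hg⟩ := gain_bounds hP hM hz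
    obtain ⟨μ, hμ, hμB, hμR⟩ := weight_R hP hz (r2 z) (sq_nonneg _)
    have hsv := side_nonneg hP z
    have hy : |dy (wt P) z| ≤ 2 * side P z := by
      rw [dy_wt, abs_mul, abs_of_nonneg hsv]
      refine mul_le_mul_of_nonneg_right ?_ hsv
      rw [abs_neg, abs_mul, abs_two]
      have : |z.2| ≤ 1 := abs_le.2 ⟨by linarith [hz.2.1], by linarith [hz.2.2]⟩
      linarith
    have key := quad_bound (a := dp w z) (m := dy w z) (Rv := R z) hη hη0 hs0 (hsq.trans hη1') hΓ
      hL hΛ (wt_nonneg P z) hsv hg0 hΛd hLd (dp_wt P z) hy k1 k2 k3 k5 k7 k8 k9 hμ hμB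
    rw [← qform_wt ((wt_smooth P).differentiable (by simp) z) (hdk z) (hdn z)] at key
    have hg2 : gain P z * (1 + Γ) * f z ≤ M / θc * Real.exp Λ * (1 + Γ) *
        (Icc (-3 * θc) (-2 * θc) ×ˢ Icc (-y2) y2).indicator f z := by
      simp only [P] at hg
      refine (mul_le_mul_of_nonneg_right (mul_le_mul_of_nonneg_right hg (by linarith))
        (hf0 z)).trans (le_of_eq ?_)
      by_cases hl : z ∈ (Icc (-3 * θc) (-2 * θc) ×ˢ Icc (-y2) y2)
      · rw [indicator_of_mem hl, indicator_of_mem hl]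
      · rw [indicator_of_notMem hl, indicator_of_notMem hl, zero_mul, zero_mul, mul_zero]
    have hR2 : ∀ S : Set P2, S.indicator (fun _ => r2 z) z = S.indicator r2 z := fun S => by
      by_cases h : z ∈ S <;> simp [h]
    rw [hR2, hR2] at hμR
    have x1 := mul_le_mul_of_nonneg_right
      (show M / θc * Real.exp Λ * (1 + Γ) ≤ C0 by rw [hC0]; linarith) i1
    have x2 := mul_le_mul_of_nonneg_right
      (show 8 * Real.exp Λ / Λ + 8 * K ^ 2 * Real.exp Λ ≤ C0 by rw [hC0]; linarith) i2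
    simp only [P] at hμR key hg2 hl ⊢
    simp only [hf, hr2] at hμR key hg2 hl x1 x2 ⊢
    linarith
  -- integrate
  have ii : ∀ {g : P2 → ℝ}, Continuous g → ∀ a b c d : ℝ,
      Integrable ((Icc a b ×ˢ Icc c d : Set P2).indicator g) := fun hg a b c d =>
    (hg.continuousOn.integrableOn_compact (isCompact_Icc.prod isCompact_Icc)).integrable_indicator
      (measurableSet_Icc.prod measurableSet_Icc)
  have mb : ∀ a b c d : ℝ, MeasurableSet (Icc a b ×ˢ Icc c d : Set P2) := fun a b c d =>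
    measurableSet_Icc.prod measurableSet_Icc
  have iT1 := ii hfc (-2 * θc) (e - w0) (-y1) y1
  have iT2 := ii hfc (max (e - K * w0) (-2 * θc)) (e - w0) (-y1) y1
  have iLf := ii hfc (-3 * θc) (-2 * θc) (-y2) y2
  have iA1 := ii hrc (-3 * θc) (e - K * w0) (-y2) y2
  have iA2 := ii hrc (e - K * w0) e (-y2) y2
  have i12 : Integrable (fun z => (Icc (-2 * θc) (e - w0) ×ˢ Icc (-y1) y1).indicator f z
      + w0⁻¹ * (Icc (max (e - K * w0) (-2 * θc)) (e - w0) ×ˢ Icc (-y1) y1).indicator f z) :=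
    iT1.add (iT2.const_mul _)
  have i34 : Integrable (fun z => (Icc (-3 * θc) (-2 * θc) ×ˢ Icc (-y2) y2).indicator f z
      + (Icc (-3 * θc) (e - K * w0) ×ˢ Icc (-y2) y2).indicator r2 z) := iLf.add iA1
  have i345 : Integrable (fun z => (Icc (-3 * θc) (-2 * θc) ×ˢ Icc (-y2) y2).indicator f z
      + (Icc (-3 * θc) (e - K * w0) ×ˢ Icc (-y2) y2).indicator r2 z
      + w0 * (Icc (e - K * w0) e ×ˢ Icc (-y2) y2).indicator r2 z) := i34.add (iA2.const_mul _)
  have hmono := integral_mono ((i12.const_mul c).add hint) (i345.const_mul C0) hpt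
  simp only [Pi.add_apply] at hmono
  rw [integral_add (i12.const_mul c) hint, hzero, add_zero,
    integral_const_mul, integral_const_mul, integral_add iT1 (iT2.const_mul w0⁻¹),
    integral_add i34 (iA2.const_mul w0), integral_add iLf iA1, integral_const_mul,
    integral_const_mul, integral_indicator (mb ..), integral_indicator (mb ..),
    integral_indicator (mb ..), integral_indicator (mb ..), integral_indicator (mb ..)] at hmono
  rw [div_mul_eq_mul_div, le_div_iff₀ hc0, mul_comm _ c]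
  exact hmono

end Vale.Agent.P229
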