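import Mathlib

/-
P229: basic definitions for the counterexample to local isometric realizability.
See PROOF.md in this folder.
-/

namespace Vale.Agent.P229

open MeasureTheory
open scoped ContDiff

/-- The parameter plane. -/
abbrev P2 := ℝ × ℝ

/-- Arguments of the nonlinearity: p, y, x, q, x_p, x_y. -/
abbrev V6 := Fin 6 → ℝ

/-- First partial derivative. -/
noncomputable def dp (f : P2 → ℝ) (z : P2) : ℝ := fderiv ℝ f z (1, 0)

/-- Second partial derivative. -/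
noncomputable def dy (f : P2 → ℝ) (z : P2) : ℝ := fderiv ℝ f z (0, 1)

/-- Squared Euclidean radius. -/
def rsq (z : P2) : ℝ := z.1 ^ 2 + z.2 ^ 2

/-- The box on which the normalised equations hold. -/
def Box : Set P2 := {z | |z.1| < 3 ∧ |z.2| < 3}

/-- Nested regions: a ring in the elliptic zone joined to the island left of `e`. -/
def Reg (t e : ℝ) : Set P2 := {z | rsq z < 4 - t ∧ (1.1 + t < rsq z ∨ z.1 < e)}

/-- The argument vector of the nonlinearity along `(x, q)`. -/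
noncomputable def jet (x q : P2 → ℝ) (z : P2) : V6 := ![z.1, z.2, x z, q z, dp x z, dy x z]

/-- The model nonlinearity `(x^2 + y^2 - 1) x_p`. -/
def H0 (u : V6) : ℝ := (u 2 ^ 2 + u 1 ^ 2 - 1) * u 4

/-- A one variable bump: one on `[-1/2, 1/2]`, supported in `[-1, 1]`. -/
noncomputable def bump1 : ContDiffBump (0 : ℝ) := ⟨1 / 2, 1, by norm_num, by norm_num⟩

/-- The blob profile, supported in the unit disc. -/
noncomputable def blob (z : P2) : ℝ := bump1 (rsq z)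

/-- Minus one half of the Laplacian of the blob profile. -/
noncomputable def blobK (z : P2) : ℝ := -(dp (dp blob) z + dy (dy blob) z) / 2

/-- A cutoff equal to one on `[-36, 36]`, supported in `[-39, 39]`. -/
noncomputable def bumpBig : ContDiffBump (0 : ℝ) := ⟨36, 39, by norm_num, by norm_num⟩

/-- The island template: `-1/2` times its Laplacian is `|X|^2 - 1` on the central disc. -/
noncomputable def island (z : P2) : ℝ := bumpBig (rsq z) * (rsq z / 2 - rsq z ^ 2 / 8)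

/-- The island with a blob of amplitude `s` and width `1 / lam`. -/
noncomputable def template (s lam : ℝ) (z : P2) : ℝ :=
  island z + s / lam ^ 2 * blob (lam * z.1, lam * z.2)

/-- First covariant Hessian entry for the conformal metric `E (dx^2 + dy^2)`. -/
noncomputable def hess11 (E Z : P2 → ℝ) (z : P2) : ℝ :=
  dp (dp Z) z - (dp E z * dp Z z - dy E z * dy Z z) / (2 * E z)

/-- Second covariant Hessian entry. -/
noncomputable def hess22 (E Z : P2 → ℝ) (z : P2) : ℝ :=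
  dy (dy Z) z - (-(dp E z * dp Z z) + dy E z * dy Z z) / (2 * E z)

/-- Mixed covariant Hessian entry. -/
noncomputable def hess12 (E Z : P2 → ℝ) (z : P2) : ℝ :=
  dy (dp Z) z - (dy E z * dp Z z + dp E z * dy Z z) / (2 * E z)

/-- Curvature term `-e^(2 phi) Lap phi` for `E = e^(2 phi)`. -/
noncomputable def curvTerm (E : P2 → ℝ) (z : P2) : ℝ :=
  -(dp (dp E) z + dy (dy E) z - (dp E z ^ 2 + dy E z ^ 2) / E z) / 2

/-- The nonlinearity family: smooth, close to `H0`, plus a blob of width `1 / lam`. -/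
structure HFam (L : ℕ → ℝ) (δ s lam : ℝ) (Hb Hs : V6 → ℝ) : Prop where
  smb : ContDiff ℝ ∞ Hb
  sms : ContDiff ℝ ∞ Hs
  bnd : ∀ k u, ‖iteratedFDeriv ℝ k Hb u‖ ≤ L k
  bndS : ∀ k u, ‖iteratedFDeriv ℝ k Hs u‖ ≤ L k * (s * lam ^ k)
  supp : ∀ u : V6, (1 < lam * |u 2| ∨ 1 < lam * |u 1|) → Hs u = 0
  close1 : ∀ u : V6, ‖u‖ ≤ 4 → ‖fderiv ℝ Hb u - fderiv ℝ H0 u‖ ≤ δ
  close2 : ∀ u : V6, ‖u‖ ≤ 4 →
    ‖iteratedFDeriv ℝ 2 Hb u - iteratedFDeriv ℝ 2 H0 u‖ ≤ δ
  profile : ∃ P : V6 → ℝ,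
    (∀ u v : V6, ‖u‖ ≤ 4 → ‖v‖ ≤ 4 → |P u - P v| ≤ L 0 * ‖u - v‖) ∧
    ∀ u : V6, ‖u‖ ≤ 4 →
      |P u - 1| ≤ 1 / 2 ∧ |Hs u - s * blobK (lam * u 2, lam * u 1) * u 4 * P u| ≤ L 0 * s / lam

/-- A normalised solution. -/
structure Sol (η δ : ℝ) (H : V6 → ℝ) (x q : P2 → ℝ) : Prop where
  smx : ContDiff ℝ ∞ x
  smq : ContDiff ℝ ∞ q
  eqp : ∀ z ∈ Box, dp q z = -dy x z
  eqy : ∀ z ∈ Box, dy q z = η * H (jet x q z)
  closex : ∀ k ≤ 16, ∀ z ∈ Box, ‖iteratedFDeriv ℝ k (fun v => x v - v.1) z‖ ≤ δ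
  closeq : ∀ k ≤ 15, ∀ z ∈ Box, ‖iteratedFDeriv ℝ k q z‖ ≤ δ
  x0 : x (0, 0) = 0

/-- Data of the linear equation `w_yy + η (κ w_pp + ν w_py + G w_p + G1 w_y + R) = 0`. -/
structure LinEq (η : ℝ) (κ ν G G1 R w : P2 → ℝ) (U : Set P2) : Prop where
  smk : ContDiff ℝ ∞ κ
  smn : ContDiff ℝ ∞ ν
  smw : ContDiff ℝ ∞ w
  cG : Continuous G
  cG1 : Continuous G1
  cR : Continuous R
  eq : ∀ z ∈ U, dy (dy w) z
    + η * (κ z * dp (dp w) z + ν z * dy (dp w) z + G z * dp w z + G1 z * dy w z + R z) = 0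

/-- The coefficients are close to those of the model island with first order weight `g`. -/
def CoefClose (δ Γ : ℝ) (g : ℝ) (κ ν G G1 : P2 → ℝ) : Prop :=
  ∀ z : P2, rsq z ≤ 4 →
    |κ z - (rsq z - 1)| ≤ δ ∧ |dp κ z - 2 * z.1| ≤ δ ∧ |dy κ z - 2 * z.2| ≤ δ ∧
    |ν z| ≤ δ ∧ |dp ν z| ≤ δ ∧ |dy ν z| ≤ δ ∧
    |G z - 2 * g * z.1| ≤ δ ∧ |G1 z| ≤ Γ

end Vale.Agent.P229
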