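import Vale.Agent.P229.Detect.Blob

/-
P229: the detection step, `CoreSpec` from `BootSpec`.
-/

namespace Vale.Agent.P229.Detect

open MeasureTheory Vale.Agent.P229
open scoped ContDiff

lemma hfam_mono {L : ℕ → ℝ} {δ δ' s lam : ℝ} {Hb Hs : V6 → ℝ} (h : HFam L δ s lam Hb Hs)
    (hle : δ ≤ δ') : HFam L δ' s lam Hb Hs :=
  ⟨h.smb, h.sms, h.bnd, h.bndS, h.supp, fun u hu => (h.close1 u hu).trans hle,
    fun u hu => (h.close2 u hu).trans hle, h.profile⟩

lemma sol_mono {η δ δ' : ℝ} {H : V6 → ℝ} {x q : P2 → ℝ} (h : Sol η δ H x q) (hle : δ ≤ δ') :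
    Sol η δ' H x q :=
  ⟨h.smx, h.smq, h.eqp, h.eqy, fun k hk z hz => (h.closex k hk z hz).trans hle,
    fun k hk z hz => (h.closeq k hk z hz).trans hle, h.x0⟩

/-- The characteristic slope of the frozen equation. -/
lemma exists_root {η η1 κ ν : ℝ} (hη1 : 0 < η1) (hη : η1 ≤ η) (hη' : η ≤ 1)
    (hκ : |κ + 1| ≤ 1 / 10) (hν : |ν| ≤ 1 / 10) :
    ∃ om : ℝ, 1 / 2 ≤ om ∧ om ≤ 4 + 4 / η1 ∧ om⁻¹ + η * κ * om + η * ν = 0 := by
  have hk := abs_le.1 hκ
  have hn := abs_le.1 hν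
  have h0 : 0 < η := by linarith
  set f : ℝ → ℝ := fun t => 1 + η * κ * t ^ 2 + η * ν * t
  have hle : 1 / 2 ≤ 4 + 4 / η1 := by
    have : 0 ≤ 4 / η1 := by positivity
    linarith
  have hc : ContinuousOn f (Set.Icc (1 / 2) (4 + 4 / η1)) := by fun_prop
  have ha : 0 ≤ f (1 / 2) := by
    simp only [f]; nlinarith
  have hb : f (4 + 4 / η1) ≤ 0 := by
    simp only [f]
    set T := 4 + 4 / η1 with hT
    have hT1 : 4 ≤ T := by
      have : 0 ≤ 4 / η1 := by positivity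
      linarith
    have hηT : 4 ≤ η * T := by
      have : η1 * (4 / η1) = 4 := by field_simp
      nlinarith
    have hA : η * κ * T ^ 2 ≤ η * (-(9 / 10)) * T ^ 2 :=
      mul_le_mul_of_nonneg_right (mul_le_mul_of_nonneg_left (by linarith) h0.le) (sq_nonneg T)
    have hB : η * ν * T ≤ η * (1 / 10) * T :=
      mul_le_mul_of_nonneg_right (mul_le_mul_of_nonneg_left hn.2 h0.le) (by linarith)
    have hC : 4 * T ≤ η * T * T := mul_le_mul_of_nonneg_right hηT (by linarith)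
    nlinarith
  obtain ⟨om, hom, hz⟩ := intermediate_value_Icc' hle hc ⟨hb, ha⟩
  refine ⟨om, hom.1, hom.2, ?_⟩
  have hom0 : om ≠ 0 := by linarith [hom.1]
  simp only [f] at hz
  field_simp
  linarith

/-- No solution for `η` in a dyadic range. -/
lemma core_dyadic (hb : BootSpec) (L : ℕ → ℝ) (N : ℕ) (hN : 40 ≤ N) :
    ∃ δ η0 : ℝ, 0 < δ ∧ 0 < η0 ∧ ∀ η1 S : ℝ, 0 < η1 → η1 ≤ η0 → 1 ≤ S →
    ∃ lam0 : ℝ, 1 ≤ lam0 ∧ ∀ lam η s : ℝ, lam0 ≤ lam → η1 ≤ η → η ≤ 2 * η1 → η ≤ η0 →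
      S⁻¹ ≤ s * lam ^ N → s * lam ^ N ≤ S →
    ∀ (Hb Hs : V6 → ℝ) (x q : P2 → ℝ),
      HFam L δ s lam Hb Hs → Sol η δ (fun u => Hb u + Hs u) x q → False := by
  obtain ⟨δb, ηb, hδb, hηb, hboot⟩ := hb L N hN
  refine ⟨min δb (1 / 10), min ηb 1, lt_min hδb (by norm_num), lt_min hηb one_pos, ?_⟩
  intro η1 S hη1 hη10 hS
  obtain ⟨C, θ, lamb, hθ, hlamb, hB⟩ := hboot η1 S hη1 (hη10.trans (min_le_left _ _)) hS
  obtain ⟨r, hr0, hr⟩ := th_top_near (N + 2)
  set Ω : ℝ := 4 + 4 / η1 with hΩ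
  have hΩ4 : 4 ≤ Ω := by
    have : 0 ≤ 4 / η1 := by positivity
    linarith
  set Λ : ℝ := (2 * Ω + 1) / r with hΛdef
  have hΛ : 0 < Λ := by positivity
  set D : ℝ := Λ + 5 * Ω with hDdef
  have hD : 5 ≤ D := by linarith
  obtain ⟨E2, hE20, hbase⟩ := base_part L N C S D Λ hΛ
  obtain ⟨E4, hE40, hbdry⟩ := bdry_part L N C S D Λ hΛ
  obtain ⟨E3, hE30, hblob⟩ := blob_part L N C S D Λ r hΛ hr
  obtain ⟨c0, hc0⟩ : ∃ a : ℝ, a = 1 / (600 * Λ ^ 2 * S) := ⟨_, rfl⟩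
  have hc0p : 0 < c0 := by rw [hc0]; positivity
  obtain ⟨t, ht⟩ : ∃ a : ℝ, a = 3 * (E4 / η1) / c0 + 1 := ⟨_, rfl⟩
  have htp : 0 < t := by rw [ht]; positivity
  obtain ⟨M, hM⟩ : ∃ a : ℝ, a = 3 * (E4 / η1 * t + E2 + 1) / c0 := ⟨_, rfl⟩
  have hMp : 0 < M := by rw [hM]; positivity
  have hD0 : 0 < D := by linarith
  refine ⟨lamb + D / θ + D + 600 * Λ ^ 2 * E3 + M, ?_, ?_⟩
  · have : 0 ≤ D / θ + D + 600 * Λ ^ 2 * E3 + M := by positivity
    linarith
  intro lam η s hlam hη hη2 hη0 hSl hSu Hb Hs x q hF hSol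
  have hnn1 : 0 ≤ D / θ := by positivity
  have hnn2 : 0 ≤ 600 * Λ ^ 2 * E3 := by positivity
  have hl1 : 1 ≤ lam := by linarith
  have hl : 0 < lam := by linarith
  have hs : 0 < s := by
    have : 0 < s * lam ^ N := lt_of_lt_of_le (inv_pos.2 (by linarith)) hSl
    exact pos_of_mul_pos_left this (by positivity)
  have hηp : 0 < η := by linarith
  have hη1' : η ≤ 1 := hη0.trans (min_le_right _ _)
  obtain ⟨hlow, hener⟩ := hB lam η s (by linarith) hη hη2 (hη0.trans (min_le_left _ _)) hSl hSu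
    Hb Hs x q (hfam_mono hF (min_le_left _ _)) (sol_mono hSol (min_le_left _ _))
  have hDθ : D * (1 / lam) ≤ θ := by
    rw [mul_one_div, div_le_iff₀ hl]
    have : θ * (D / θ) = D := by field_simp
    have := mul_le_mul_of_nonneg_left (show D / θ ≤ lam by linarith) hθ.le
    linarith
  have hctx : Ctx L N C S θ (min δb (1 / 10)) η s lam D Hb Hs x q :=
    ⟨hN, hF, hSol, min_le_right _ _, hηp, hη1', hl1, hs, hSu, hD, hDθ,
      by rw [mul_one_div, div_le_one hl]; linarith, hlow, hener⟩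
  obtain ⟨hκ, hν⟩ := hctx.coef
  obtain ⟨om, hom2, homΩ, hroot⟩ :=
    exists_root hη1 hη hη1' (hκ.trans (min_le_right _ _)) (hν.trans (min_le_right _ _))
  have homD : Λ + 5 * |om| ≤ D := by rw [abs_of_pos (by linarith)]; linarith
  have hΛr : 2 * om + 1 ≤ r * Λ := by
    rw [hΛdef, mul_div_cancel₀ _ hr0.ne']; linarith
  set w := 1 / lam with hwdef
  have hw : 0 < w := by positivity
  have hσ : 0 < Λ * w := mul_pos hΛ hw
  have hρ : Λ * w + 5 * |om| * w ≤ D * w := by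
    rw [← add_mul]; exact mul_le_mul_of_nonneg_right homD hw.le
  have b1 := hbase _ _ _ _ _ om Hb Hs x q hctx homD
  have b2 := hbdry _ _ _ _ _ om t Hb Hs x q hctx homD hom2 htp
  have b3 := hblob _ _ _ _ _ om Hb Hs x q hctx homD hom2 hΛr
  have hid := hctx.identity hσ hρ (by linarith) hroot (N + 2)
  rw [← hwdef] at b1 b2 b3 hid
  set g : P2 → ℝ := fun z => Hb (jet x q z) - hDer Hb x q 4 0 * dp x z - hDer Hb x q 5 0 * dy x z
  set X : P2 → ℝ := fun z => ph (N + 2) (N + 2) om (Λ * w) z * cut (z.1 / w)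
  have hW := smooth_jet hSol.smx hSol.smq
  have ig : Integrable fun z => X z * g z :=
    test_integrable hσ hw smooth_cut.continuous (fun s hs => cut_zero hs)
      (((hF.smb.comp hW).continuous.sub (continuous_const.mul (smooth_dp hSol.smx).continuous)).sub
        (continuous_const.mul (smooth_dy hSol.smx).continuous))
  have ih : Integrable fun z => X z * Hs (jet x q z) :=
    test_integrable hσ hw smooth_cut.continuous (fun s hs => cut_zero hs) (hF.sms.comp hW).continuous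
  have e : ∀ z, X z * (Hb (jet x q z) + Hs (jet x q z) - hDer Hb x q 4 0 * dp x z
      - hDer Hb x q 5 0 * dy x z) = X z * g z + X z * Hs (jet x q z) := fun z => by
    simp only [g]; ring
  change η * ∫ z, X z * (Hb (jet x q z) + Hs (jet x q z) - hDer Hb x q 4 0 * dp x z
      - hDer Hb x q 5 0 * dy x z) = _ at hid
  simp only [e] at hid
  rw [integral_add ig ih] at hid
  set Ig := ∫ z, X z * g z with hIg
  set Ih := ∫ z, X z * Hs (jet x q z) with hIh
  change |Ig| ≤ _ at b1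
  change _ ≤ |Ih| at b3
  have hsum : |Ig + Ih| ≤ E4 / η1 * w ^ (N + 2) * (t * w + t⁻¹) := by
    have h1 : η * |Ig + Ih| ≤ E4 * w ^ (N + 2) * (t * w + t⁻¹) := by
      rw [← abs_of_pos hηp, ← abs_mul, hid, abs_neg]; exact b2
    have h2 := mul_le_mul_of_nonneg_right hη (abs_nonneg (Ig + Ih))
    have h3 : E4 / η1 * w ^ (N + 2) * (t * w + t⁻¹)
        = (E4 * w ^ (N + 2) * (t * w + t⁻¹)) / η1 := by ring
    rw [h3, le_div_iff₀ hη1]
    linarith
  have hIh' : |Ih| ≤ |Ig + Ih| + |Ig| := by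
    have := abs_sub (Ig + Ih) Ig
    simpa using this
  have hwE : E3 * w ≤ 1 / (600 * Λ ^ 2) := by
    rw [hwdef, mul_one_div, div_le_div_iff₀ hl (by positivity)]
    linarith
  have hlowb : w ^ (N + 2) * c0 ≤ s * w ^ 2 * (1 / (300 * Λ ^ 2)) - E3 * s * w ^ 3 := by
    have h1 : E3 * s * w ^ 3 ≤ s * w ^ 2 * (1 / (600 * Λ ^ 2)) := by
      calc E3 * s * w ^ 3 = s * w ^ 2 * (E3 * w) := by ring
        _ ≤ _ := mul_le_mul_of_nonneg_left hwE (by positivity)
    have h2 : w ^ (N + 2) * (1 / S) ≤ s * w ^ 2 := by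
      have hpow : lam ^ N * w ^ N = 1 := by rw [← mul_pow, hwdef, mul_one_div, div_self hl.ne', one_pow]
      calc w ^ (N + 2) * (1 / S) ≤ w ^ (N + 2) * (s * lam ^ N) :=
            mul_le_mul_of_nonneg_left (by rwa [one_div]) (by positivity)
        _ = s * w ^ 2 * (lam ^ N * w ^ N) := by ring
        _ = _ := by rw [hpow, mul_one]
    have h3 := mul_le_mul_of_nonneg_right h2 (show 0 ≤ 1 / (600 * Λ ^ 2) by positivity)
    have h4 : w ^ (N + 2) * c0 = w ^ (N + 2) * (1 / S) * (1 / (600 * Λ ^ 2)) := by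
      rw [hc0]; field_simp
    have h5 : s * w ^ 2 * (1 / (300 * Λ ^ 2)) = 2 * (s * w ^ 2 * (1 / (600 * Λ ^ 2))) := by ring
    linarith
  have hup : E4 / η1 * (t * w + t⁻¹) + E2 * w < c0 := by
    have h1 : E4 / η1 * t⁻¹ ≤ c0 / 3 := by
      rw [← div_eq_mul_inv, div_le_div_iff₀ htp (by norm_num)]
      have e : c0 * t = 3 * (E4 / η1) + c0 := by rw [ht]; field_simp
      linarith
    have h2 : (E4 / η1 * t + E2 + 1) * w ≤ c0 / 3 := by
      have h3 : M ≤ lam := by linarith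
      rw [hwdef, mul_one_div, div_le_iff₀ hl]
      rw [hM, div_le_iff₀ hc0p] at h3
      linarith
    linarith
  have hfinal : w ^ (N + 2) * c0 ≤ w ^ (N + 2) * (E4 / η1 * (t * w + t⁻¹) + E2 * w) := by
    have e : E2 * w ^ (N + 3) = w ^ (N + 2) * (E2 * w) := by ring
    calc w ^ (N + 2) * c0 ≤ |Ig + Ih| + |Ig| := by linarith
      _ ≤ E4 / η1 * w ^ (N + 2) * (t * w + t⁻¹) + E2 * w ^ (N + 3) := add_le_add hsum b1
      _ = _ := by rw [e]; ring
  have := mul_lt_mul_of_pos_left hup (show 0 < w ^ (N + 2) by positivity)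
  linarith

/-- The detection step. -/
theorem core (hb : BootSpec) : CoreSpec := by
  intro L N hN
  obtain ⟨δ, η0, hδ, hη0, key⟩ := core_dyadic hb L N hN
  refine ⟨δ, η0, hδ, hη0, ?_⟩
  intro η1 S hη1 hS
  suffices h : ∀ (M : ℕ) (η1 : ℝ), 0 < η1 → η0 ≤ 2 ^ M * η1 →
      ∃ lam0 : ℝ, 1 ≤ lam0 ∧ ∀ lam η s : ℝ, lam0 ≤ lam → η1 ≤ η → η ≤ η0 →
        S⁻¹ ≤ s * lam ^ N → s * lam ^ N ≤ S → ∀ (Hb Hs : V6 → ℝ) (x q : P2 → ℝ),
        HFam L δ s lam Hb Hs → Sol η δ (fun u => Hb u + Hs u) x q → False by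
    obtain ⟨M, hM⟩ := pow_unbounded_of_one_lt (η0 / η1) (one_lt_two (α := ℝ))
    exact h M η1 hη1 (by rw [div_lt_iff₀ hη1] at hM; exact hM.le)
  intro M
  induction M with
  | zero =>
    intro η1 hη1 hM
    rw [pow_zero, one_mul] at hM
    rcases eq_or_lt_of_le hM with h | h
    · obtain ⟨l1, hl1, h1⟩ := key η1 S hη1 h.ge hS
      exact ⟨l1, hl1, fun lam η s a b c d e => h1 lam η s a b (by linarith) c d e⟩
    · exact ⟨1, le_rfl, fun lam η s a b c => absurd (b.trans c) (not_le.2 h)⟩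
  | succ M ih =>
    intro η1 hη1 hM
    obtain ⟨l2, hl2, h2⟩ := ih (2 * η1) (by linarith) (by rw [pow_succ] at hM; linarith)
    rcases le_or_gt η1 η0 with h | h
    · obtain ⟨l1, hl1, h1⟩ := key η1 S hη1 h hS
      refine ⟨max l1 l2, hl1.trans (le_max_left _ _), fun lam η s a b c d e => ?_⟩
      rcases le_or_gt η (2 * η1) with h' | h'
      · exact h1 lam η s ((le_max_left _ _).trans a) b h' c d e
      · exact h2 lam η s ((le_max_right _ _).trans a) h'.le c d e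
    · exact ⟨1, le_rfl, fun lam η s a b c => absurd (b.trans c) (not_le.2 h)⟩

end Vale.Agent.P229.Detect
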