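import Vale.Agent.P229.PrepTools

/-
P229: pointwise facts about the nonlinearity along a normalised solution.
-/

namespace Vale.Agent.P229

open scoped ContDiff
open Set Filter Topology

lemma smooth_H0 : ContDiff ℝ ∞ H0 := by unfold H0; fun_prop

lemma fderiv_H0 (u v : V6) :
    fderiv ℝ H0 u v = 2 * u 2 * u 4 * v 2 + 2 * u 1 * u 4 * v 1
      + (u 2 ^ 2 + u 1 ^ 2 - 1) * v 4 := by
  have h : ∀ i : Fin 6, HasFDerivAt (fun w : V6 => w i)
      (ContinuousLinearMap.proj (R := ℝ) (φ := fun _ : Fin 6 => ℝ) i) u := fun i =>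
    hasFDerivAt_apply i u
  have h1 : HasFDerivAt H0 _ u := ((((h 2).pow 2).add ((h 1).pow 2)).sub_const 1).mul (h 4)
  rw [h1.fderiv]
  simp
  ring

/-- The difference between the nonlinearity and its model. -/
noncomputable def dev (Hb Hs : V6 → ℝ) (u : V6) : ℝ := Hb u + Hs u - H0 u

/-- Hypotheses at one point. -/
structure Pt (L : ℕ → ℝ) (j : ℕ) (δ M η s lam : ℝ) (Hb Hs : V6 → ℝ) (x q : P2 → ℝ) (z : P2) :
    Prop where
  hη : 0 < η
  η1 : η ≤ 1
  hl : 1 ≤ lam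
  hs : 0 ≤ s
  hδ : δ ≤ 1 / 4
  small : ∀ m ≤ j / 2 + 6, s * lam ^ m ≤ δ
  fam : HFam L δ s lam Hb Hs
  sol : Sol η δ (fun u => Hb u + Hs u) x q
  mem : z ∈ Box
  low : ∀ i ≤ j / 2 + 6, ‖iteratedFDeriv ℝ i x z‖ ≤ M ∧ ‖iteratedFDeriv ℝ i q z‖ ≤ M

variable {L : ℕ → ℝ} {j : ℕ} {δ η s lam : ℝ} {Hb Hs H : V6 → ℝ} {x q : P2 → ℝ} {z : P2}

lemma Sol.delta_nonneg (hS : Sol η δ H x q) : 0 ≤ δ :=
  (norm_nonneg _).trans (hS.closeq 0 (by norm_num) (0, 0) (by simp [Box]))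

lemma HFam.smH (hF : HFam L δ s lam Hb Hs) : ContDiff ℝ ∞ fun u => Hb u + Hs u :=
  hF.smb.add hF.sms

/-- Closeness of `x` to the first coordinate and smallness of `q`. -/
lemma near (hS : Sol η δ H x q) (hz : z ∈ Box) :
    |x z - z.1| ≤ δ ∧ |dp x z - 1| ≤ δ ∧ |dy x z| ≤ δ ∧ |q z| ≤ δ
      ∧ ‖iteratedFDeriv ℝ 1 q z‖ ≤ δ ∧ ‖iteratedFDeriv ℝ 1 x z‖ ≤ 1 + δ
      ∧ ‖iteratedFDeriv ℝ 2 x z‖ ≤ 1 + δ := by
  have hx := hS.smx
  have h0 := hS.closex 0 (by norm_num) z hz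
  rw [norm_iteratedFDeriv_zero, Real.norm_eq_abs] at h0
  have h1 := hS.closex 1 (by norm_num) z hz
  have hd : fderiv ℝ (fun v : P2 => x v - v.1) z = fderiv ℝ x z - ContinuousLinearMap.fst ℝ ℝ ℝ := by
    rw [fderiv_fun_sub (hx.differentiable (by simp)).differentiableAt differentiableAt_fst, fderiv_fst]
  have ha := (abs_fderiv_apply_le (fun v : P2 => x v - v.1) z (1, 0) norm_e1.le).trans h1
  have hb := (abs_fderiv_apply_le (fun v : P2 => x v - v.1) z (0, 1) norm_e2.le).trans h1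
  rw [hd] at ha hb
  have hq0 := hS.closeq 0 (by norm_num) z hz
  rw [norm_iteratedFDeriv_zero, Real.norm_eq_abs] at hq0
  have hx12 : ∀ m, m < 2 → ‖iteratedFDeriv ℝ (m + 1) x z‖ ≤ 1 + δ := by
    intro m hm
    have hc := hS.closex (m + 1) (by omega) z hz
    have e : iteratedFDeriv ℝ (m + 1) (fun v : P2 => x v - v.1) z
        = iteratedFDeriv ℝ (m + 1) x z - iteratedFDeriv ℝ (m + 1) (fun v : P2 => v.1) z :=
      iteratedFDeriv_sub_apply (hx.of_le (by norm_cast; simp)).contDiffAt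
        (contDiff_fst.contDiffAt)
    rw [e] at hc
    have hf := norm_clm_iter (ContinuousLinearMap.fst ℝ ℝ ℝ)
      (ContinuousLinearMap.norm_fst_le ℝ ℝ ℝ) m z
    have := norm_le_norm_sub_add (iteratedFDeriv ℝ (m + 1) x z)
      (iteratedFDeriv ℝ (m + 1) (fun v : P2 => v.1) z)
    have : ‖iteratedFDeriv ℝ (m + 1) (fun v : P2 => v.1) z‖ ≤ 1 := hf
    linarith
  exact ⟨h0, by simpa [dp] using ha, by simpa [dy] using hb, hq0,
    hS.closeq 1 (by norm_num) z hz, hx12 0 (by norm_num), hx12 1 (by norm_num)⟩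

lemma jet_ball (hS : Sol η δ H x q) (hδ : δ ≤ 1 / 4) (hz : z ∈ Box) : ‖jet x q z‖ ≤ 4 := by
  obtain ⟨a1, a2, a3, a4, -, -, -⟩ := near hS hz
  obtain ⟨b1, b2⟩ := hz
  rw [abs_le] at a1 a2 a3 a4
  rw [abs_lt] at b1 b2
  refine (pi_norm_le_iff_of_nonneg (by norm_num)).2 fun i => ?_
  fin_cases i <;> simp [jet, abs_le] <;> constructor <;> linarith

lemma jet_one (hS : Sol η δ H x q) (hδ : δ ≤ 1 / 4) (hz : z ∈ Box) :
    ‖iteratedFDeriv ℝ 1 (jet x q) z‖ ≤ 4 := by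
  obtain ⟨-, -, -, -, a5, a6, a7⟩ := near hS hz
  have h := norm_jet_le hS.smx hS.smq (le_refl 1) z
  rw [show (1 + 1 : ℕ) = 2 from rfl] at h
  linarith

/-- Off the strip neighbourhood of the blob the added term vanishes near the jet. -/
lemma blob_off (hF : HFam L δ s lam Hb Hs) (hS : Sol η δ H x q) (hδ : δ ≤ 1 / 4) (hl : 1 ≤ lam)
    (hz : z ∈ Box) (h : blobInd lam z = 0) (m : ℕ) :
    iteratedFDeriv ℝ m Hs (jet x q z) = 0 := by
  have hout : 1 < lam * |x z| ∨ 1 < lam * |z.2| := by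
    by_contra hc
    push Not at hc
    obtain ⟨hx1, hy1⟩ := hc
    have hδ0 := hS.delta_nonneg
    have hcv : Convex ℝ Box := by
      have e : Box = Ioo (-3 : ℝ) 3 ×ˢ Ioo (-3 : ℝ) 3 := by
        ext w; simp [Box, abs_lt]
      rw [e]; exact (convex_Ioo _ _).prod (convex_Ioo _ _)
    have hm := hcv.norm_image_sub_le_of_norm_fderiv_le (f := fun v : P2 => x v - v.1)
      (fun v _ => ((hS.smx.differentiable (by simp)).sub differentiable_fst).differentiableAt)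
      (fun v hv => by
        have := hS.closex 1 (by norm_num) v hv
        rwa [norm_iteratedFDeriv_one] at this)
      (show ((0 : ℝ), (0 : ℝ)) ∈ Box by simp [Box]) hz
    rw [Real.norm_eq_abs, hS.x0] at hm
    simp only [sub_zero, Prod.mk_zero_zero] at hm
    have hlp : 0 < lam := by linarith
    have hnz : ‖z‖ ≤ |z.1| + |z.2| := by
      rw [Prod.norm_def]; simp
    have h1 : |z.1| ≤ |x z| + δ * (|z.1| + |z.2|) := by
      have := abs_sub_abs_le_abs_sub z.1 (x z)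
      rw [abs_sub_comm] at this
      nlinarith
    have h2 : lam * |z.1| ≤ 2 := by
      have := mul_le_mul_of_nonneg_left h1 hlp.le
      nlinarith [abs_nonneg z.1, abs_nonneg z.2]
    have : blobInd lam z = 1 := by
      have hm : z ∈ {v : P2 | |v.1| ≤ 2 / lam ∧ |v.2| ≤ 1 / lam} :=
        ⟨by rw [le_div_iff₀ hlp]; linarith, by rw [le_div_iff₀ hlp]; linarith⟩
      exact Set.indicator_of_mem hm (fun _ => (1 : ℝ))
    linarith
  have ho : IsOpen {u : V6 | 1 < lam * |u 2| ∨ 1 < lam * |u 1|} :=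
    (isOpen_lt (f := fun _ : V6 => (1 : ℝ)) (g := fun u => lam * |u 2|) continuous_const
      (by fun_prop)).union (isOpen_lt (f := fun _ : V6 => (1 : ℝ)) (g := fun u => lam * |u 1|)
      continuous_const (by fun_prop))
  have he : Hs =ᶠ[𝓝 (jet x q z)] fun _ => 0 :=
    Filter.eventuallyEq_of_mem (ho.mem_nhds (by simpa [jet] using hout)) fun u hu => hF.supp u hu
  rw [(he.iteratedFDeriv ℝ m).eq_of_nhds]
  simp

lemma norm_H_le (hF : HFam L δ s lam Hb Hs) (hS : Sol η δ H x q) (hδ : δ ≤ 1 / 4) (hl : 1 ≤ lam)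
    (hs : 0 ≤ s) (hz : z ∈ Box) (m : ℕ) :
    ‖iteratedFDeriv ℝ m (fun u => Hb u + Hs u) (jet x q z)‖
      ≤ |L m| * (1 + blobInd lam z * (s * lam ^ m)) := by
  have hm : (m : WithTop ℕ∞) ≤ ∞ := by norm_cast; simp
  rw [show (fun u => Hb u + Hs u) = Hb + Hs from rfl,
    iteratedFDeriv_add_apply (hF.smb.of_le hm).contDiffAt (hF.sms.of_le hm).contDiffAt]
  refine (norm_add_le _ _).trans ?_
  have h1 := (hF.bnd m (jet x q z)).trans (le_abs_self _)
  have h2 : ‖iteratedFDeriv ℝ m Hs (jet x q z)‖ ≤ |L m| * (blobInd lam z * (s * lam ^ m)) := by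
    by_cases h : blobInd lam z = 0
    · rw [blob_off hF hS hδ hl hz h m, h]; simp
    · have : blobInd lam z = 1 := by
        unfold blobInd Set.indicator at h ⊢; split at h
        · simp_all
        · simp at h
      rw [this, one_mul]
      exact (hF.bndS m _).trans (mul_le_mul_of_nonneg_right (le_abs_self _)
        (mul_nonneg hs (by positivity)))
  linarith

lemma dev_le (hF : HFam L δ s lam Hb Hs) (hs : 0 ≤ s) (hl : 1 ≤ lam) (h1 : s * lam ≤ δ)
    (h2 : s * lam ^ 2 ≤ δ) {u : V6} (hu : ‖u‖ ≤ 4) :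
    ‖fderiv ℝ (dev Hb Hs) u‖ ≤ δ * (1 + |L 1|) ∧
      ‖iteratedFDeriv ℝ 2 (dev Hb Hs) u‖ ≤ δ * (1 + |L 2|) := by
  have hb := hF.smb
  have hsm := hF.sms
  have hδ : 0 ≤ δ := le_trans (by positivity) h1
  have e : dev Hb Hs = fun w => (Hb w - H0 w) + Hs w := by funext w; simp [dev]; ring
  have d : ∀ {f : V6 → ℝ}, ContDiff ℝ ∞ f → DifferentiableAt ℝ f u := fun hf =>
    (hf.differentiable (by simp)).differentiableAt
  constructor
  · rw [e, fderiv_fun_add ((d hb).fun_sub (d smooth_H0)) (d hsm), fderiv_fun_sub (d hb) (d smooth_H0)]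
    refine (norm_add_le _ _).trans ?_
    have a := hF.close1 u hu
    have b := hF.bndS 1 u
    rw [norm_iteratedFDeriv_one, pow_one] at b
    have c : L 1 * (s * lam) ≤ |L 1| * δ :=
      mul_le_mul (le_abs_self _) h1 (by positivity) (abs_nonneg _)
    linarith
  · have k2 : (2 : WithTop ℕ∞) ≤ ∞ := by norm_cast
    rw [e, show (fun w => (Hb w - H0 w) + Hs w) = (Hb - H0) + Hs from rfl,
      iteratedFDeriv_add_apply (f := Hb - H0) ((hb.sub smooth_H0).of_le k2).contDiffAt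
        (hsm.of_le k2).contDiffAt,
      iteratedFDeriv_sub_apply (hb.of_le k2).contDiffAt (smooth_H0.of_le k2).contDiffAt]
    refine (norm_add_le _ _).trans ?_
    have a := hF.close2 u hu
    have b := hF.bndS 2 u
    have c : L 2 * (s * lam ^ 2) ≤ |L 2| * δ :=
      mul_le_mul (le_abs_self _) h2 (by positivity) (abs_nonneg _)
    linarith

lemma dder (hx : ContDiff ℝ ∞ x) (hq : ContDiff ℝ ∞ q) (hH : ContDiff ℝ ∞ H) (i : Fin 6)
    (z v : P2) (hv : ‖v‖ ≤ 1) :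
    |fderiv ℝ (hDer H x q i) z v|
      ≤ ‖iteratedFDeriv ℝ 2 H (jet x q z)‖ * ‖iteratedFDeriv ℝ 1 (jet x q) z‖ := by
  have hJ := (smooth_jet hx hq).differentiable (by simp) z
  have hF : ContDiff ℝ ∞ (fderiv ℝ H) := hH.fderiv_right (by simp)
  have hF' := hF.differentiable (by simp) (jet x q z)
  have e : fderiv ℝ (hDer H x q i) z v
      = fderiv ℝ (fderiv ℝ H) (jet x q z) (fderiv ℝ (jet x q) z v) (Pi.single i 1) := by
    have h1 : hDer H x q i = fun w => (fderiv ℝ H ∘ jet x q) w (Pi.single i 1) := rfl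
    rw [h1, fderiv_clm_apply (hF'.comp z hJ) (differentiableAt_const _), fderiv_comp z hF' hJ]
    simp
  have n1 : ‖fderiv ℝ (fderiv ℝ H) (jet x q z)‖ = ‖iteratedFDeriv ℝ 2 H (jet x q z)‖ := by
    rw [← norm_iteratedFDeriv_one, norm_iteratedFDeriv_fderiv]
  have n2 : ‖(Pi.single i 1 : V6)‖ ≤ 1 := by
    refine (pi_norm_le_iff_of_nonneg zero_le_one).2 fun k => ?_
    by_cases h : k = i
    · subst h; simp
    · simp [h]
  rw [e, ← Real.norm_eq_abs, ← n1, norm_iteratedFDeriv_one]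
  have p1 := (fderiv ℝ (fderiv ℝ H) (jet x q z) (fderiv ℝ (jet x q) z v)).le_opNorm (Pi.single i 1)
  have p2 := (fderiv ℝ (fderiv ℝ H) (jet x q z)).le_opNorm (fderiv ℝ (jet x q) z v)
  have p3 := (fderiv ℝ (jet x q) z).le_opNorm v
  refine p1.trans ((mul_le_of_le_one_right (norm_nonneg _) n2).trans (p2.trans ?_))
  exact mul_le_mul_of_nonneg_left (p3.trans (mul_le_of_le_one_right (norm_nonneg _) hv))
    (norm_nonneg _)

lemma hDer_split (hb : ContDiff ℝ ∞ Hb) (hs : ContDiff ℝ ∞ Hs) (i : Fin 6) :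
    hDer (fun u => Hb u + Hs u) x q i
      = fun v => hDer H0 x q i v + hDer (dev Hb Hs) x q i v := by
  funext v
  have h0 := smooth_H0.differentiable (by simp) (jet x q v)
  have h1 := (hb.add hs).differentiable (by simp) (jet x q v)
  unfold hDer dev
  rw [fderiv_fun_sub h1 h0]
  simp

lemma hDer_H0 (i : Fin 6) (v : P2) : hDer H0 x q i v
    = 2 * x v * dp x v * (Pi.single i 1 : V6) 2 + 2 * v.2 * dp x v * (Pi.single i 1 : V6) 1
      + (x v ^ 2 + v.2 ^ 2 - 1) * (Pi.single i 1 : V6) 4 := by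
  unfold hDer
  rw [fderiv_H0]
  simp [jet]

lemma fderiv_base (hx : DifferentiableAt ℝ x z) (v : P2) :
    fderiv ℝ (fun w : P2 => x w ^ 2 + w.2 ^ 2 - 1) z v
      = 2 * x z * fderiv ℝ x z v + 2 * z.2 * v.2 := by
  have h1 : HasFDerivAt (fun w : P2 => x w ^ 2 + w.2 ^ 2 - 1) _ z :=
    ((hx.hasFDerivAt.pow 2).add ((hasFDerivAt_snd (p := z)).pow 2)).sub_const 1
  rw [h1.fderiv]
  simp

end Vale.Agent.P229
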