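import Vale.Agent.P229.Spec
import Vale.Agent.P229.Edge.Geom

/-
P229: proof of `EdgeSpec`.
-/

namespace Vale.Agent.P229

open MeasureTheory Edge

namespace EdgeProof

/-- The radial cutoff of the island. -/
noncomputable def phi : ContDiffBump (0 : ℝ) := ⟨2.2, 2.8, by norm_num, by norm_num⟩

/-- The radial cutoff of the island on the plane. -/
noncomputable def chi (z : P2) : ℝ := phi (rsq z)

lemma contDiff_rsq : ContDiff ℝ 1 rsq := by
  unfold rsq; fun_prop

lemma rsq_nonneg (z : P2) : 0 ≤ rsq z := by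
  unfold rsq; positivity

lemma pd_radial {f : ℝ → ℝ} {z : P2} (hf : DifferentiableAt ℝ f (rsq z)) :
    PD (fun v => f (rsq v)) z (deriv f (rsq z) * (2 * z.1)) (deriv f (rsq z) * (2 * z.2)) := by
  have h : PD rsq z _ _ := ((PD.fst.mul PD.fst).add (PD.snd.mul PD.snd)).cast
    (u' := 2 * z.1) (v' := 2 * z.2) (by ring) (by ring) |> fun h => by
      have e : rsq = fun v : P2 => v.1 * v.1 + v.2 * v.2 := by funext v; simp [rsq]; ring
      rw [e]; exact h
  exact PD.comp hf.hasDerivAt h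

lemma coord_le {z : P2} {r : ℝ} (h : rsq z ≤ r ^ 2) (hr : 0 ≤ r) : |z.1| ≤ r ∧ |z.2| ≤ r := by
  simp only [rsq] at h
  refine ⟨abs_le_of_sq_le_sq ?_ hr, abs_le_of_sq_le_sq ?_ hr⟩ <;>
    nlinarith [sq_nonneg z.1, sq_nonneg z.2]

lemma bump_deriv_zero {c : ℝ} (f : ContDiffBump c) {s : ℝ} (hs : f.rOut < |s - c|) :
    f s = 0 ∧ deriv f s = 0 := by
  have h0 : f s = 0 := f.zero_of_le_dist (by rw [Real.dist_eq]; exact hs.le)
  refine ⟨h0, ?_⟩
  have : s ∉ tsupport f := by
    rw [f.tsupport_eq, Metric.mem_closedBall, Real.dist_eq]; exact not_le.2 hs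
  exact image_eq_zero_of_notMem_tsupport fun hd => this (tsupport_deriv_subset hd)

lemma phi_inner {s : ℝ} (hs : |s| < 2.2) : deriv phi s = 0 := by
  have h : (phi : ℝ → ℝ) =ᶠ[nhds s] fun _ => 1 := by
    filter_upwards [(isOpen_lt continuous_abs continuous_const).mem_nhds hs] with t ht
    exact phi.one_of_mem_closedBall (by
      rw [Metric.mem_closedBall, Real.dist_eq, sub_zero]; exact ht.le)
  rw [h.deriv_eq, deriv_const]

lemma bump_bound {c : ℝ} (f : ContDiffBump c) : ∃ P, 0 ≤ P ∧ ∀ s, |deriv f s| ≤ P := by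
  have h : ContDiff ℝ 1 f := f.contDiff
  obtain ⟨P, hP⟩ := f.hasCompactSupport.deriv.exists_bound_of_continuous
    (h.continuous_deriv le_rfl)
  exact ⟨max P 0, le_max_right _ _, fun s => le_trans (hP s) (le_max_left _ _)⟩

lemma radial_deriv_le {c P : ℝ} (f : ContDiffBump c) (hP : ∀ s, |deriv f s| ≤ P) {z : P2}
    (hz : rsq z ≤ 4) :
    |dp (fun v => f (rsq v)) z| ≤ P * (2 * 2) ∧ |dy (fun v => f (rsq v)) z| ≤ P * (2 * 2) := by
  have h := pd_radial (z := z) ((f.contDiff (n := 1)).differentiable one_ne_zero (rsq z))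
  obtain ⟨h1, h2⟩ := coord_le (z := z) (r := 2) (by linarith) (by norm_num)
  rw [h.dp_eq, h.dy_eq]
  have e2 : |(2 : ℝ)| ≤ 2 := by norm_num
  exact ⟨abs_mul' (hP _) (abs_mul' e2 h1), abs_mul' (hP _) (abs_mul' e2 h2)⟩

variable {g Γ η θ t t' e : ℝ} {κ ν G G1 R w : P2 → ℝ}

lemma coef_bounds {δ : ℝ} (hg : 2 ≤ g) (hΓ : 0 ≤ Γ) (hδ : δ ≤ 1 / 10000)
    (hc : CoefClose δ Γ g κ ν G G1) {z : P2} (hz : rsq z ≤ 4) :
    |G z| ≤ Γ + 4 * g + 4 ∧ |G1 z| ≤ Γ + 4 * g + 4 ∧ |κ z| ≤ 4 ∧ |dp κ z| ≤ 5 ∧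
      |ν z| ≤ 1 / 10000 ∧ |dy ν z| ≤ 1 / 10000 := by
  obtain ⟨h1, h2, -, h4, -, h6, h7, h8⟩ := hc z hz
  obtain ⟨hp, -⟩ := coord_le (z := z) (r := 2) (by linarith) (by norm_num)
  have := rsq_nonneg z
  have hgp := abs_mul' (abs_mul' (show |(2 : ℝ)| ≤ 2 by norm_num)
    (abs_of_nonneg (show 0 ≤ g by linarith)).le) hp
  rw [abs_le] at h1 h2 hp hgp h7
  refine ⟨?_, le_trans h8 (by linarith), ?_, ?_, h4.trans hδ, h6.trans hδ⟩ <;>
    rw [abs_le] <;> constructor <;> linarith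

/-- The pointwise bound for the island multiplier. -/
lemma island_point {δ B P ym yp A A' : ℝ} (hg : 2 ≤ g) (hΓ : 0 ≤ Γ)
    (hB : B = Γ + 4 * g + 4) (hδ : δ ≤ 1 / 10000) (hη : 0 < η)
    (hηB : η * B ^ 2 ≤ 1 / 1000000) (hθg : g * |e| ≤ 1 / 300) (he : |e| ≤ 1 / 100)
    (hη' : η ≤ θ) (hP : ∀ s, |deriv phi s| ≤ P)
    (hc : CoefClose δ Γ g κ ν G G1) (hk : ContDiff ℝ 1 κ) (hn : ContDiff ℝ 1 ν)
    (hE : EdgeData η δ e κ ν ym yp A A') (z : P2) :
    η / 640 * (θ / 2) ^ 4 * Set.indicator {v | rsq v ≤ 2.1 ∧ v.1 < e - θ}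
        (fun v => dp w v ^ 2 + dy w v ^ 2) z
      - 1000 * (P * (2 * 2)) * Set.indicator {v | 2.2 ≤ rsq v ∧ rsq v ≤ 2.8}
          (fun v => dp w v ^ 2 + dy w v ^ 2) z
      - (20000000 * B ^ 2 + 1000 * (P * (2 * 2))) * Set.indicator
          {v | rsq v ≤ 2.8 ∧ v.1 ≤ edge e ym yp A A' v.2} (fun v => w v ^ 2 + R v ^ 2) z
      ≤ qform η κ ν G G1 R w (fun v => chi v * islB η (edge e ym yp A A') ν v)
          (fun v => chi v * islG (edge e ym yp A A') v)
          (fun v => chi v * islT η (edge e ym yp A A') κ ν v) z := by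
  set E := edge e ym yp A A' with hE'
  have hEc : ContDiff ℝ 1 E := by rw [hE']; unfold edge; fun_prop
  obtain ⟨cb, cg, ct⟩ := contDiff_island (η := η) hEc hk hn
  have hχc : ContDiff ℝ 1 chi := phi.contDiff.comp contDiff_rsq
  have dk := (hk.differentiable one_ne_zero) z
  have dn := (hn.differentiable one_ne_zero) z
  have dχ := (hχc.differentiable one_ne_zero) z
  rw [qform_eq (b := fun v => chi v * islB η E ν v) (γ := fun v => chi v * islG E v)
      (τ := fun v => chi v * islT η E κ ν v) dk dn ((dχ.mul ((cb.differentiable one_ne_zero) z)))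
      (dχ.mul ((cg.differentiable one_ne_zero) z)) (dχ.mul ((ct.differentiable one_ne_zero) z)),
    toMu_cut dχ ((cb.differentiable one_ne_zero) z) ((cg.differentiable one_ne_zero) z)
      ((ct.differentiable one_ne_zero) z),
    toMu_island (G := G) (G1 := G1) (hasDerivAt_edge z.2) dk dn, form_cut]
  have hpd : PD chi z _ _ := pd_radial (f := phi)
    ((phi.contDiff (n := 1)).differentiable one_ne_zero (rsq z))
  have hB1 : 1 ≤ B := by linarith
  have hη1 : η ≤ 1 / 1000000 := le_trans (le_mul_of_one_le_right hη.le (one_le_pow₀ hB1)) hηB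
  have hθ0 : 0 ≤ θ := hη.le.trans hη'
  have hP0 : 0 ≤ P := (abs_nonneg _).trans (hP 0)
  have nn1 : ∀ v, 0 ≤ dp w v ^ 2 + dy w v ^ 2 := fun v => by positivity
  have nn2 : ∀ v, 0 ≤ w v ^ 2 + R v ^ 2 := fun v => by positivity
  set ind1 := Set.indicator {v | rsq v ≤ 2.1 ∧ v.1 < e - θ}
    (fun v => dp w v ^ 2 + dy w v ^ 2) z with hi1
  set ind2 := Set.indicator {v | 2.2 ≤ rsq v ∧ rsq v ≤ 2.8}
    (fun v => dp w v ^ 2 + dy w v ^ 2) z with hi2
  set ind3 := Set.indicator {v | rsq v ≤ 2.8 ∧ v.1 ≤ E v.2} (fun v => w v ^ 2 + R v ^ 2) z with hi3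
  have i2 : 0 ≤ ind2 := Set.indicator_nonneg (fun v _ => nn1 v) z
  have i3 : 0 ≤ ind3 := Set.indicator_nonneg (fun v _ => nn2 v) z
  have hzero : ∀ x, x = 0 → ind1 = 0 →
      η / 640 * (θ / 2) ^ 4 * ind1 - 1000 * (P * (2 * 2)) * ind2
        - (20000000 * B ^ 2 + 1000 * (P * (2 * 2))) * ind3 ≤ x := by
    intro x hx h1
    rw [hx, h1]
    have h2 := mul_nonneg (show 0 ≤ 1000 * (P * (2 * 2)) by positivity) i2
    have h3 := mul_nonneg (show 0 ≤ 20000000 * B ^ 2 + 1000 * (P * (2 * 2)) by positivity) i3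
    linarith
  rcases lt_or_ge (2.8 : ℝ) (rsq z) with hr | hr
  · obtain ⟨z1, z2⟩ := bump_deriv_zero phi (s := rsq z) (by
      rw [sub_zero, abs_of_nonneg (rsq_nonneg z)]; exact hr)
    refine hzero _ ?_ (Set.indicator_of_notMem (fun h => by
      have := h.1; norm_num at this hr; linarith) _)
    rw [hpd.dp_eq, hpd.dy_eq, z2, show chi z = 0 from z1]
    simp [form, derMu]
  have hy17 : |z.2| ≤ 1.7 := (coord_le (r := 1.7) (by norm_num at hr ⊢; linarith) (by norm_num)).2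
  have hp17 : |z.1| ≤ 1.7 := (coord_le (r := 1.7) (by norm_num at hr ⊢; linarith) (by norm_num)).1
  obtain ⟨-, -, hh9⟩ := hE.height hy17
  have hδ0 : 0 ≤ δ := (abs_nonneg _).trans (hc z (by norm_num at hr ⊢; linarith)).2.2.2.1
  have hηδ : 9 * η * δ ≤ η / 1000 := by linarith [mul_le_mul_of_nonneg_left hδ hη.le]
  have hEh := hh9.trans hηδ
  rcases lt_or_ge (E z.2) z.1 with hout | hin
  · refine hzero _ ?_ (Set.indicator_of_notMem (fun h => by
      have := h.2; rw [abs_le] at hEh; linarith) _)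
    rw [max_eq_right (show E z.2 - z.1 ≤ 0 by linarith)]
    simp [form, derMu, islandMu]
  set ζ := E z.2 - z.1 with hζ
  have hζ0 : 0 ≤ ζ := sub_nonneg.2 hin
  rw [max_eq_left hζ0]
  have hζ2 : ζ ≤ 2 := by
    rw [abs_le] at hEh hp17 he; norm_num at hp17; linarith
  have hI : IslandHyp B η (1 / 1000) g z.1 z.2 (toCo κ ν G G1 z) := by
    have hr4 : rsq z ≤ 4 := by norm_num at hr ⊢; linarith
    obtain ⟨h1, h2, h3, h4, h5, h6, h7, h8⟩ := hc z hr4
    obtain ⟨hGB, hG1B, -⟩ := coef_bounds hg hΓ hδ hc hr4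
    have hd : δ ≤ 1 / 1000 := by linarith
    refine ⟨hB1, hη, hηB, le_rfl, hg, ?_, hp17, hy17, hr, h1.trans hd, h2.trans hd, h3.trans hd,
      h4.trans hd, h5.trans hd, h6.trans hd, h7.trans hd, hB ▸ hGB, hB ▸ hG1B⟩
    have hg' : g * η ≤ B ^ 2 * η := mul_le_mul_of_nonneg_right (by
      calc g ≤ B := by linarith
        _ ≤ B ^ 2 := by rw [sq]; exact le_mul_of_one_le_left (by linarith) hB1) hη.le
    have hle : z.1 ≤ |e| + η / 1000 := by
      rw [abs_le] at hEh; linarith [le_abs_self e]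
    have := mul_le_mul_of_nonneg_left hle (show 0 ≤ g by linarith)
    linarith
  have hX := slope_error hη hη1 hδ (fun v => hk.differentiable one_ne_zero v)
    (fun v => hn.differentiable one_ne_zero v) hc he hE hr hin
  have hib := island_bound (B := B) hI hζ0 hζ2 hX (dp w z) (dy w z) (w z) (R z)
  obtain ⟨sb, sg, st, -, -⟩ := island_sizes hI hζ0 hζ2 (island_e1 hI hζ2 hX)
  have hz4 : ζ ^ 2 ≤ 4 := by nlinarith
  obtain ⟨hχ1', hχ2'⟩ := radial_deriv_le phi hP (z := z) (by norm_num at hr ⊢; linarith)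
  have hχ1 : |dp chi z| ≤ P * (2 * 2) := hχ1'
  have hχ2 : |dy chi z| ≤ P * (2 * 2) := hχ2'
  have hder := abs_form_derMu (C := toCo κ ν G G1 z) hη (by linarith) hχ1 hχ2
    (sb.trans (by linarith)) (sg.trans (by linarith)) (st.trans (by linarith))
    (hI.hκ2.trans (by norm_num)) (hI.hν1.trans (by norm_num)) (dp w z) (dy w z) (w z) (R z)
  have hi3e : ind3 = w z ^ 2 + R z ^ 2 :=
    Set.indicator_of_mem (s := {v : P2 | rsq v ≤ 2.8 ∧ v.1 ≤ E v.2}) ⟨hr, hin⟩ _
  have hD : -(1000 * (P * (2 * 2)) * ind2) - 1000 * (P * (2 * 2)) * ind3 ≤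
      form η (toCo κ ν G G1 z) (derMu (dp chi z) (dy chi z)
        (islandMu η (toCo κ ν G G1 z) z.2 ζ (edgeD ym yp A A' z.2)))
        (dp w z) (dy w z) (w z) (R z) := by
    rcases lt_or_ge (rsq z) 2.2 with hs | hs
    · have h0 := phi_inner (s := rsq z) (by rw [abs_of_nonneg (rsq_nonneg z)]; exact hs)
      rw [hpd.dp_eq, hpd.dy_eq, h0]
      have h2 := mul_nonneg (show 0 ≤ 1000 * (P * (2 * 2)) by positivity) i2
      have h3 := mul_nonneg (show 0 ≤ 1000 * (P * (2 * 2)) by positivity) i3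
      refine le_trans (show _ ≤ (0 : ℝ) by linarith) (le_of_eq ?_)
      simp [form, derMu]
    · have e2 : ind2 = dp w z ^ 2 + dy w z ^ 2 :=
        Set.indicator_of_mem (s := {v : P2 | 2.2 ≤ rsq v ∧ rsq v ≤ 2.8}) ⟨hs, hr⟩ _
      rw [e2, hi3e]
      have h4 : 0 ≤ 1000 * (P * (2 * 2)) * R z ^ 2 := by positivity
      have := (abs_le.1 hder).1
      linarith
  set Fi := form η (toCo κ ν G G1 z) (islandMu η (toCo κ ν G G1 z) z.2 ζ (edgeD ym yp A A' z.2))
    (dp w z) (dy w z) (w z) (R z)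
  have hχ0 : 0 ≤ chi z := phi.nonneg
  have hχle : chi z ≤ 1 := phi.le_one
  have hK0 : 0 ≤ 20000000 * B ^ 2 * (w z ^ 2 + R z ^ 2) := by positivity
  suffices hM : η / 640 * (θ / 2) ^ 4 * ind1 - 20000000 * B ^ 2 * ind3 ≤ chi z * Fi by linarith
  rw [hi3e]
  by_cases hA : rsq z ≤ 2.1 ∧ z.1 < e - θ
  · have e1 : ind1 = dp w z ^ 2 + dy w z ^ 2 :=
      Set.indicator_of_mem (s := {v : P2 | rsq v ≤ 2.1 ∧ v.1 < e - θ}) hA _
    have hone : chi z = 1 := phi.one_of_mem_closedBall (by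
      rw [Metric.mem_closedBall, Real.dist_eq, sub_zero, abs_of_nonneg (rsq_nonneg z)]
      have := hA.1; norm_num [phi] at this ⊢; linarith)
    have hθ4 : (θ / 2) ^ 4 ≤ ζ ^ 4 := by
      refine pow_le_pow_left₀ (by positivity) ?_ 4
      rw [abs_le] at hEh; linarith [hA.2]
    have := mul_le_mul_of_nonneg_left hθ4
      (show 0 ≤ η / 640 * (dp w z ^ 2 + dy w z ^ 2) by positivity)
    rw [e1, hone, one_mul]
    linarith
  · have e1 : ind1 = 0 :=
      Set.indicator_of_notMem (s := {v : P2 | rsq v ≤ 2.1 ∧ v.1 < e - θ}) hA _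
    have h0 : 0 ≤ η / 640 * (ζ ^ 4 * (dp w z ^ 2 + dy w z ^ 2)) := by positivity
    have := mul_le_mul_of_nonneg_left hib hχ0
    have := mul_le_mul_of_nonneg_right hχle hK0
    have := mul_nonneg hχ0 h0
    rw [e1]
    linarith

/-- The pointwise bound for the ring multiplier. -/
lemma ring_point {δ B P : ℝ} {m : ℝ} (psi : ContDiffBump m) (hm : m = 2.55)
    (hout : psi.rOut < 1.45) (hg : 2 ≤ g) (hΓ : 0 ≤ Γ) (hB : B = Γ + 4 * g + 4)
    (hδ : δ ≤ 1 / 10000) (hη : 0 < η) (hη1 : η ≤ 1) (hP : ∀ s, |deriv psi s| ≤ P)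
    (hc : CoefClose δ Γ g κ ν G G1) (hk : ContDiff ℝ 1 κ) (hn : ContDiff ℝ 1 ν) (z : P2) :
    η / 200 * (psi (rsq z) ^ 2 * (dp w z ^ 2 + dy w z ^ 2))
      - 100 * (12 * (P * (2 * 2)) + 7 * (2 * B)) ^ 2 * Set.indicator
          {v | |rsq v - m| ≤ psi.rOut} (fun v => w v ^ 2 + R v ^ 2) z
      ≤ qform η κ ν G G1 R w (fun _ => 0) (fun _ => 0)
          (fun v => psi (rsq v) * psi (rsq v)) z := by
  have hωc : ContDiff ℝ 1 (fun v => psi (rsq v)) := psi.contDiff.comp contDiff_rsq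
  have dω := (hωc.differentiable one_ne_zero) z
  rw [qform_eq (b := fun _ => 0) (γ := fun _ => 0) (τ := fun v => psi (rsq v) * psi (rsq v))
    (hk.differentiable one_ne_zero z) (hn.differentiable one_ne_zero z)
    (differentiableAt_const _) (differentiableAt_const _) (dω.mul dω), toMu_ring dω]
  rcases lt_or_ge psi.rOut |rsq z - m| with hr | hr
  · obtain ⟨z1, z2⟩ := bump_deriv_zero psi hr
    have hpd := pd_radial (z := z) ((psi.contDiff (n := 1)).differentiable one_ne_zero (rsq z))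
    rw [hpd.dp_eq, hpd.dy_eq, z1, z2, Set.indicator_of_notMem (s := {v : P2 | |rsq v - m| ≤ psi.rOut}) (not_le.2 hr)]
    simp [form, ringMu]
  · have hmem : z ∈ {v : P2 | |rsq v - m| ≤ psi.rOut} := hr
    rw [Set.indicator_of_mem hmem]
    subst hm
    rw [abs_le] at hr
    norm_num at hr hout
    have hr4 : rsq z ≤ 4 := by linarith [hr.2]
    obtain ⟨hGB, hG1B, hκ4, hκp5, hν', hνy'⟩ := coef_bounds hg hΓ hδ hc hr4
    obtain ⟨h1, h2, -⟩ := hc z hr4
    obtain ⟨hωp, hωy⟩ := radial_deriv_le psi hP hr4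
    have hrb := ring_bound (C := toCo κ ν G G1 z) (ω := psi (rsq z))
      (ωp := dp (fun v => psi (rsq v)) z) (ωy := dy (fun v => psi (rsq v)) z) (B := 2 * B)
      (W := P * (2 * 2)) hη hη1
      (by rw [abs_le] at h1; simp only [toCo]; norm_num; linarith)
      (hν'.trans (by norm_num)) (by rw [abs_of_nonneg psi.nonneg]; exact psi.le_one)
      (by linarith) ((abs_nonneg _).trans hωp) hωp hωy hκ4
      hκp5
      (hνy'.trans (by norm_num)) (hGB.trans (by linarith)) (hG1B.trans (by linarith))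
      (dp w z) (dy w z) (w z) (R z)
    exact le_trans (le_of_eq (by ring)) hrb

lemma measurableSet_reg (u a : ℝ) : MeasurableSet (Reg u a) := by
  have h := contDiff_rsq.continuous.measurable
  exact (measurableSet_lt h measurable_const).inter
    ((measurableSet_lt measurable_const h).union (measurableSet_lt measurable_fst measurable_const))

lemma mem_ball_of_rsq {v : P2} (hv : rsq v ≤ 4) : v ∈ Metric.closedBall (0 : P2) 2 := by
  rw [Metric.mem_closedBall, dist_zero_right, Prod.norm_def, Real.norm_eq_abs, Real.norm_eq_abs]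
  obtain ⟨h1, h2⟩ := coord_le (r := 2) (z := v) (by linarith) (by norm_num)
  exact max_le h1 h2

lemma integrable_reg {φ : P2 → ℝ} (hφ : Continuous φ) {u : ℝ} (a : ℝ) (hu : 0 ≤ u) :
    Integrable ((Reg u a).indicator φ) := by
  rw [integrable_indicator_iff (measurableSet_reg u a)]
  exact IntegrableOn.mono_set (hφ.continuousOn.integrableOn_compact
    (isCompact_closedBall (0 : P2) 2)) fun v hv => mem_ball_of_rsq (by have := hv.1; linarith)

lemma support_in {f : P2 → ℝ} {S : Set P2} (hS : IsClosed S) (hS4 : ∀ v ∈ S, rsq v ≤ 4)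
    (hf : ∀ v, v ∉ S → f v = 0) : HasCompactSupport f ∧ tsupport f ⊆ S := by
  have hsub : tsupport f ⊆ S := closure_minimal (fun v hv => by
    by_contra h; exact hv (hf v h)) hS
  exact ⟨(isCompact_closedBall (0 : P2) 2).of_isClosed_subset (isClosed_tsupport f)
    fun v hv => mem_ball_of_rsq (hS4 v (hsub hv)), hsub⟩

/-- The closed set carrying the island multipliers. -/
def supI (E : ℝ → ℝ) : Set P2 := {v | rsq v ≤ 2.8 ∧ v.1 ≤ E v.2}

lemma isl_integral {E : ℝ → ℝ} (hEc : ContDiff ℝ 1 E) (hk : ContDiff ℝ 1 κ) (hn : ContDiff ℝ 1 ν)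
    (hw : ContDiff ℝ 2 w) (heq : ∀ v ∈ supI E, dy (dy w) v
      + η * (κ v * dp (dp w) v + ν v * dy (dp w) v + G v * dp w v + G1 v * dy w v + R v) = 0) :
    Integrable (qform η κ ν G G1 R w (fun v => chi v * islB η E ν v) (fun v => chi v * islG E v)
        (fun v => chi v * islT η E κ ν v)) ∧
      ∫ v, qform η κ ν G G1 R w (fun v => chi v * islB η E ν v) (fun v => chi v * islG E v)
        (fun v => chi v * islT η E κ ν v) v = 0 := by
  obtain ⟨cb, cg, ct⟩ := contDiff_island (η := η) hEc hk hn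
  have hχc : ContDiff ℝ 1 chi := phi.contDiff.comp contDiff_rsq
  have hclosed : IsClosed (supI E) :=
    (isClosed_le contDiff_rsq.continuous continuous_const).inter
      (isClosed_le continuous_fst (hEc.continuous.comp continuous_snd))
  have h4 : ∀ v ∈ supI E, rsq v ≤ 4 := fun v hv => le_trans hv.1 (by norm_num)
  have hzi : ∀ v, v ∉ supI E → ∀ n, chi v * depth E (n + 1) v = 0 := by
    intro v hv n
    by_cases h : rsq v ≤ 2.8
    · have : E v.2 < v.1 := lt_of_not_ge fun h' => hv ⟨h, h'⟩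
      rw [depth, max_eq_right (by linarith), zero_pow (Nat.succ_ne_zero n), mul_zero]
    · have : chi v = 0 := phi.zero_of_le_dist (by
        rw [Real.dist_eq, sub_zero, abs_of_nonneg (rsq_nonneg v)]; exact (lt_of_not_ge h).le)
      rw [this, zero_mul]
  obtain ⟨cs1, ts1⟩ := support_in (f := fun v => chi v * islB η E ν v) hclosed h4 fun v hv => by
    unfold islB
    linear_combination (-(1 - η * (v.2 * (1 / 8)) * ν v * (1 / 2))) * hzi v hv 3
  obtain ⟨cs2, ts2⟩ := support_in (f := fun v => chi v * islG E v) hclosed h4 fun v hv => by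
    unfold islG
    linear_combination (v.2 * (1 / 8)) * hzi v hv 3
  obtain ⟨cs3, ts3⟩ := support_in (f := fun v => chi v * islT η E κ ν v) hclosed h4 fun v hv => by
    unfold islT
    linear_combination (4 * (1 / 2 + 1 / 1024 * (κ v - η * (ν v * ν v) * (1 / 4)))) * hzi v hv 2
      + (-1 / 8) * hzi v hv 3
  exact qform_integral (η := η) (G := G) (G1 := G1) (R := R) hk hn hw
    (hχc.mul cb) (hχc.mul cg) (hχc.mul ct) cs1 cs2 cs3 fun v hv => heq v (by
      rcases hv with (hv | hv) | hv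
      exacts [ts1 hv, ts2 hv, ts3 hv])

lemma ring_integral {m : ℝ} (psi : ContDiffBump m) (hk : ContDiff ℝ 1 κ) (hn : ContDiff ℝ 1 ν)
    (hw : ContDiff ℝ 2 w) (h4 : m + psi.rOut ≤ 4) (heq : ∀ v, |rsq v - m| ≤ psi.rOut →
      dy (dy w) v + η * (κ v * dp (dp w) v + ν v * dy (dp w) v + G v * dp w v + G1 v * dy w v
        + R v) = 0) :
    Integrable (qform η κ ν G G1 R w (fun _ => 0) (fun _ => 0)
        (fun v => psi (rsq v) * psi (rsq v))) ∧
      ∫ v, qform η κ ν G G1 R w (fun _ => 0) (fun _ => 0)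
        (fun v => psi (rsq v) * psi (rsq v)) v = 0 := by
  have hωc : ContDiff ℝ 1 (fun v => psi (rsq v)) := psi.contDiff.comp contDiff_rsq
  obtain ⟨cs4, ts4⟩ := support_in (f := fun v => psi (rsq v) * psi (rsq v))
    (isClosed_le ((contDiff_rsq.continuous.sub continuous_const).abs) continuous_const :
      IsClosed {v : P2 | |rsq v - m| ≤ psi.rOut})
    (fun v hv => by have := (abs_le.1 (show |rsq v - m| ≤ psi.rOut from hv)).2; linarith) fun v hv => by
      have : psi (rsq v) = 0 := (bump_deriv_zero psi (lt_of_not_ge hv)).1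
      simp [this]
  exact qform_integral (η := η) (G := G) (G1 := G1) (R := R) (b := fun _ => 0)
    (γ := fun _ => 0) hk hn hw contDiff_const contDiff_const (hωc.mul hωc)
    HasCompactSupport.zero HasCompactSupport.zero cs4 fun v hv => heq v (by
      rcases hv with (hv | hv) | hv
      · simp [tsupport] at hv
      · simp [tsupport] at hv
      · exact ts4 hv)

/-- The two pointwise bounds, added. -/
lemma combine {f h : P2 → ℝ} (hf : ∀ v, 0 ≤ f v) (hh : ∀ v, 0 ≤ h v) {E : ℝ → ℝ}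
    (psi : ContDiffBump (2.55 : ℝ)) (hrin : psi.rIn = 1.45 - t') (ht' : t' ≤ 1) {θ' : ℝ}
    (hsubI : supI E ⊆ Reg t θ') (hsubR : ∀ v, |rsq v - 2.55| ≤ psi.rOut → v ∈ Reg t θ')
    {a c Λ b K1 K2 : ℝ} (hc0 : 0 ≤ c) (hca : c ≤ a) (hb : 0 ≤ b) (hΛ : 0 ≤ Λ) (hK1 : 0 ≤ K1)
    (hK2 : 0 ≤ K2) {σ : ℝ} (hΛσ : b + c ≤ Λ * σ) (v : P2) :
    c * (Reg t' (e - θ)).indicator f v - (K1 + Λ * K2) * (Reg t θ').indicator h v ≤
      a * {u : P2 | rsq u ≤ 2.1 ∧ u.1 < e - θ}.indicator f v
        - b * {u : P2 | 2.2 ≤ rsq u ∧ rsq u ≤ 2.8}.indicator f v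
        - K1 * (supI E).indicator h v
        + Λ * (σ * (psi (rsq v) ^ 2 * f v)
            - K2 * {u : P2 | |rsq u - 2.55| ≤ psi.rOut}.indicator h v) := by
  classical
  have a1 : (supI E).indicator h v ≤ (Reg t θ').indicator h v :=
    Set.indicator_le_indicator_of_subset hsubI hh v
  have a2 : {u : P2 | |rsq u - 2.55| ≤ psi.rOut}.indicator h v ≤ (Reg t θ').indicator h v :=
    Set.indicator_le_indicator_of_subset hsubR hh v
  set J := {u : P2 | rsq u ≤ 2.1 ∧ u.1 < e - θ}.indicator f v with hJ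
  have hJ0 : 0 ≤ J := Set.indicator_nonneg (fun u _ => hf u) v
  have hω0 : 0 ≤ psi (rsq v) ^ 2 * f v := mul_nonneg (sq_nonneg _) (hf v)
  have hone : ∀ u : ℝ, |u - 2.55| ≤ 1.45 - t' → psi u = 1 := fun u hu =>
    psi.one_of_mem_closedBall (by rw [Metric.mem_closedBall, Real.dist_eq, hrin]; exact hu)
  have a3 : {u : P2 | 2.2 ≤ rsq u ∧ rsq u ≤ 2.8}.indicator f v ≤ psi (rsq v) ^ 2 * f v := by
    rw [Set.indicator_apply]
    split_ifs with hu
    · rw [hone (rsq v) (by
        have h1 := hu.1; have h2 := hu.2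
        rw [abs_le]; norm_num at *; constructor <;> linarith), one_pow, one_mul]
    · exact hω0
  have a4 : (Reg t' (e - θ)).indicator f v ≤ J + psi (rsq v) ^ 2 * f v := by
    rw [Set.indicator_apply]
    split_ifs with hv
    · by_cases h21 : 1.1 + t' < rsq v
      · rw [hone (rsq v) (by
          have h1 := hv.1
          rw [abs_le]; norm_num at *; constructor <;> linarith), one_pow, one_mul]
        linarith
      · have hm : v ∈ {u : P2 | rsq u ≤ 2.1 ∧ u.1 < e - θ} :=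
          ⟨by norm_num at h21 ⊢; linarith, hv.2.resolve_left h21⟩
        rw [hJ, Set.indicator_of_mem hm]
        linarith
    · exact add_nonneg hJ0 hω0
  have m1 := mul_le_mul_of_nonneg_right hca hJ0
  have m2 := mul_le_mul_of_nonneg_right hΛσ hω0
  have m3 := mul_le_mul_of_nonneg_left a3 hb
  have m4 := mul_le_mul_of_nonneg_left a4 hc0
  have m5 := mul_le_mul_of_nonneg_left a1 hK1
  have m6 := mul_le_mul_of_nonneg_left a2 (mul_nonneg hΛ hK2)
  linarith

end EdgeProof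

open EdgeProof

/-- Energy estimate in the ring and on the island left of an edge. -/
theorem edge : EdgeSpec := by
  intro g Γ hg hΓ
  set B := Γ + 4 * g + 4 with hB
  have hB1 : 1 ≤ B := by linarith
  refine ⟨1 / 10000, 1 / (1000000 * B ^ 2), min (1 / 100) (1 / (300 * g)), by norm_num,
    by positivity, lt_min (by norm_num) (by positivity), ?_⟩
  intro η1 θ t t' hη1 hθ hθ0 ht htt ht'
  have hin : 0 < 1.45 - t' := by norm_num; linarith
  let psi : ContDiffBump (2.55 : ℝ) :=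
    ⟨1.45 - t', 1.45 - (t + t') / 2, hin, by linarith⟩
  obtain ⟨P1, hP1, hP1'⟩ := bump_bound phi
  obtain ⟨P2', hP2, hP2'⟩ := bump_bound psi
  set c := η1 / 640 * (θ / 2) ^ 4 with hc'
  have hc0 : 0 < c := by rw [hc']; positivity
  set Λ := (1000 * (P1 * (2 * 2)) + c) * (200 / η1) with hΛ
  have hΛ0 : 0 ≤ Λ := by positivity
  set K := 20000000 * B ^ 2 + 1000 * (P1 * (2 * 2))
    + Λ * (100 * (12 * (P2' * (2 * 2)) + 7 * (2 * B)) ^ 2) with hK
  refine ⟨K / c, fun η hηl hηu hηθ κ ν G G1 R w e he hclose hlin => ?_⟩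
  have hη : 0 < η := lt_of_lt_of_le hη1 hηl
  have hηB : η * B ^ 2 ≤ 1 / 1000000 := by
    calc η * B ^ 2 ≤ 1 / (1000000 * B ^ 2) * B ^ 2 :=
          mul_le_mul_of_nonneg_right hηu (sq_nonneg _)
      _ = 1 / 1000000 := by field_simp
  have hη6 : η ≤ 1 / 1000000 := le_trans (le_mul_of_one_le_right hη.le (one_le_pow₀ hB1)) hηB
  have hθ1 : θ ≤ 1 / 100 := hθ0.trans (min_le_left _ _)
  have he1 : |e| ≤ 1 / 100 := he.trans (min_le_left _ _)
  have heg : g * |e| ≤ 1 / 300 := by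
    calc g * |e| ≤ g * (1 / (300 * g)) :=
          mul_le_mul_of_nonneg_left (he.trans (min_le_right _ _)) (by linarith)
      _ = 1 / 300 := by field_simp
  have hk1 : ContDiff ℝ 1 κ := hlin.smk.of_le (by exact_mod_cast le_top)
  have hn1 : ContDiff ℝ 1 ν := hlin.smn.of_le (by exact_mod_cast le_top)
  have hw2 : ContDiff ℝ 2 w := hlin.smw.of_le (by exact WithTop.coe_le_coe.2 le_top)
  obtain ⟨ym, yp, A, A', hE⟩ :=
    exists_edgeData hη hη6 le_rfl hk1.continuous hn1.continuous he1 hclose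
  set E := Edge.edge e ym yp A A' with hEd
  have hEc : ContDiff ℝ 1 E := by rw [hEd]; unfold Edge.edge; fun_prop
  have hδη : ∀ v ∈ supI E, E v.2 ≤ e + η / 1000 := by
    intro v hv
    have h := (hE.height (y := v.2)
      (coord_le (r := 1.7) (by have := hv.1; norm_num at this ⊢; linarith) (by norm_num)).2).2.2
    rw [abs_le] at h
    linarith [h.2]
  have hsubSi : supI E ⊆ Reg t (e + θ) := by
    intro v hv
    have h1 := hv.1
    have h2 := hv.2
    have := hδη v hv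
    norm_num at h1
    exact ⟨by linarith, Or.inr (by linarith)⟩
  have hrout : psi.rOut = 1.45 - (t + t') / 2 := rfl
  have hsubSr : ∀ v, |rsq v - 2.55| ≤ psi.rOut → v ∈ Reg t (e + θ) := by
    intro v hv
    rw [hrout, abs_le] at hv
    norm_num at hv
    exact ⟨by linarith, Or.inl (by norm_num; linarith)⟩
  obtain ⟨i1, e1⟩ := isl_integral (η := η) (G := G) (G1 := G1) (R := R) hEc hk1 hn1 hw2
    fun v hv => hlin.eq v (hsubSi hv)
  obtain ⟨i2, e2⟩ := ring_integral (η := η) (G := G) (G1 := G1) (R := R) psi hk1 hn1 hw2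
    (by rw [hrout]; norm_num; linarith) fun v hv => hlin.eq v (hsubSr v hv)
  have hw1 : ContDiff ℝ 1 w := hw2.of_le one_le_two
  have If : Integrable ((Reg t' (e - θ)).indicator fun v => dp w v ^ 2 + dy w v ^ 2) :=
    integrable_reg (((continuous_dp hw1).pow 2).add ((continuous_dy hw1).pow 2))
    (e - θ) (show (0:ℝ) ≤ t' by linarith)
  have Ih : Integrable ((Reg t (e + θ)).indicator fun v => w v ^ 2 + R v ^ 2) :=
    integrable_reg ((hw1.continuous.pow 2).add (hlin.cR.pow 2)) (e + θ) ht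
  have hca : c ≤ η / 640 * (θ / 2) ^ 4 := by
    rw [hc']; gcongr
  have hΛη : 1000 * (P1 * (2 * 2)) + c ≤ Λ * (η / 200) := by
    calc 1000 * (P1 * (2 * 2)) + c
        = (1000 * (P1 * (2 * 2)) + c) * (200 / η1) * (η1 / 200) := by field_simp
      _ ≤ Λ * (η / 200) := by rw [hΛ]; gcongr
  have hpt := fun v => le_trans (combine (e := e) (θ := θ) (f := fun v => dp w v ^ 2 + dy w v ^ 2)
      (h := fun v => w v ^ 2 + R v ^ 2) (fun v => by positivity) (fun v => by positivity)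
      psi rfl ht' hsubSi hsubSr hc0.le hca (show 0 ≤ 1000 * (P1 * (2 * 2)) by positivity) hΛ0
      (show 0 ≤ 20000000 * B ^ 2 + 1000 * (P1 * (2 * 2)) by positivity)
      (show 0 ≤ 100 * (12 * (P2' * (2 * 2)) + 7 * (2 * B)) ^ 2 by positivity) hΛη v)
    (add_le_add
      (island_point (G := G) (G1 := G1) (w := w) (R := R) hg hΓ hB le_rfl hη hηB heg he1 hηθ hP1'
        hclose hk1 hn1 hE v)
      (mul_le_mul_of_nonneg_left (ring_point (w := w) (R := R) psi rfl
        (show (1.45 : ℝ) - (t + t') / 2 < 1.45 by linarith) hg hΓ hB le_rfl hη (by linarith)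
        hP2' hclose hk1 hn1 v) hΛ0))
  have hmain := integral_mono (μ := (volume : Measure P2))
    ((If.const_mul c).sub (Ih.const_mul K)) (i1.add (i2.const_mul Λ)) hpt
  simp only [Pi.sub_apply, Pi.add_apply] at hmain
  rw [integral_sub (If.const_mul c) (Ih.const_mul K), integral_add i1 (i2.const_mul Λ),
    integral_const_mul, integral_const_mul, integral_const_mul, e1, e2,
    integral_indicator (measurableSet_reg _ _), integral_indicator (measurableSet_reg _ _)] at hmain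
  rw [div_mul_eq_mul_div, le_div_iff₀ hc0]
  linarith

end Vale.Agent.P229
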