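import Vale.Agent.P229.FamilyInv
import Vale.Agent.P229.Spec

/-
P229: passage from a normalised height function to a normalised solution.
-/

namespace Vale.Agent.P229.Fam

open scoped ContDiff

/-- The cutoff of the height function. -/
noncomputable def cutZ : ContDiffBump (0 : ℝ) := ⟨30, 38, by norm_num, by norm_num⟩

/-- The cut off perturbation. -/
noncomputable def pert (Z : P2 → ℝ) (z : P2) : ℝ := cutZ (rsq z) * (Z z - z.1 ^ 2 / 2)

lemma rsq_nonneg (z : P2) : 0 ≤ rsq z := by unfold rsq; positivity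

lemma pert_far {Z : P2 → ℝ} {z : P2} (h : 38 < rsq z) : pert Z =ᶠ[nhds z] fun _ => 0 := by
  filter_upwards [smooth_rsq.continuous.continuousAt.eventually (eventually_gt_nhds h)] with v hv
  rw [pert, cutZ.zero_of_le_dist, zero_mul]
  rw [dist_zero_right, Real.norm_eq_abs, abs_of_nonneg (rsq_nonneg v)]
  exact hv.le

lemma pert_near {Z : P2 → ℝ} {z : P2} (h : rsq z < 30) :
    Z =ᶠ[nhds z] fun v => v.1 ^ 2 / 2 + pert Z v := by
  filter_upwards [smooth_rsq.continuous.continuousAt.eventually (eventually_lt_nhds h)] with v hv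
  rw [pert, cutZ.one_of_mem_closedBall, one_mul, add_sub_cancel]
  rw [Metric.mem_closedBall, dist_zero_right, Real.norm_eq_abs, abs_of_nonneg (rsq_nonneg v)]
  exact hv.le

lemma isOpen_disc : IsOpen {z : P2 | rsq z < 40} :=
  isOpen_lt smooth_rsq.continuous continuous_const

lemma smooth_pert {Z : P2 → ℝ} (hZ : ContDiffOn ℝ ∞ Z {z | rsq z < 40}) :
    ContDiff ℝ ∞ (pert Z) := by
  refine contDiff_iff_contDiffAt.2 fun z => ?_
  by_cases h : rsq z < 40
  · exact ((cutZ.contDiff.comp smooth_rsq).contDiffAt).mul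
      ((hZ.contDiffAt (isOpen_disc.mem_nhds h)).sub
        ((contDiff_fst.pow 2).div_const 2).contDiffAt)
  · exact contDiffAt_const.congr_of_eventuallyEq (pert_far (by linarith [not_lt.1 h]))

lemma exists_pert_bound : ∃ C : ℝ, 0 ≤ C ∧ ∀ (Z : P2 → ℝ) (d : ℝ), 0 ≤ d →
    ContDiffOn ℝ ∞ Z {z | rsq z < 40} →
    (∀ k ≤ 18, ∀ z, rsq z < 40 → ‖iteratedFDeriv ℝ k (fun v => Z v - v.1 ^ 2 / 2) z‖ ≤ d) →
    ∀ i ≤ 18, ∀ z, ‖iteratedFDeriv ℝ i (pert Z) z‖ ≤ C * d := by
  have hs : ContDiff ℝ ∞ fun z : P2 => cutZ (rsq z) := cutZ.contDiff.comp smooth_rsq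
  have hK : IsCompact (Metric.closedBall (0 : P2) 7) := isCompact_closedBall _ _
  choose B hB using fun j : ℕ => hK.exists_bound_of_continuousOn
    (f := fun z => iteratedFDeriv ℝ j (fun z : P2 => cutZ (rsq z)) z)
    (hs.continuous_iteratedFDeriv (mod_cast le_top)).continuousOn
  set M : ℝ := ∑ j ∈ Finset.range 19, max (B j) 0 with hM
  have hM0 : 0 ≤ M := Finset.sum_nonneg fun j _ => le_max_right _ _
  refine ⟨262144 * M, by positivity, fun Z d hd hZ hbd i hi z => ?_⟩
  by_cases h : rsq z < 40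
  swap
  · rw [((pert_far (by linarith [not_lt.1 h])).iteratedFDeriv (𝕜 := ℝ) i).self_of_nhds,
      iteratedFDeriv_fun_zero, Pi.zero_apply, norm_zero]
    positivity
  have hzb : z ∈ Metric.closedBall (0 : P2) 7 := by
    unfold rsq at h
    rw [Metric.mem_closedBall, dist_zero_right, Prod.norm_def, max_le_iff, Real.norm_eq_abs,
      Real.norm_eq_abs]
    have a1 := sq_abs z.1
    have a2 := sq_abs z.2
    exact ⟨by nlinarith [abs_nonneg z.1], by nlinarith [abs_nonneg z.2]⟩
  have e : ∀ (f : P2 → ℝ) (j : ℕ), iteratedFDerivWithin ℝ j f {z | rsq z < 40} z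
      = iteratedFDeriv ℝ j f z := fun f j => iteratedFDerivWithin_of_isOpen j isOpen_disc h
  have h1 := norm_iteratedFDerivWithin_mul_le (N := ∞) hs.contDiffOn
    (hZ.sub ((contDiff_fst.pow 2).div_const 2).contDiffOn) isOpen_disc.uniqueDiffOn h
    (n := i) (mod_cast le_top)
  simp only [e] at h1
  refine h1.trans ((Finset.sum_le_sum (g := fun j : ℕ => (i.choose j : ℝ) * (M * d))
    fun j hj => ?_).trans ?_)
  · have hji : j ≤ i := Nat.lt_succ_iff.1 (Finset.mem_range.1 hj)
    rw [mul_assoc]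
    refine mul_le_mul_of_nonneg_left (mul_le_mul ((hB j z hzb).trans ((le_max_left _ 0).trans
      (Finset.single_le_sum (f := fun j => max (B j) 0) (fun j _ => le_max_right _ _)
        (Finset.mem_range.2 (by omega))))) (hbd (i - j) (by omega) z h) (norm_nonneg _) hM0)
      (Nat.cast_nonneg _)
  · rw [← Finset.sum_mul]
    have hsum : (∑ j ∈ Finset.range (i + 1), (i.choose j : ℝ)) ≤ 262144 := by
      exact_mod_cast (Nat.sum_range_choose i).trans_le
        ((Nat.pow_le_pow_right two_pos hi).trans (by norm_num))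
    calc (∑ j ∈ Finset.range (i + 1), (i.choose j : ℝ)) * (M * d) ≤ 262144 * (M * d) :=
          mul_le_mul_of_nonneg_right hsum (by positivity)
      _ = _ := by ring

lemma fderiv_scale {f : P2 → ℝ} (hf : ContDiff ℝ ∞ f) (c lam : ℝ) (z e : P2) :
    fderiv ℝ (fun v : P2 => c * f (lam * v.1, lam * v.2)) z e
      = c * lam * fderiv ℝ f (lam * z.1, lam * z.2) e := by
  have hL : (fun v : P2 => ((lam * v.1, lam * v.2) : P2))
      = ⇑(lam • ContinuousLinearMap.id ℝ P2) := by
    funext v; ext <;> simp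
  have h1 : HasFDerivAt (fun v : P2 => ((lam * v.1, lam * v.2) : P2))
      (lam • ContinuousLinearMap.id ℝ P2) z := by
    rw [hL]; exact (lam • ContinuousLinearMap.id ℝ P2).hasFDerivAt
  have h2 := (((hf.differentiable (by simp)) _).hasFDerivAt.comp z h1).const_mul c
  simp only [Function.comp_def] at h2
  rw [h2.fderiv]
  simp
  ring

lemma fderiv_add_scale {F f : P2 → ℝ} (hF : ContDiff ℝ ∞ F) (hf : ContDiff ℝ ∞ f) (c lam : ℝ)
    (z e : P2) : fderiv ℝ (fun v : P2 => F v + c * f (lam * v.1, lam * v.2)) z e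
      = fderiv ℝ F z e + c * lam * fderiv ℝ f (lam * z.1, lam * z.2) e := by
  have hg : ContDiff ℝ ∞ fun v : P2 => c * f (lam * v.1, lam * v.2) :=
    contDiff_const.mul (hf.comp ((contDiff_const.mul contDiff_fst).prodMk
      (contDiff_const.mul contDiff_snd)))
  rw [fderiv_fun_add ((hF.differentiable (by simp)) z) ((hg.differentiable (by simp)) z),
    add_apply, fderiv_scale hf c lam z e]

lemma dp_template (s lam : ℝ) :
    dp (template s lam)
      = fun v => dp island v + s / lam ^ 2 * lam * dp blob (lam * v.1, lam * v.2) :=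
  funext fun v => fderiv_add_scale smooth_island smooth_blob _ lam v (1, 0)

lemma dy_template (s lam : ℝ) :
    dy (template s lam)
      = fun v => dy island v + s / lam ^ 2 * lam * dy blob (lam * v.1, lam * v.2) :=
  funext fun v => fderiv_add_scale smooth_island smooth_blob _ lam v (0, 1)

lemma lap_template {lam : ℝ} (hlam : lam ≠ 0) (s : ℝ) (z : P2) :
    dp (dp (template s lam)) z + dy (dy (template s lam)) z
      = -2 * (islK z + s * blobK (lam * z.1, lam * z.2)) := by
  have h1 : dp (dp (template s lam)) z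
      = dp (dp island) z + s / lam ^ 2 * lam * lam * dp (dp blob) (lam * z.1, lam * z.2) := by
    rw [dp_template]
    exact fderiv_add_scale (smooth_dp smooth_island) (smooth_dp smooth_blob) _ lam z (1, 0)
  have h2 : dy (dy (template s lam)) z
      = dy (dy island) z + s / lam ^ 2 * lam * lam * dy (dy blob) (lam * z.1, lam * z.2) := by
    rw [dy_template]
    exact fderiv_add_scale (smooth_dy smooth_island) (smooth_dy smooth_blob) _ lam z (0, 1)
  rw [h1, h2, islK, blobK]
  field_simp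
  ring

lemma smooth_template (s lam : ℝ) : ContDiff ℝ ∞ (template s lam) :=
  smooth_island.add (contDiff_const.mul (smooth_blob.comp
    ((contDiff_const.mul contDiff_fst).prodMk (contDiff_const.mul contDiff_snd))))

lemma fderiv_conf {T : P2 → ℝ} (hT : ContDiff ℝ ∞ T) (c : ℝ) (z e : P2) :
    fderiv ℝ (fun v => 1 + c * T v) z e = c * fderiv ℝ T z e := by
  rw [fderiv_const_add, fderiv_const_mul ((hT.differentiable (by simp)) z)]
  simp

lemma curv_template {lam : ℝ} (hlam : lam ≠ 0) (η ε s : ℝ) (hε : ε ≠ 0) (z : P2) :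
    curvTerm (fun v => 1 + η * ε * template s lam v) z / ε
      = η * (islK z + s * blobK (lam * z.1, lam * z.2)
        + η * ε * (dp (template s lam) z ^ 2 + dy (template s lam) z ^ 2)
          * (1 + η * ε * template s lam z)⁻¹ / 2) := by
  have hT := smooth_template s lam
  have h1 : dp (fun v => 1 + η * ε * template s lam v)
      = fun v => η * ε * dp (template s lam) v :=
    funext fun v => fderiv_conf hT (η * ε) v (1, 0)
  have h2 : dy (fun v => 1 + η * ε * template s lam v)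
      = fun v => η * ε * dy (template s lam) v :=
    funext fun v => fderiv_conf hT (η * ε) v (0, 1)
  have h3 : dp (fun v => η * ε * dp (template s lam) v) z
      = η * ε * dp (dp (template s lam)) z := by
    show fderiv ℝ (fun v => η * ε * dp (template s lam) v) z (1, 0) = _
    rw [fderiv_const_mul (((smooth_dp hT).differentiable (by simp)) z)]
    rfl
  have h4 : dy (fun v => η * ε * dy (template s lam) v) z
      = η * ε * dy (dy (template s lam)) z := by
    show fderiv ℝ (fun v => η * ε * dy (template s lam) v) z (0, 1) = _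
    rw [fderiv_const_mul (((smooth_dy hT).differentiable (by simp)) z)]
    rfl
  have h5 := lap_template hlam s z
  simp only [curvTerm, h1, h2, h3, h4]
  rw [div_eq_iff hε]
  linear_combination (-(η * ε / 2)) * h5

lemma darboux_solve {A b c a1 a3 k : ℝ} (hA : A ≠ 0) (hA1 : A + a1 ≠ 0)
    (h : (A + a1) * (c - a1) - (b + a3) ^ 2 = k) :
    c - b ^ 2 / A = (k * (1 / A) - a1 * (-b / A) ^ 2 - 2 * a3 * (-b / A) + a3 ^ 2 * (1 / A))
        * (1 + a1 * (1 / A))⁻¹ + a1 := by
  have e : 1 + a1 * (1 / A) = (A + a1) / A := by field_simp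
  rw [e, inv_div, ← h]
  field_simp
  ring

lemma supp_island : HasCompactSupport island := by
  refine HasCompactSupport.intro (isCompact_closedBall (0 : P2) 7) fun z hz => ?_
  rw [island, bumpBig.zero_of_le_dist, zero_mul]
  rw [Metric.mem_closedBall, dist_zero_right, Prod.norm_def, max_le_iff, not_and_or,
    Real.norm_eq_abs, Real.norm_eq_abs] at hz
  rw [dist_zero_right, Real.norm_eq_abs, abs_of_nonneg (rsq_nonneg z)]
  show (39 : ℝ) ≤ rsq z
  unfold rsq
  rcases hz with h | h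
  · nlinarith [sq_abs z.1, sq_nonneg z.2, not_le.1 h, abs_nonneg z.1]
  · nlinarith [sq_abs z.2, sq_nonneg z.1, not_le.1 h, abs_nonneg z.2]

lemma supp_blob : HasCompactSupport blob := by
  refine HasCompactSupport.intro (isCompact_closedBall (0 : P2) 2) fun z hz => ?_
  refine (blob_zero ?_).1
  rw [Metric.mem_closedBall, dist_zero_right, Prod.norm_def, max_le_iff, not_and_or,
    Real.norm_eq_abs, Real.norm_eq_abs] at hz
  exact rsq_gt_one (a := z.1) (b := z.2) (hz.imp (fun h => by linarith [not_le.1 h])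
    (fun h => by linarith [not_le.1 h]))

/-- Bound on the jets of the template. -/
lemma exists_template_bound : ∃ C : ℝ, 0 ≤ C ∧ ∀ s lam : ℝ, 0 ≤ s → s ≤ 1 → 1 ≤ lam → ∀ z : P2,
    |template s lam z| ≤ C ∧ |dp (template s lam) z| ≤ C ∧ |dy (template s lam) z| ≤ C := by
  obtain ⟨c1, h1⟩ := supp_island.exists_bound_of_continuous smooth_island.continuous
  obtain ⟨c2, h2⟩ := (supp_island.fderiv (𝕜 := ℝ)).exists_bound_of_continuous
    (smooth_island.continuous_fderiv (by simp))
  obtain ⟨c3, h3⟩ := supp_blob.exists_bound_of_continuous smooth_blob.continuous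
  obtain ⟨c4, h4⟩ := (supp_blob.fderiv (𝕜 := ℝ)).exists_bound_of_continuous
    (smooth_blob.continuous_fderiv (by simp))
  have n1 := (norm_nonneg _).trans (h1 0)
  have n2 := (norm_nonneg _).trans (h2 0)
  have n3 := (norm_nonneg _).trans (h3 0)
  have n4 := (norm_nonneg _).trans (h4 0)
  refine ⟨c1 + c2 + c3 + c4, by linarith, fun s lam hs hs1 hlam z => ?_⟩
  have hk : |s / lam ^ 2| ≤ 1 ∧ |s / lam ^ 2 * lam| ≤ 1 := by
    have e : s / lam ^ 2 * lam = s / lam := by field_simp
    constructor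
    · rw [abs_of_nonneg (by positivity), div_le_one (by positivity)]
      exact hs1.trans (one_le_pow₀ hlam)
    · rw [e, abs_of_nonneg (by positivity), div_le_one (by linarith)]
      linarith
  have key : ∀ (c a b B1 B2 : ℝ), |c| ≤ 1 → |a| ≤ B1 → |b| ≤ B2 → |a + c * b| ≤ B1 + B2 :=
    fun c a b B1 B2 hc ha hb => by
      refine (abs_add_le _ _).trans (add_le_add ha ?_)
      rw [abs_mul]
      exact (mul_le_mul hc hb (abs_nonneg _) zero_le_one).trans (le_of_eq (one_mul _))
  have hd : ∀ (f : P2 → ℝ) (v e : P2) (B : ℝ), ‖fderiv ℝ f v‖ ≤ B → ‖e‖ ≤ 1 →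
      |fderiv ℝ f v e| ≤ B := fun f v e B hf he => by
    rw [← Real.norm_eq_abs]
    exact ((fderiv ℝ f v).unit_le_opNorm e he).trans hf
  refine ⟨?_, ?_, ?_⟩
  · exact (key _ _ _ c1 c3 hk.1 (h1 z) (h3 _)).trans (by linarith)
  · rw [dp_template]
    exact (key _ _ _ c2 c4 hk.2 (hd _ _ _ _ (h2 z) (by simp [Prod.norm_def]))
      (hd _ _ _ _ (h4 _) (by simp [Prod.norm_def]))).trans (by linarith)
  · rw [dy_template]
    exact (key _ _ _ c2 c4 hk.2 (hd _ _ _ _ (h2 z) (by simp [Prod.norm_def]))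
      (hd _ _ _ _ (h4 _) (by simp [Prod.norm_def]))).trans (by linarith)

/-- The derivatives of `Z` near a point where it is `X ^ 2 / 2 + g`. -/
lemma jet_near {Z g : P2 → ℝ} (hg : ContDiff ℝ ∞ g) {z : P2}
    (h : Z =ᶠ[nhds z] fun v => v.1 ^ 2 / 2 + g v) :
    dp Z z = z.1 + dp g z ∧ dy Z z = dy g z ∧ dp (dp Z) z = 1 + dp (dp g) z ∧
      dy (dp Z) z = dy (dp g) z ∧ dy (dy Z) z = dy (dy g) z := by
  have hf : ∀ v e : P2, fderiv ℝ (fun v : P2 => v.1 ^ 2 / 2 + g v) v e
      = v.1 * e.1 + fderiv ℝ g v e := fun v e => by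
    have h1 : HasFDerivAt (fun v : P2 => v.1 ^ 2 / 2)
        (v.1 • ContinuousLinearMap.fst ℝ ℝ ℝ) v := by
      have := ((hasFDerivAt_fst (𝕜 := ℝ) (p := v)).pow 2).mul_const (1 / 2 : ℝ)
      simp only [mul_one_div] at this
      exact this.congr_fderiv (by ext <;> simp)
    rw [(h1.fun_add ((hg.differentiable (by simp)) v).hasFDerivAt).fderiv]
    simp
  have e1 : dp Z =ᶠ[nhds z] fun v => v.1 + dp g v := by
    filter_upwards [h.fderiv (𝕜 := ℝ)] with v hv
    show fderiv ℝ Z v (1, 0) = _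
    rw [hv, hf]; simp [dp]
  have e2 : dy Z =ᶠ[nhds z] dy g := by
    filter_upwards [h.fderiv (𝕜 := ℝ)] with v hv
    show fderiv ℝ Z v (0, 1) = _
    rw [hv, hf]; simp [dy]
  have hd : ∀ e, fderiv ℝ (fun v : P2 => v.1 + dp g v) z e = e.1 + fderiv ℝ (dp g) z e :=
    fun e => by
    rw [((hasFDerivAt_fst (𝕜 := ℝ) (p := z)).fun_add
      (((smooth_dp hg).differentiable (by simp)) z).hasFDerivAt).fderiv]
    simp
  refine ⟨e1.self_of_nhds, e2.self_of_nhds, ?_, ?_, ?_⟩
  · show fderiv ℝ (dp Z) z (1, 0) = _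
    rw [e1.fderiv_eq, hd]; rfl
  · show fderiv ℝ (dp Z) z (0, 1) = _
    rw [e1.fderiv_eq, hd]; simp [dy]
  · show fderiv ℝ (dy Z) z (0, 1) = _
    rw [e2.fderiv_eq]; rfl

/-- The pointwise form of the Darboux equation in the new variables. -/
lemma pointwise {η ε s lam δ C0 : ℝ} (hη : 0 < η) (hε : 0 < ε) (hlam : 1 ≤ lam) (hs : 0 ≤ s)
    (hs1 : s ≤ 1) (hη1 : η ≤ 1) (hε1 : ε ≤ 1) (hδ : δ ≤ 1 / 100) (hC0 : η * ε * (16 * C0 + 1) ≤ 1 / 4)
    (hT : ∀ z : P2, |template s lam z| ≤ C0 ∧ |dp (template s lam) z| ≤ C0 ∧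
      |dy (template s lam) z| ≤ C0)
    {Z g x q : P2 → ℝ} (hg : ContDiff ℝ ∞ g) (z : P2) (hz : z ∈ Box)
    (hnear : ∀ w, rsq w < 30 → Z =ᶠ[nhds w] fun v => v.1 ^ 2 / 2 + g v)
    (hD : ∀ w, rsq w < 30 →
      hess11 (fun v => 1 + η * ε * template s lam v) Z w
          * hess22 (fun v => 1 + η * ε * template s lam v) Z w
          - hess12 (fun v => 1 + η * ε * template s lam v) Z w ^ 2
        = curvTerm (fun v => 1 + η * ε * template s lam v) w / ε
          * (1 - ε * (dp Z w ^ 2 + dy Z w ^ 2) / (1 + η * ε * template s lam w)))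
    (hx1 : |x z - z.1| ≤ δ) (hq : |q z| ≤ δ) (hxp : |dp x z - 1| ≤ δ) (hxy : |dy x z| ≤ δ)
    (hprop : |dp (dp g) (x z, z.2)| ≤ 1 / 2 ∧ z.1 = x z + dp g (x z, z.2) ∧
        q z = dy g (x z, z.2) ∧ dp x z = 1 / (1 + dp (dp g) (x z, z.2)) ∧
        dy x z = -dy (dp g) (x z, z.2) / (1 + dp (dp g) (x z, z.2)) ∧
        dp q z = -dy x z ∧
        dy q z = dy (dy g) (x z, z.2)
          - dy (dp g) (x z, z.2) ^ 2 / (1 + dp (dp g) (x z, z.2))) :
    dy q z = η * (HbF η ε (jet x q z) + HsF η ε s lam (jet x q z)) := by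
  obtain ⟨ha, hp, hqv, hxpv, hxyv, -, hqy⟩ := hprop
  obtain ⟨hz1, hz2⟩ := hz
  have hax : |x z| ≤ 4 := by
    have := abs_add_le (x z - z.1) z.1
    rw [sub_add_cancel] at this
    linarith
  have hw : rsq (x z, z.2) < 30 := by
    unfold rsq
    nlinarith [sq_abs (x z), sq_abs z.2, abs_nonneg (x z), abs_nonneg z.2]
  obtain ⟨j1, j2, j3, j4, j5⟩ := jet_near hg (hnear _ hw)
  obtain ⟨t1, t2, t3⟩ := hT (x z, z.2)
  have hc0 : 0 ≤ C0 := (abs_nonneg _).trans t1
  have hu : ‖jet x q z‖ ≤ 5 := by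
    rw [pi_norm_le_iff_of_nonneg (by norm_num)]
    have hb : |dp x z| ≤ 5 := by
      have := abs_add_le (dp x z - 1) 1
      rw [sub_add_cancel] at this
      simp only [abs_one] at this
      linarith
    intro i
    fin_cases i <;> simp [jet] <;> linarith
  rw [HbF_add_HsF (by rw [abs_of_pos hη]; exact hη1) (by rw [abs_of_pos hε]; exact hε1)
    (by rw [abs_of_pos (by positivity)]; exact inv_le_one_of_one_le₀ hlam)
    (by rw [abs_of_nonneg hs]; exact hs1) hu]
  set T := template s lam (x z, z.2) with hTd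
  set TA := dp (template s lam) (x z, z.2) with hTA
  set TB := dy (template s lam) (x z, z.2) with hTB
  set K := islK (x z, z.2) + s * blobK (lam * x z, lam * z.2) with hK
  set E := 1 + η * ε * T with hE
  set a1 := η * ε * (-(TA * z.1 - TB * q z) * E⁻¹ / 2) with ha1
  set a3 := η * ε * (-(TB * z.1 + TA * q z) * E⁻¹ / 2) with ha3
  have hηε : 0 ≤ η * ε := by positivity
  have hTs : |η * ε * T| ≤ 1 / 4 := by
    rw [abs_mul, abs_of_nonneg hηε]
    refine le_trans ?_ hC0
    exact mul_le_mul_of_nonneg_left (by linarith) hηε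
  have hE0 : 3 / 4 ≤ E := by linarith [abs_le.1 hTs]
  have hEi : |E⁻¹| ≤ 2 := by
    rw [abs_inv, abs_of_pos (by linarith)]
    calc E⁻¹ ≤ (3 / 4 : ℝ)⁻¹ := inv_anti₀ (by norm_num) hE0
      _ ≤ 2 := by norm_num
  have habs := abs_le.1 ha
  set A := 1 + dp (dp g) (x z, z.2) with hA
  have hA0 : 1 / 2 ≤ A := by linarith
  have hz4 : |TA * z.1 - TB * q z| ≤ 4 * C0 := by
    refine (abs_sub _ _).trans ?_
    rw [abs_mul, abs_mul]
    have i1 : |TA| * |z.1| ≤ C0 * 3 := mul_le_mul t2 hz1.le (abs_nonneg _) hc0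
    have i2 : |TB| * |q z| ≤ C0 * 1 := mul_le_mul t3 (by linarith) (abs_nonneg _) hc0
    linarith
  have ha1b : |a1| ≤ 1 / 8 := by
    have i0 : |TA * z.1 - TB * q z| * |E⁻¹| ≤ 4 * C0 * 2 :=
      mul_le_mul hz4 hEi (abs_nonneg _) (by linarith)
    rw [ha1, abs_mul, abs_of_nonneg hηε, abs_div, abs_mul, abs_neg]
    refine le_trans (mul_le_mul_of_nonneg_left (show _ ≤ (16 * C0 + 1) / 2 by
      rw [abs_of_pos (two_pos (α := ℝ))]; linarith) hηε) ?_
    linarith
  have hA1 : A + a1 ≠ 0 := by have := abs_le.1 ha1b; intro; linarith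
  have hden : |1 + a1 * (1 / A) - 1| ≤ 1 / 2 := by
    rw [add_sub_cancel_left, abs_mul, abs_of_pos (show 0 < 1 / A by positivity)]
    calc |a1| * (1 / A) ≤ 1 / 8 * (1 / (1 / 2)) :=
          mul_le_mul ha1b (one_div_le_one_div_of_le (by norm_num) hA0) (by positivity) (by norm_num)
      _ ≤ 1 / 2 := by norm_num
  have hD' := hD _ hw
  rw [curv_template (by linarith) η ε s hε.ne'] at hD'
  simp only [hess11, hess12, hess22] at hD'
  rw [j1, j2, j3, j4, j5, ← hp, ← hqv] at hD'
  have hEp : dp (fun v => 1 + η * ε * template s lam v) (x z, z.2) = η * ε * TA :=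
    fderiv_conf (smooth_template s lam) (η * ε) (x z, z.2) (1, 0)
  have hEy : dy (fun v => 1 + η * ε * template s lam v) (x z, z.2) = η * ε * TB :=
    fderiv_conf (smooth_template s lam) (η * ε) (x z, z.2) (0, 1)
  simp only [hEp, hEy, ← hTd, ← hTA, ← hTB, ← hK, ← hE] at hD'
  have hkey := darboux_solve (A := A) (b := dy (dp g) (x z, z.2)) (c := dy (dy g) (x z, z.2))
    (a1 := a1) (a3 := a3) (by linarith) hA1 (k := η * (K + η * ε * (TA ^ 2 + TB ^ 2) * E⁻¹ / 2)
      * (1 - ε * (z.1 ^ 2 + q z ^ 2) * E⁻¹)) (by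
    refine Eq.trans ?_ (hD'.trans ?_)
    · rw [ha1, ha3]; ring_nf
    · ring)
  rw [hqy, hkey]
  have hpos : ((jet x q z) 2, (jet x q z) 1) = ((x z, z.2) : P2) := by simp [jet]
  set w : W := (![η, ε, lam⁻¹, s], jet x q z, (lam * jet x q z 2, lam * jet x q z 1)) with hwd
  have hl0 : lam ≠ 0 := by linarith
  have eT : tT w = T := by
    rw [hTd]; simp [tT, hwd, template, jet]; left; field_simp
  have eA : tA w = TA := by
    rw [hTA, dp_template]; simp [tA, hwd, jet]; left; field_simp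
  have eB : tB w = TB := by
    rw [hTB, dy_template]; simp [tB, hwd, jet]; left; field_simp
  have eK : tK w = K := by simp [tK, hwd, hK, jet]
  have hE' : safeInv (1 + η * ε * T) = E⁻¹ := safeInv_eq (by rw [add_sub_cancel_left]; linarith)
  rw [fullF, eT, eA, eB, eK]
  have j4' : w.2.1 4 = 1 / A := by simp [hwd, jet, hxpv]
  have j5' : w.2.1 5 = -dy (dp g) (x z, z.2) / A := by simp [hwd, jet, hxyv]
  have j0 : w.2.1 0 = z.1 := by simp [hwd, jet]
  have j3' : w.2.1 3 = q z := by simp [hwd, jet]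
  have p0 : w.1 0 = η := by simp [hwd]
  have p1 : w.1 1 = ε := by simp [hwd]
  simp only [phi, b1F, b3F, j4', j5', j0, j3', p0, p1, hE']
  rw [show 1 + η * ε * (-(TA * z.1 - TB * q z) * E⁻¹ / 2) * (1 / A) = 1 + a1 * (1 / A) by rw [ha1],
    safeInv_eq hden, ha1, ha3]
  ring

end Vale.Agent.P229.Fam

namespace Vale.Agent.P229

open scoped ContDiff
open Fam

theorem family_spec : FamilySpec := by
  obtain ⟨L, hL⟩ := exists_family
  obtain ⟨Cg, hCg0, hCg⟩ := exists_pert_bound
  obtain ⟨C0, hC00, hC0⟩ := exists_template_bound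
  refine ⟨L, fun δ hδ => ?_⟩
  set δ1 := min δ (1 / 100) with hδ1
  obtain ⟨d1, hd1, hd11, hfam⟩ := hL δ hδ
  obtain ⟨d2, hd2, hco⟩ := exists_coords δ1 (lt_min hδ (by norm_num))
  set d := min d1 (min (d2 / (Cg + 1)) (1 / (4 * (16 * C0 + 1)))) with hd
  have hd0 : 0 < d := lt_min hd1 (lt_min (by positivity) (by positivity))
  refine ⟨d, hd0, fun η ε s lam hη hηd hε hεd hs hsd hlam Z hZ hclose hZ0 heq => ?_⟩
  have hdd1 : d ≤ d1 := min_le_left _ _
  have hlam' : d1⁻¹ ≤ lam := (inv_anti₀ hd0 hdd1).trans hlam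
  have hlam1 : 1 ≤ lam := le_trans ((one_le_inv₀ hd1).2 hd11) hlam'
  have hdC : Cg * d ≤ d2 := by
    have h1 : d ≤ d2 / (Cg + 1) := (min_le_right _ _).trans (min_le_left _ _)
    rw [le_div_iff₀ (by positivity)] at h1
    linarith
  have hgs := smooth_pert hZ
  obtain ⟨x, q, hxs, hqs, hxb, hqb, hx0, hprop⟩ := hco (pert Z) hgs
    (fun i hi z => (hCg Z d hd0.le hZ hclose i hi z).trans hdC)
  have hnear : ∀ w, rsq w < 30 → Z =ᶠ[nhds w] fun v => v.1 ^ 2 / 2 + pert Z v :=
    fun w hw => pert_near hw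
  refine ⟨HbF η ε, HsF η ε s lam, x, q,
    hfam η ε s lam hη.le (hηd.trans hdd1) hε.le (hεd.trans hdd1) hs.le (hsd.trans hdd1) hlam',
    hxs, hqs, fun z _ => (hprop z).2.2.2.2.2.1, fun z hz => ?_,
    fun k hk z _ => (hxb k hk z).trans (min_le_left _ _),
    fun k hk z _ => (hqb k hk z).trans (min_le_left _ _), ?_⟩
  · have h1 : |x z - z.1| ≤ δ1 := by
      have := hxb 0 (by norm_num) z
      rwa [norm_iteratedFDeriv_zero, Real.norm_eq_abs] at this
    have h2 : |q z| ≤ δ1 := by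
      have := hqb 0 (by norm_num) z
      rwa [norm_iteratedFDeriv_zero, Real.norm_eq_abs] at this
    have h3 := hxb 1 (by norm_num) z
    rw [norm_iteratedFDeriv_one] at h3
    have hd' : ∀ e : P2, fderiv ℝ (fun v => x v - v.1) z e = fderiv ℝ x z e - e.1 := fun e => by
      rw [fderiv_fun_sub ((hxs.differentiable (by simp)) z) differentiableAt_fst, fderiv_fst]
      rfl
    have h4 : ∀ e : P2, ‖e‖ ≤ 1 → |fderiv ℝ x z e - e.1| ≤ δ1 := fun e he => by
      rw [← hd' e, ← Real.norm_eq_abs]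
      exact ((fderiv ℝ (fun v => x v - v.1) z).unit_le_opNorm e he).trans h3
    have hCd : η * ε * (16 * C0 + 1) ≤ 1 / 4 := by
      have i1 : η * ε ≤ d := by
        calc η * ε ≤ d * 1 :=
              mul_le_mul hηd (hεd.trans (hdd1.trans hd11)) hε.le hd0.le
          _ = d := mul_one d
      have i2 : d ≤ 1 / (4 * (16 * C0 + 1)) := (min_le_right _ _).trans (min_le_right _ _)
      rw [le_div_iff₀ (by positivity)] at i2
      have i3 := mul_le_mul_of_nonneg_right i1 (show 0 ≤ 16 * C0 + 1 by positivity)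
      linarith
    exact pointwise hη hε hlam1 hs.le (hsd.trans (hdd1.trans hd11)) (hηd.trans (hdd1.trans hd11))
      (hεd.trans (hdd1.trans hd11)) (min_le_right _ _) hCd
      (hC0 s lam hs.le (hsd.trans (hdd1.trans hd11)) hlam1) hgs z hz hnear
      (fun w hw => heq w (by linarith)) h1 h2
      (h4 (1, 0) (by simp [Prod.norm_def]))
      (show |fderiv ℝ x z (0, 1)| ≤ δ1 by simpa only [sub_zero] using h4 (0, 1) (by simp [Prod.norm_def])) (hprop z)
  · refine hx0 ?_
    have h0 : rsq ((0 : ℝ), (0 : ℝ)) < 30 := by norm_num [rsq]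
    have := (jet_near hgs (hnear _ h0)).1
    simp only [zero_add] at this
    rw [← this]
    exact hZ0

end Vale.Agent.P229
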