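import Vale.Agent.P229.Calc

/-
P229: the nonlinearity family of the normalised Darboux equation.
-/

namespace Vale.Agent.P229.Fam

open Metric
open scoped ContDiff

/-- Parameters `η, ε, 1 / lam, s`, the jet, and the blown up position. -/
abbrev W := (Fin 4 → ℝ) × V6 × P2

/-- A cutoff near zero in one variable. -/
noncomputable def nearB : ContDiffBump (0 : ℝ) := ⟨1 / 2, 9 / 10, by norm_num, by norm_num⟩

/-- A global smooth function equal to `1 / t` near `1`. -/
noncomputable def safeInv (t : ℝ) : ℝ := (1 + (t - 1) * nearB (t - 1))⁻¹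

lemma safeInv_den_pos (t : ℝ) : 0 < 1 + (t - 1) * nearB (t - 1) := by
  by_cases h : |t - 1| < 9 / 10
  · have h1 := nearB.le_one (x := t - 1)
    have h2 := nearB.nonneg (x := t - 1)
    have : |(t - 1) * nearB (t - 1)| ≤ |t - 1| := by
      rw [abs_mul, abs_of_nonneg h2]
      exact mul_le_of_le_one_right (abs_nonneg _) h1
    linarith [neg_abs_le ((t - 1) * nearB (t - 1))]
  · rw [nearB.zero_of_le_dist (by rw [dist_zero_right, Real.norm_eq_abs]; exact not_lt.1 h)]
    norm_num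

lemma smooth_safeInv : ContDiff ℝ ∞ safeInv :=
  ContDiff.inv (contDiff_const.add ((contDiff_id.sub contDiff_const).mul
    (nearB.contDiff.comp (contDiff_id.sub contDiff_const)))) fun t => (safeInv_den_pos t).ne'

lemma safeInv_eq {t : ℝ} (h : |t - 1| ≤ 1 / 2) : safeInv t = t⁻¹ := by
  rw [safeInv, nearB.one_of_mem_closedBall (by rwa [mem_closedBall, dist_zero_right,
    Real.norm_eq_abs])]
  ring_nf

lemma safeInv_one : safeInv 1 = 1 := by
  rw [safeInv_eq (by norm_num)]; norm_num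

/-- `b1`, the first Christoffel term. -/
noncomputable def b1F (η ε : ℝ) (u : V6) (T A B : ℝ) : ℝ :=
  -(A * u 0 - B * u 3) * safeInv (1 + η * ε * T) / 2

/-- `b3`, the mixed Christoffel term. -/
noncomputable def b3F (η ε : ℝ) (u : V6) (T A B : ℝ) : ℝ :=
  -(B * u 0 + A * u 3) * safeInv (1 + η * ε * T) / 2

/-- The coefficient of the curvature, without the factor `x_p`. -/
noncomputable def coefA (η ε : ℝ) (u : V6) (T A B : ℝ) : ℝ :=
  (1 - ε * (u 0 ^ 2 + u 3 ^ 2) * safeInv (1 + η * ε * T))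
    * safeInv (1 + η * ε * b1F η ε u T A B * u 4)

/-- The nonlinearity as a function of the template jet. -/
noncomputable def phi (η ε : ℝ) (u : V6) (T A B k : ℝ) : ℝ :=
  ((k + η * ε * (A ^ 2 + B ^ 2) * safeInv (1 + η * ε * T) / 2)
        * (1 - ε * (u 0 ^ 2 + u 3 ^ 2) * safeInv (1 + η * ε * T)) * u 4
      - ε * b1F η ε u T A B * u 5 ^ 2 - 2 * ε * b3F η ε u T A B * u 5
      + η * ε ^ 2 * b3F η ε u T A B ^ 2 * u 4)
    * safeInv (1 + η * ε * b1F η ε u T A B * u 4)
  + ε * b1F η ε u T A B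

lemma phi_add (η ε : ℝ) (u : V6) (T A B k d : ℝ) :
    phi η ε u T A B (k + d) = phi η ε u T A B k + d * u 4 * coefA η ε u T A B := by
  unfold phi coefA; ring

/-- `-1/2` times the Laplacian of the island. -/
noncomputable def islK (z : P2) : ℝ := -(dp (dp island) z + dy (dy island) z) / 2

lemma smooth_rsq : ContDiff ℝ ∞ rsq := by
  unfold rsq; fun_prop

lemma smooth_island : ContDiff ℝ ∞ island :=
  ((bumpBig.contDiff.comp smooth_rsq).mul
    ((smooth_rsq.div_const 2).sub ((smooth_rsq.pow 2).div_const 8)))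

lemma smooth_blob : ContDiff ℝ ∞ blob := bump1.contDiff.comp smooth_rsq

lemma smooth_islK : ContDiff ℝ ∞ islK :=
  (((smooth_dp (smooth_dp smooth_island)).add (smooth_dy (smooth_dy smooth_island))).neg).div_const 2

lemma smooth_blobK : ContDiff ℝ ∞ blobK :=
  (((smooth_dp (smooth_dp smooth_blob)).add (smooth_dy (smooth_dy smooth_blob))).neg).div_const 2

/-- The template evaluated at a parameter point. -/
noncomputable def tT (w : W) : ℝ :=
  island (w.2.1 2, w.2.1 1) + w.1 3 * w.1 2 ^ 2 * blob w.2.2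

/-- Its first derivative in `x`. -/
noncomputable def tA (w : W) : ℝ :=
  dp island (w.2.1 2, w.2.1 1) + w.1 3 * w.1 2 * dp blob w.2.2

/-- Its derivative in `y`. -/
noncomputable def tB (w : W) : ℝ :=
  dy island (w.2.1 2, w.2.1 1) + w.1 3 * w.1 2 * dy blob w.2.2

/-- Its curvature. -/
noncomputable def tK (w : W) : ℝ := islK (w.2.1 2, w.2.1 1) + w.1 3 * blobK w.2.2

/-- The cutoff. -/
noncomputable def cutB : ContDiffBump (0 : W) := ⟨50, 60, by norm_num, by norm_num⟩

/-- The full nonlinearity. -/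
noncomputable def fullF (w : W) : ℝ :=
  phi (w.1 0) (w.1 1) w.2.1 (tT w) (tA w) (tB w) (tK w)

/-- The nonlinearity of the island alone. -/
noncomputable def baseF (w : W) : ℝ :=
  phi (w.1 0) (w.1 1) w.2.1 (island (w.2.1 2, w.2.1 1)) (dp island (w.2.1 2, w.2.1 1))
    (dy island (w.2.1 2, w.2.1 1)) (islK (w.2.1 2, w.2.1 1))

/-- The curvature coefficient of the island alone. -/
noncomputable def coefF (w : W) : ℝ :=
  coefA (w.1 0) (w.1 1) w.2.1 (island (w.2.1 2, w.2.1 1)) (dp island (w.2.1 2, w.2.1 1))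
    (dy island (w.2.1 2, w.2.1 1))

/-- Cut off base nonlinearity. -/
noncomputable def Gb (w : W) : ℝ := cutB w * baseF w

/-- Cut off blob part. -/
noncomputable def Gs (w : W) : ℝ := cutB w * (fullF w - baseF w)

/-- Cut off coefficient. -/
noncomputable def Gp (w : W) : ℝ := cutB w * coefF w

/-- Cut off deviation of the blob part from its profile. -/
noncomputable def Gc (w : W) : ℝ :=
  cutB w * (fullF w - baseF w - w.1 3 * blobK w.2.2 * w.2.1 4 * coefF w)

section smooth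

variable {n : WithTop ℕ∞}

lemma smooth_par (i : Fin 4) : ContDiff ℝ ∞ fun w : W => w.1 i :=
  (contDiff_apply ℝ ℝ i).comp contDiff_fst

lemma smooth_jet (i : Fin 6) : ContDiff ℝ ∞ fun w : W => w.2.1 i :=
  (contDiff_apply ℝ ℝ i).comp (contDiff_fst.comp contDiff_snd)

lemma smooth_pos : ContDiff ℝ ∞ fun w : W => ((w.2.1 2, w.2.1 1) : P2) :=
  (smooth_jet 2).prodMk (smooth_jet 1)

lemma smooth_blow : ContDiff ℝ ∞ fun w : W => w.2.2 := contDiff_snd.comp contDiff_snd

lemma smooth_b1F {E : Type} [NormedAddCommGroup E] [NormedSpace ℝ E] {η ε T A B : E → ℝ}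
    {u : E → V6} (hη : ContDiff ℝ ∞ η) (hε : ContDiff ℝ ∞ ε) (hu : ContDiff ℝ ∞ u)
    (hT : ContDiff ℝ ∞ T) (hA : ContDiff ℝ ∞ A) (hB : ContDiff ℝ ∞ B) :
    ContDiff ℝ ∞ fun w => b1F (η w) (ε w) (u w) (T w) (A w) (B w) := by
  have hc : ∀ i, ContDiff ℝ ∞ fun w => u w i := fun i => (contDiff_apply ℝ ℝ i).comp hu
  exact ((((hA.mul (hc 0)).sub (hB.mul (hc 3))).neg).mul
    (smooth_safeInv.comp (contDiff_const.add ((hη.mul hε).mul hT)))).div_const 2

lemma smooth_b3F {E : Type} [NormedAddCommGroup E] [NormedSpace ℝ E] {η ε T A B : E → ℝ}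
    {u : E → V6} (hη : ContDiff ℝ ∞ η) (hε : ContDiff ℝ ∞ ε) (hu : ContDiff ℝ ∞ u)
    (hT : ContDiff ℝ ∞ T) (hA : ContDiff ℝ ∞ A) (hB : ContDiff ℝ ∞ B) :
    ContDiff ℝ ∞ fun w => b3F (η w) (ε w) (u w) (T w) (A w) (B w) := by
  have hc : ∀ i, ContDiff ℝ ∞ fun w => u w i := fun i => (contDiff_apply ℝ ℝ i).comp hu
  exact ((((hB.mul (hc 0)).add (hA.mul (hc 3))).neg).mul
    (smooth_safeInv.comp (contDiff_const.add ((hη.mul hε).mul hT)))).div_const 2

lemma smooth_phi {E : Type} [NormedAddCommGroup E] [NormedSpace ℝ E] {η ε T A B k : E → ℝ}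
    {u : E → V6} (hη : ContDiff ℝ ∞ η) (hε : ContDiff ℝ ∞ ε) (hu : ContDiff ℝ ∞ u)
    (hT : ContDiff ℝ ∞ T) (hA : ContDiff ℝ ∞ A) (hB : ContDiff ℝ ∞ B) (hk : ContDiff ℝ ∞ k) :
    ContDiff ℝ ∞ fun w => phi (η w) (ε w) (u w) (T w) (A w) (B w) (k w) := by
  have hc : ∀ i, ContDiff ℝ ∞ fun w => u w i := fun i => (contDiff_apply ℝ ℝ i).comp hu
  have h1 := smooth_b1F hη hε hu hT hA hB
  have h3 := smooth_b3F hη hε hu hT hA hB
  have hr : ContDiff ℝ ∞ fun w => safeInv (1 + η w * ε w * T w) :=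
    smooth_safeInv.comp (contDiff_const.add ((hη.mul hε).mul hT))
  have hd : ContDiff ℝ ∞
      fun w => safeInv (1 + η w * ε w * b1F (η w) (ε w) (u w) (T w) (A w) (B w) * u w 4) :=
    smooth_safeInv.comp (contDiff_const.add (((hη.mul hε).mul h1).mul (hc 4)))
  have hkk := (hk.add ((((hη.mul hε).mul ((hA.pow 2).add (hB.pow 2))).mul hr).div_const 2))
  have hbr := (contDiff_const (c := (1 : ℝ))).sub ((hε.mul (((hc 0).pow 2).add ((hc 3).pow 2))).mul hr)
  exact ((((((hkk.mul hbr).mul (hc 4)).sub ((hε.mul h1).mul ((hc 5).pow 2))).sub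
    ((((contDiff_const (c := (2 : ℝ))).mul hε).mul h3).mul (hc 5))).add
      (((hη.mul (hε.pow 2)).mul (h3.pow 2)).mul (hc 4))).mul hd).add (hε.mul h1)

lemma smooth_coefA {E : Type} [NormedAddCommGroup E] [NormedSpace ℝ E] {η ε T A B : E → ℝ}
    {u : E → V6} (hη : ContDiff ℝ ∞ η) (hε : ContDiff ℝ ∞ ε) (hu : ContDiff ℝ ∞ u)
    (hT : ContDiff ℝ ∞ T) (hA : ContDiff ℝ ∞ A) (hB : ContDiff ℝ ∞ B) :
    ContDiff ℝ ∞ fun w => coefA (η w) (ε w) (u w) (T w) (A w) (B w) := by
  have hc : ∀ i, ContDiff ℝ ∞ fun w => u w i := fun i => (contDiff_apply ℝ ℝ i).comp hu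
  exact ((contDiff_const (c := (1 : ℝ))).sub ((hε.mul (((hc 0).pow 2).add ((hc 3).pow 2))).mul
      (smooth_safeInv.comp (contDiff_const.add ((hη.mul hε).mul hT))))).mul
    (smooth_safeInv.comp (contDiff_const.add
      (((hη.mul hε).mul (smooth_b1F hη hε hu hT hA hB)).mul (hc 4))))

lemma smooth_tT : ContDiff ℝ ∞ tT :=
  (smooth_island.comp smooth_pos).add
    (((smooth_par 3).mul ((smooth_par 2).pow 2)).mul (smooth_blob.comp smooth_blow))

lemma smooth_tA : ContDiff ℝ ∞ tA :=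
  ((smooth_dp smooth_island).comp smooth_pos).add
    (((smooth_par 3).mul (smooth_par 2)).mul ((smooth_dp smooth_blob).comp smooth_blow))

lemma smooth_tB : ContDiff ℝ ∞ tB :=
  ((smooth_dy smooth_island).comp smooth_pos).add
    (((smooth_par 3).mul (smooth_par 2)).mul ((smooth_dy smooth_blob).comp smooth_blow))

lemma smooth_tK : ContDiff ℝ ∞ tK :=
  (smooth_islK.comp smooth_pos).add ((smooth_par 3).mul (smooth_blobK.comp smooth_blow))

lemma smooth_fullF : ContDiff ℝ ∞ fullF :=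
  smooth_phi (smooth_par 0) (smooth_par 1) (contDiff_fst.comp contDiff_snd) smooth_tT smooth_tA
    smooth_tB smooth_tK

lemma smooth_baseF : ContDiff ℝ ∞ baseF :=
  smooth_phi (smooth_par 0) (smooth_par 1) (contDiff_fst.comp contDiff_snd)
    (smooth_island.comp smooth_pos) ((smooth_dp smooth_island).comp smooth_pos)
    ((smooth_dy smooth_island).comp smooth_pos) (smooth_islK.comp smooth_pos)

lemma smooth_coefF : ContDiff ℝ ∞ coefF :=
  smooth_coefA (smooth_par 0) (smooth_par 1) (contDiff_fst.comp contDiff_snd)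
    (smooth_island.comp smooth_pos) ((smooth_dp smooth_island).comp smooth_pos)
    ((smooth_dy smooth_island).comp smooth_pos)

lemma smooth_Gb : ContDiff ℝ ∞ Gb := cutB.contDiff.mul smooth_baseF

lemma smooth_Gs : ContDiff ℝ ∞ Gs := cutB.contDiff.mul (smooth_fullF.sub smooth_baseF)

lemma smooth_Gp : ContDiff ℝ ∞ Gp := cutB.contDiff.mul smooth_coefF

lemma smooth_Gc : ContDiff ℝ ∞ Gc :=
  cutB.contDiff.mul ((smooth_fullF.sub smooth_baseF).sub
    ((((smooth_par 3).mul (smooth_blobK.comp smooth_blow)).mul (smooth_jet 4)).mul smooth_coefF))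

lemma supp_Gb : HasCompactSupport Gb := cutB.hasCompactSupport.mul_right

lemma supp_Gs : HasCompactSupport Gs := cutB.hasCompactSupport.mul_right

lemma supp_Gp : HasCompactSupport Gp := cutB.hasCompactSupport.mul_right

lemma supp_Gc : HasCompactSupport Gc := cutB.hasCompactSupport.mul_right

end smooth

/-- Uniform bounds for all affine slices of a compactly supported smooth function. -/
lemma exists_slice {E F : Type} [NormedAddCommGroup E] [NormedSpace ℝ E] [NormedAddCommGroup F]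
    [NormedSpace ℝ F] {G : E → ℝ} (hG : ContDiff ℝ ∞ G) (hc : HasCompactSupport G) (k : ℕ) :
    ∃ C : ℝ, 0 ≤ C ∧ ∀ (c c' : E) (ℓ : F →L[ℝ] E) (u : F),
      ‖iteratedFDeriv ℝ k (fun v => G (c + ℓ v)) u‖ ≤ C * ‖ℓ‖ ^ k ∧
      ‖iteratedFDeriv ℝ k (fun v => G (c + ℓ v)) u
        - iteratedFDeriv ℝ k (fun v => G (c' + ℓ v)) u‖ ≤ C * ‖c - c'‖ * ‖ℓ‖ ^ k := by
  obtain ⟨C0, hC0⟩ := (hc.iteratedFDeriv (𝕜 := ℝ) k).exists_bound_of_continuous
    (hG.continuous_iteratedFDeriv (mod_cast le_top))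
  obtain ⟨C1, hC1⟩ := (hc.iteratedFDeriv (𝕜 := ℝ) (k + 1)).exists_bound_of_continuous
    (hG.continuous_iteratedFDeriv (mod_cast le_top))
  have hC0' : 0 ≤ C0 := (norm_nonneg _).trans (hC0 0)
  have hC1' : 0 ≤ C1 := (norm_nonneg _).trans (hC1 0)
  refine ⟨max C0 C1, le_max_of_le_left hC0', fun c c' ℓ u => ?_⟩
  have hform : ∀ d : E, iteratedFDeriv ℝ k (fun v => G (d + ℓ v)) u
      = (iteratedFDeriv ℝ k G (d + ℓ u)).compContinuousLinearMap fun _ => ℓ := fun d => by
    have h := ℓ.iteratedFDeriv_comp_right (f := fun v => G (d + v))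
      (hG.comp (contDiff_const.add contDiff_id)) u (i := k) (mod_cast le_top)
    rw [Function.comp_def] at h
    rw [h, iteratedFDeriv_comp_add_left]
  have hlip : ∀ a b : E, ‖iteratedFDeriv ℝ k G a - iteratedFDeriv ℝ k G b‖ ≤ C1 * ‖a - b‖ :=
    fun a b => convex_univ.norm_image_sub_le_of_norm_fderiv_le
      (fun v _ => (hG.differentiable_iteratedFDeriv (mod_cast ENat.natCast_lt_top k)) v)
      (fun v _ => by rw [norm_fderiv_iteratedFDeriv]; exact hC1 v) trivial trivial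
  have hprod : (∏ _i : Fin k, ‖ℓ‖) = ‖ℓ‖ ^ k := by simp
  rw [hform c, hform c']
  constructor
  · refine (ContinuousMultilinearMap.norm_compContinuousLinearMap_le _ _).trans ?_
    rw [hprod]
    exact mul_le_mul_of_nonneg_right ((hC0 _).trans (le_max_left _ _)) (by positivity)
  · have e : (iteratedFDeriv ℝ k G (c + ℓ u)).compContinuousLinearMap (fun _ => ℓ)
        - (iteratedFDeriv ℝ k G (c' + ℓ u)).compContinuousLinearMap (fun _ => ℓ)
        = (iteratedFDeriv ℝ k G (c + ℓ u) - iteratedFDeriv ℝ k G (c' + ℓ u)).compContinuousLinearMap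
            fun _ => ℓ := by
      ext v; simp
    rw [e]
    refine (ContinuousMultilinearMap.norm_compContinuousLinearMap_le _ _).trans ?_
    rw [hprod]
    refine mul_le_mul_of_nonneg_right ((hlip _ _).trans ?_) (by positivity)
    rw [show c + ℓ u - (c' + ℓ u) = c - c' by abel]
    exact mul_le_mul_of_nonneg_right (le_max_right _ _) (norm_nonneg _)

/-- The linear part of the slices. -/
noncomputable def lin (m : ℝ) : V6 →L[ℝ] W :=
  (0 : V6 →L[ℝ] (Fin 4 → ℝ)).prod ((ContinuousLinearMap.id ℝ V6).prod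
    (m • (ContinuousLinearMap.proj (2 : Fin 6) : V6 →L[ℝ] ℝ).prod
      (ContinuousLinearMap.proj (1 : Fin 6))))

lemma lin_apply (m : ℝ) (u : V6) : lin m u = (0, u, (m * u 2, m * u 1)) := by
  simp [lin]

lemma norm_lin_le (m : ℝ) : ‖lin m‖ ≤ max 1 |m| := by
  refine ContinuousLinearMap.opNorm_le_bound _ (le_max_of_le_left zero_le_one) fun u => ?_
  rw [lin_apply, Prod.norm_def, Prod.norm_def, Prod.norm_def]
  have h : ∀ i : Fin 6, ‖m * u i‖ ≤ max 1 |m| * ‖u‖ := fun i => by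
    rw [norm_mul, Real.norm_eq_abs m]
    exact mul_le_mul (le_max_right _ _) (norm_le_pi_norm u i) (norm_nonneg _)
      (le_max_of_le_left zero_le_one)
  have hu : ‖u‖ ≤ max 1 |m| * ‖u‖ :=
    le_mul_of_one_le_left (norm_nonneg _) (le_max_left _ _)
  have h0 : (0 : ℝ) ≤ max 1 |m| * ‖u‖ := (norm_nonneg u).trans hu
  simp only [norm_zero]
  exact max_le h0 (max_le hu (max_le (h 2) (h 1)))

/-- The base part of the family. -/
noncomputable def HbF (η ε : ℝ) (u : V6) : ℝ := Gb ((![η, ε, 0, 0], 0) + lin 0 u)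

/-- The blob part of the family. -/
noncomputable def HsF (η ε s lam : ℝ) (u : V6) : ℝ := Gs ((![η, ε, lam⁻¹, s], 0) + lin lam u)

/-- The profile. -/
noncomputable def PF (η ε : ℝ) (u : V6) : ℝ := Gp ((![η, ε, 0, 0], 0) + lin 0 u)

lemma slice_eq (c : Fin 4 → ℝ) (m : ℝ) (u : V6) :
    ((c, 0) : W) + lin m u = (c, u, (m * u 2, m * u 1)) := by
  simp [lin_apply]

lemma norm_par_sub (η ε μ s : ℝ) :
    ‖((![η, ε, μ, s], 0) : W) - (![η, ε, μ, 0], 0)‖ ≤ |s| := by
  rw [Prod.mk_sub_mk, sub_zero, Prod.norm_def, norm_zero,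
    max_le_iff, pi_norm_le_iff_of_nonneg (abs_nonneg s)]
  refine ⟨fun i => ?_, abs_nonneg s⟩
  fin_cases i <;> simp

lemma norm_par_zero (η ε μ : ℝ) :
    ‖((![η, ε, μ, μ], 0) : W) - (![0, 0, μ, μ], 0)‖ ≤ max |η| |ε| := by
  rw [Prod.mk_sub_mk, sub_zero, Prod.norm_def, norm_zero,
    max_le_iff, pi_norm_le_iff_of_nonneg (le_max_of_le_left (abs_nonneg η))]
  refine ⟨fun i => ?_, le_max_of_le_left (abs_nonneg η)⟩
  fin_cases i <;> simp

lemma blob_zero {z : P2} (h : 1 < rsq z) :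
    blob z = 0 ∧ dp blob z = 0 ∧ dy blob z = 0 ∧ blobK z = 0 := by
  have hev : ∀ᶠ v in nhds z, blob v = 0 := by
    filter_upwards [smooth_rsq.continuous.continuousAt.eventually (eventually_gt_nhds h)] with v hv
    refine bump1.zero_of_le_dist ?_
    rw [dist_zero_right, Real.norm_eq_abs]
    exact hv.le.trans (le_abs_self _)
  have hd : ∀ d : P2, (fun v => fderiv ℝ blob v d) =ᶠ[nhds z] fun _ => 0 := fun d => by
    filter_upwards [hev.eventually_nhds] with v hv
    rw [Filter.EventuallyEq.fderiv_eq (f := fun _ => (0 : ℝ)) hv]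
    simp
  refine ⟨hev.self_of_nhds, (hd _).self_of_nhds, (hd _).self_of_nhds, ?_⟩
  have h1 : dp (dp blob) z = 0 := by
    show fderiv ℝ (fun v => fderiv ℝ blob v (1, 0)) z (1, 0) = 0
    rw [(hd (1, 0)).fderiv_eq]; simp
  have h2 : dy (dy blob) z = 0 := by
    show fderiv ℝ (fun v => fderiv ℝ blob v (0, 1)) z (0, 1) = 0
    rw [(hd (0, 1)).fderiv_eq]; simp
  rw [blobK, h1, h2]; simp

lemma fullF_eq_baseF {w : W} (h : 1 < rsq w.2.2) : fullF w = baseF w := by
  obtain ⟨h0, h1, h2, h3⟩ := blob_zero h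
  simp [fullF, baseF, tT, tA, tB, tK, h0, h1, h2, h3]

lemma fullF_sub_s_zero {w : W} (h : w.1 3 = 0) : fullF w = baseF w := by
  simp [fullF, baseF, tT, tA, tB, tK, h]

lemma rsq_gt_one {a b : ℝ} (h : 1 < |a| ∨ 1 < |b|) : 1 < rsq (a, b) := by
  unfold rsq
  rcases h with h | h
  · have := one_lt_pow₀ h two_ne_zero
    rw [sq_abs] at this
    nlinarith [sq_nonneg b]
  · have := one_lt_pow₀ h two_ne_zero
    rw [sq_abs] at this
    nlinarith [sq_nonneg a]

lemma cutB_one {w : W} (h1 : ‖w.1‖ ≤ 1) (h2 : ‖w.2.1‖ ≤ 5) (h3 : ‖w.2.2‖ ≤ 5) :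
    cutB w = 1 := by
  refine cutB.one_of_mem_closedBall ?_
  rw [mem_closedBall, dist_zero_right, Prod.norm_def, Prod.norm_def]
  simp only [cutB]
  exact max_le (by linarith) (max_le (by linarith) (by linarith))

lemma norm_par_le {η ε μ s : ℝ} (hη : |η| ≤ 1) (hε : |ε| ≤ 1) (hμ : |μ| ≤ 1) (hs : |s| ≤ 1) :
    ‖![η, ε, μ, s]‖ ≤ 1 := by
  rw [pi_norm_le_iff_of_nonneg zero_le_one]
  intro i
  fin_cases i <;> simpa

/-- The sum of both parts is the true nonlinearity near the origin. -/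
lemma HbF_add_HsF {η ε s lam : ℝ} (hη : |η| ≤ 1) (hε : |ε| ≤ 1) (hμ : |lam⁻¹| ≤ 1) (hs : |s| ≤ 1)
    {u : V6} (hu : ‖u‖ ≤ 5) :
    HbF η ε u + HsF η ε s lam u = fullF (![η, ε, lam⁻¹, s], u, (lam * u 2, lam * u 1)) := by
  have hb : HbF η ε u = baseF (![η, ε, lam⁻¹, s], u, (lam * u 2, lam * u 1)) := by
    rw [HbF, slice_eq, Gb, cutB_one (norm_par_le hη hε (by simp) (by simp)) hu
      (by simp), one_mul]
    rfl
  rw [hb, HsF, slice_eq, Gs]
  by_cases h : 1 < rsq (lam * u 2, lam * u 1)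
  · rw [fullF_eq_baseF (w := (![η, ε, lam⁻¹, s], u, (lam * u 2, lam * u 1))) h]; ring
  · rw [cutB_one (norm_par_le hη hε hμ hs) hu, one_mul, add_sub_cancel]
    have h' := not_lt.1 h
    unfold rsq at h'
    rw [Prod.norm_def, max_le_iff, Real.norm_eq_abs, Real.norm_eq_abs]
    have a1 := (sq_le_one_iff_abs_le_one (lam * u 2)).1 (by nlinarith [sq_nonneg (lam * u 1)])
    have a2 := (sq_le_one_iff_abs_le_one (lam * u 1)).1 (by nlinarith [sq_nonneg (lam * u 2)])
    exact ⟨by linarith, by linarith⟩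

lemma island_eq {z : P2} (h : rsq z < 36) :
    island z = rsq z / 2 - rsq z ^ 2 / 8 := by
  rw [island, bumpBig.one_of_mem_closedBall, one_mul]
  rw [mem_closedBall, dist_zero_right, Real.norm_eq_abs,
    abs_of_nonneg (show 0 ≤ rsq z by unfold rsq; positivity)]
  exact h.le

lemma islK_eq {z : P2} (h : rsq z < 36) : islK z = rsq z - 1 := by
  have hf : ∀ v : P2, HasFDerivAt (fun v : P2 => rsq v)
      ((2 * v.1) • ContinuousLinearMap.fst ℝ ℝ ℝ + (2 * v.2) • ContinuousLinearMap.snd ℝ ℝ ℝ) v := by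
    intro v
    have := ((hasFDerivAt_fst (𝕜 := ℝ) (p := v)).pow 2).add ((hasFDerivAt_snd (𝕜 := ℝ) (p := v)).pow 2)
    exact this.congr_fderiv (by ext <;> simp)
  have hnear : ∀ᶠ v in nhds z, island v = rsq v / 2 - rsq v ^ 2 / 8 := by
    filter_upwards [smooth_rsq.continuous.continuousAt.eventually (eventually_lt_nhds h)] with v hv
    exact island_eq hv
  have hd : ∀ d : P2, (fun v => fderiv ℝ island v d) =ᶠ[nhds z]
      fun v => (1 / 2 - rsq v / 4) * (2 * v.1 * d.1 + 2 * v.2 * d.2) := fun d => by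
    filter_upwards [hnear.eventually_nhds] with v hv
    rw [Filter.EventuallyEq.fderiv_eq (f := fun v => rsq v / 2 - rsq v ^ 2 / 8) hv]
    have := ((hf v).mul_const (1 / 2 : ℝ)).sub (((hf v).pow 2).mul_const (1 / 8 : ℝ))
    simp only [mul_one_div] at this
    change HasFDerivAt (fun v : P2 => rsq v / 2 - rsq v ^ 2 / 8) _ v at this
    rw [HasFDerivAt.fderiv this]
    simp
    ring
  have h1 : dp (dp island) z = 1 - rsq z / 2 - z.1 ^ 2 := by
    show fderiv ℝ (fun v => fderiv ℝ island v (1, 0)) z (1, 0) = _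
    rw [(hd (1, 0)).fderiv_eq]
    simp only [mul_one, mul_zero, add_zero]
    have := (((hf z).mul_const (1 / 4 : ℝ)).const_sub (1 / 2 : ℝ)).mul
      ((hasFDerivAt_fst (𝕜 := ℝ) (p := z)).const_mul 2)
    simp only [mul_one_div] at this
    change HasFDerivAt (fun v : P2 => (1 / 2 - rsq v / 4) * (2 * v.1)) _ z at this
    rw [HasFDerivAt.fderiv this]
    simp
    ring
  have h2 : dy (dy island) z = 1 - rsq z / 2 - z.2 ^ 2 := by
    show fderiv ℝ (fun v => fderiv ℝ island v (0, 1)) z (0, 1) = _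
    rw [(hd (0, 1)).fderiv_eq]
    simp only [mul_one, mul_zero, zero_add]
    have := (((hf z).mul_const (1 / 4 : ℝ)).const_sub (1 / 2 : ℝ)).mul
      ((hasFDerivAt_snd (𝕜 := ℝ) (p := z)).const_mul 2)
    simp only [mul_one_div] at this
    change HasFDerivAt (fun v : P2 => (1 / 2 - rsq v / 4) * (2 * v.2)) _ z at this
    rw [HasFDerivAt.fderiv this]
    simp
    ring
  rw [islK, h1, h2]
  unfold rsq
  ring

lemma HbF_zero {u : V6} (hu : ‖u‖ < 4.2) : HbF 0 0 u = H0 u := by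
  rw [HbF, slice_eq, Gb, cutB_one (norm_par_le (by simp) (by simp) (by simp) (by simp))
    (by linarith) (by simp), one_mul]
  have hc : ∀ i, u i ^ 2 ≤ 17.64 := fun i => by
    have := (norm_le_pi_norm u i).trans_lt hu
    rw [Real.norm_eq_abs] at this
    nlinarith [abs_nonneg (u i), sq_abs (u i)]
  have hr : rsq (u 2, u 1) < 36 := by unfold rsq; linarith [hc 1, hc 2]
  simp [baseF, phi, b1F, H0, islK_eq hr, safeInv_one, rsq]

/-- The bounds of the family. -/
theorem exists_family : ∃ L : ℕ → ℝ, ∀ δ : ℝ, 0 < δ → ∃ d : ℝ, 0 < d ∧ d ≤ 1 ∧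
    ∀ η ε s lam : ℝ, 0 ≤ η → η ≤ d → 0 ≤ ε → ε ≤ d → 0 ≤ s → s ≤ d → d⁻¹ ≤ lam →
      HFam L δ s lam (HbF η ε) (HsF η ε s lam) := by
  choose Cb hCb0 hCb using exists_slice (F := V6) smooth_Gb supp_Gb
  choose Cs hCs0 hCs using exists_slice (F := V6) smooth_Gs supp_Gs
  choose Cp hCp0 hCp using exists_slice (F := V6) smooth_Gp supp_Gp
  choose Cc hCc0 hCc using exists_slice (F := ℝ) smooth_Gc supp_Gc
  refine ⟨fun k => Cb k + Cs k + Cp k + Cp 1 + Cc 1, fun δ hδ => ?_⟩
  refine ⟨min (min 1 (δ / (Cb 1 + Cb 2 + 1))) (1 / (2 * Cp 0 + 2)),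
    lt_min (lt_min one_pos (div_pos hδ (by linarith [hCb0 1, hCb0 2])))
      (div_pos one_pos (by linarith [hCp0 0])),
    (min_le_left _ _).trans (min_le_left _ _), fun η ε s lam hη hηd hε hεd hs hsd hlam => ?_⟩
  set d := min (min 1 (δ / (Cb 1 + Cb 2 + 1))) (1 / (2 * Cp 0 + 2)) with hd
  have hd0 : 0 < d := lt_min (lt_min one_pos (div_pos hδ (by linarith [hCb0 1, hCb0 2])))
    (div_pos one_pos (by linarith [hCp0 0]))
  have hd1 : d ≤ 1 := (min_le_left _ _).trans (min_le_left _ _)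
  have hlam1 : 1 ≤ lam := le_trans ((one_le_inv₀ hd0).2 hd1) hlam
  have hlam0 : 0 < lam := by linarith
  have hμ : |lam⁻¹| ≤ 1 := by rw [abs_of_pos (by positivity)]; exact inv_le_one_of_one_le₀ hlam1
  have hη1 : |η| ≤ 1 := by rw [abs_of_nonneg hη]; linarith
  have hε1 : |ε| ≤ 1 := by rw [abs_of_nonneg hε]; linarith
  have hs1 : |s| ≤ 1 := by rw [abs_of_nonneg hs]; linarith
  have hl0 : ‖lin 0‖ ≤ 1 := (norm_lin_le 0).trans (by simp)
  have hll : ‖lin lam‖ ≤ lam := (norm_lin_le lam).trans (max_le hlam1 (abs_of_pos hlam0).le)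
  have hp0 : ∀ k, ‖lin 0‖ ^ k ≤ 1 := fun k => pow_le_one₀ (norm_nonneg _) hl0
  have hpar : ‖((![η, ε, 0, 0], 0) : W) - (![0, 0, 0, 0], 0)‖ ≤ d :=
    (norm_par_zero η ε 0).trans (max_le (by rw [abs_of_nonneg hη]; exact hηd)
      (by rw [abs_of_nonneg hε]; exact hεd))
  refine ⟨smooth_Gb.comp (contDiff_const.add (lin 0).contDiff),
    smooth_Gs.comp (contDiff_const.add (lin lam).contDiff), fun k u => ?_, fun k u => ?_,
    fun u hu => ?_, fun u hu => ?_, fun u hu => ?_, ⟨PF η ε, fun u v _ _ => ?_, fun u hu => ?_⟩⟩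
  · refine ((hCb k _ 0 (lin 0) u).1.trans (mul_le_of_le_one_right (hCb0 k) (hp0 k))).trans ?_
    linarith [hCs0 k, hCp0 k, hCp0 1, hCc0 1]
  · have h := (hCs k (![η, ε, lam⁻¹, s], 0) (![η, ε, lam⁻¹, 0], 0) (lin lam) u).2
    have hz : (fun v => Gs ((![η, ε, lam⁻¹, 0], 0) + lin lam v)) = fun _ => 0 := by
      funext v
      rw [slice_eq, Gs, fullF_sub_s_zero (by simp)]
      ring
    rw [hz, iteratedFDeriv_fun_zero] at h
    simp only [Pi.zero_apply, sub_zero] at h
    refine h.trans (le_trans (mul_le_mul (mul_le_mul_of_nonneg_left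
      ((norm_par_sub η ε lam⁻¹ s).trans (abs_of_nonneg hs).le) (hCs0 k))
      (pow_le_pow_left₀ (norm_nonneg _) hll k) (by positivity) (mul_nonneg (hCs0 k) hs)) ?_)
    rw [mul_assoc]
    refine mul_le_mul_of_nonneg_right ?_ (by positivity)
    linarith [hCb0 k, hCp0 k, hCp0 1, hCc0 1]
  · rw [HsF, slice_eq, Gs, fullF_eq_baseF (w := (![η, ε, lam⁻¹, s], u, (lam * u 2, lam * u 1)))
      (rsq_gt_one (by rwa [abs_mul, abs_mul, abs_of_pos hlam0]))]
    ring
  all_goals try
    have hev : HbF 0 0 =ᶠ[nhds u] H0 := by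
      filter_upwards [continuous_norm.continuousAt.eventually
        (eventually_lt_nhds (show ‖u‖ < 4.2 by linarith))] with v hv
      exact HbF_zero hv
  · have h := (hCb 1 (![η, ε, 0, 0], 0) (![0, 0, 0, 0], 0) (lin 0) u).2
    change ‖iteratedFDeriv ℝ 1 (HbF η ε) u - iteratedFDeriv ℝ 1 (HbF 0 0) u‖ ≤ _ at h
    rw [(hev.iteratedFDeriv (𝕜 := ℝ) 1).self_of_nhds] at h
    have e : ‖fderiv ℝ (HbF η ε) u - fderiv ℝ H0 u‖
        = ‖iteratedFDeriv ℝ 1 (HbF η ε) u - iteratedFDeriv ℝ 1 H0 u‖ := by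
      have h1 : DifferentiableAt ℝ (HbF η ε) u :=
        ((smooth_Gb.comp (contDiff_const.add (lin 0).contDiff)).differentiable (by simp)) u
      have hH : ContDiff ℝ ∞ H0 := by unfold H0; fun_prop
      have h2 : DifferentiableAt ℝ H0 u := (hH.differentiable (by simp)) u
      rw [← fderiv_sub h1 h2, ← norm_iteratedFDeriv_one, iteratedFDeriv_sub_apply]
      · exact (smooth_Gb.comp (contDiff_const.add (lin 0).contDiff)).contDiffAt.of_le
          (mod_cast le_top)
      · exact hH.contDiffAt.of_le (mod_cast le_top)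
    rw [e]
    refine h.trans (le_trans (mul_le_mul (mul_le_mul_of_nonneg_left hpar (hCb0 1)) (hp0 1)
      (by positivity) (mul_nonneg (hCb0 1) hd0.le)) ?_)
    have : d * (Cb 1 + Cb 2 + 1) ≤ δ :=
      (le_div_iff₀ (by linarith [hCb0 1, hCb0 2])).1 ((min_le_left _ _).trans (min_le_right _ _))
    linarith [mul_nonneg hd0.le (hCb0 2)]
  · have h := (hCb 2 (![η, ε, 0, 0], 0) (![0, 0, 0, 0], 0) (lin 0) u).2
    change ‖iteratedFDeriv ℝ 2 (HbF η ε) u - iteratedFDeriv ℝ 2 (HbF 0 0) u‖ ≤ _ at h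
    rw [(hev.iteratedFDeriv (𝕜 := ℝ) 2).self_of_nhds] at h
    refine h.trans (le_trans (mul_le_mul (mul_le_mul_of_nonneg_left hpar (hCb0 2)) (hp0 2)
      (by positivity) (mul_nonneg (hCb0 2) hd0.le)) ?_)
    have : d * (Cb 1 + Cb 2 + 1) ≤ δ :=
      (le_div_iff₀ (by linarith [hCb0 1, hCb0 2])).1 ((min_le_left _ _).trans (min_le_right _ _))
    linarith [mul_nonneg hd0.le (hCb0 1)]
  · have hl : ∀ a : V6, PF η ε a
        = (fun b => Gp (((![η, ε, 0, 0], 0) + lin 0 a) + lin 0 b)) 0 := fun a => by simp [PF]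
    have h := (hCp 0 ((![η, ε, 0, 0], 0) + lin 0 u) ((![η, ε, 0, 0], 0) + lin 0 v) (lin 0) 0).2
    rw [pow_zero, mul_one] at h
    have h2 : |PF η ε u - PF η ε v| ≤ Cp 0 * ‖lin 0 (u - v)‖ := by
      rw [map_sub]
      refine le_trans (le_of_eq ?_) (le_trans h (le_of_eq ?_))
      · rw [hl u, hl v, ← Real.norm_eq_abs]
        rw [← (continuousMultilinearCurryFin0 ℝ V6 ℝ).symm.norm_map, map_sub,
          iteratedFDeriv_zero_eq_comp, iteratedFDeriv_zero_eq_comp]
        rfl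
      · rw [add_sub_add_left_eq_sub]
    refine h2.trans ?_
    refine mul_le_mul ?_ (((lin 0).le_opNorm _).trans (mul_le_of_le_one_left (norm_nonneg _) hl0))
      (norm_nonneg _) (by linarith [hCb0 0, hCs0 0, hCp0 0, hCp0 1, hCc0 1])
    linarith [hCb0 0, hCs0 0, hCp0 1, hCc0 1]
  · constructor
    · have h := (hCp 0 (![η, ε, 0, 0], 0) (![0, 0, 0, 0], 0) (lin 0) u).2
      rw [pow_zero, mul_one] at h
      have h0 : PF 0 0 u = 1 := by
        rw [PF, slice_eq, Gp, cutB_one (norm_par_le (by simp) (by simp) (by simp) (by simp))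
          (by linarith) (by simp), one_mul]
        simp [coefF, coefA, safeInv_one]
      have e : |PF η ε u - 1| ≤ Cp 0 * ‖((![η, ε, 0, 0], 0) : W) - (![0, 0, 0, 0], 0)‖ := by
        refine le_trans (le_of_eq ?_) h
        rw [← h0, ← Real.norm_eq_abs, ← (continuousMultilinearCurryFin0 ℝ V6 ℝ).symm.norm_map,
          map_sub, iteratedFDeriv_zero_eq_comp, iteratedFDeriv_zero_eq_comp]
        rfl
      refine e.trans ((mul_le_mul_of_nonneg_left hpar (hCp0 0)).trans ?_)
      have : d * (2 * Cp 0 + 2) ≤ 1 :=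
        (le_div_iff₀ (by linarith [hCp0 0])).1 (min_le_right _ _)
      linarith
    · set e2 : W := (![0, 0, 1, 0], 0) with he2
      set m2 : ℝ →L[ℝ] W := (1 : ℝ →L[ℝ] ℝ).smulRight e2 with hm2
      set b : ℝ → W := fun t => (![η, ε, 0, t], u, (lam * u 2, lam * u 1)) with hb
      have hbm : ∀ t μ, b t + m2 μ = (![η, ε, μ, t], u, (lam * u 2, lam * u 1)) := fun t μ => by
        have e : m2 μ = (![0, 0, μ, 0], 0) := by
          simp [hm2, he2, ContinuousLinearMap.smulRight_apply, Matrix.smul_cons]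
        rw [e, hb, Prod.mk_add_mk, add_zero]
        congr 1
        ext i; fin_cases i <;> simp
      have hm2n : ‖m2‖ ≤ 1 := by
        refine ContinuousLinearMap.opNorm_le_bound _ zero_le_one fun t => ?_
        rw [hm2, ContinuousLinearMap.smulRight_apply, norm_smul, mul_comm]
        refine mul_le_mul ?_ le_rfl (norm_nonneg _) zero_le_one
        rw [he2, Prod.norm_def, norm_zero]
        exact max_le (norm_par_le (by simp) (by simp) (by simp) (by simp)) zero_le_one
      set f : ℝ → ℝ := fun μ => Gc (b s + m2 μ) - Gc (b 0 + m2 μ) with hf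
      have hsm : ∀ t, ContDiff ℝ ∞ fun μ => Gc (b t + m2 μ) := fun t =>
        smooth_Gc.comp (contDiff_const.add m2.contDiff)
      have hder : ∀ μ : ℝ, ‖fderiv ℝ f μ‖ ≤ Cc 1 * s := fun μ => by
        rw [← norm_iteratedFDeriv_one, show f = (fun μ => Gc (b s + m2 μ)) - fun μ => Gc (b 0 + m2 μ) from rfl,
          iteratedFDeriv_sub_apply
          ((hsm s).contDiffAt.of_le (mod_cast le_top)) ((hsm 0).contDiffAt.of_le (mod_cast le_top))]
        refine ((hCc 1 (b s) (b 0) m2 μ).2).trans ?_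
        refine le_trans (mul_le_of_le_one_right (mul_nonneg (hCc0 1) (norm_nonneg _))
          (pow_le_one₀ (norm_nonneg _) hm2n)) (mul_le_mul_of_nonneg_left ?_ (hCc0 1))
        have e : b s - b 0 = ((![η, ε, 0, s], 0) : W) - (![η, ε, 0, 0], 0) := by
          simp [hb]
        rw [e]
        exact (norm_par_sub η ε 0 s).trans (abs_of_nonneg hs).le
      have hmv : ‖f lam⁻¹ - f 0‖ ≤ Cc 1 * s * ‖lam⁻¹ - 0‖ :=
        convex_univ.norm_image_sub_le_of_norm_fderiv_le
          (fun μ _ => (((hsm s).sub (hsm 0)).differentiable (by simp)) μ) (fun μ _ => hder μ)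
          trivial trivial
      rw [sub_zero, Real.norm_eq_abs, Real.norm_eq_abs, abs_of_pos (inv_pos.2 hlam0)] at hmv
      have hs0 : ∀ μ, Gc (b 0 + m2 μ) = 0 := fun μ => by
        rw [hbm, Gc, fullF_sub_s_zero (by simp)]; simp
      have hμ0 : Gc (b s + m2 0) = 0 := by
        rw [hbm, Gc]
        simp [fullF, baseF, coefF, tT, tA, tB, tK, phi_add]
      have hp : PF η ε u = coefF (![η, ε, lam⁻¹, s], u, (lam * u 2, lam * u 1)) := by
        rw [PF, slice_eq, Gp, cutB_one (norm_par_le hη1 hε1 (by simp) (by simp)) (by linarith)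
          (by simp), one_mul]
        rfl
      have hval : f lam⁻¹ - f 0 = HsF η ε s lam u - s * blobK (lam * u 2, lam * u 1) * u 4
          * PF η ε u := by
        simp only [hf, hs0, hμ0, sub_zero]
        rw [hbm, HsF, slice_eq, hp, Gs, Gc]
        by_cases h : 1 < rsq (lam * u 2, lam * u 1)
        · rw [fullF_eq_baseF (w := (![η, ε, lam⁻¹, s], u, (lam * u 2, lam * u 1))) h]
          simp [(blob_zero h).2.2.2]
        · rw [cutB_one (norm_par_le hη1 hε1 hμ hs1) (by linarith), one_mul, one_mul]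
          · rfl
          have h' := not_lt.1 h
          unfold rsq at h'
          rw [Prod.norm_def, max_le_iff, Real.norm_eq_abs, Real.norm_eq_abs]
          have a1 := (sq_le_one_iff_abs_le_one (lam * u 2)).1 (by nlinarith [sq_nonneg (lam * u 1)])
          have a2 := (sq_le_one_iff_abs_le_one (lam * u 1)).1 (by nlinarith [sq_nonneg (lam * u 2)])
          exact ⟨by linarith, by linarith⟩
      rw [← hval]
      refine hmv.trans ?_
      rw [mul_assoc, mul_div_assoc, ← div_eq_mul_inv]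
      refine mul_le_mul_of_nonneg_right ?_ (by positivity)
      linarith [hCb0 0, hCs0 0, hCp0 0, hCp0 1]

end Vale.Agent.P229.Fam
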