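import Vale.Agent.P229.FamilyH

/-
P229: the change of variables `(X, Y) ↦ (Z_X, Y)` for `Z = X^2 / 2 + g` with small `g`.
-/

namespace Vale.Agent.P229.Fam

open scoped ContDiff NNReal

/-- The derivative of the correction in terms of the derivative of the perturbation. -/
noncomputable def invPhi (A : P2 →L[ℝ] ℝ) : P2 →L[ℝ] ℝ := (-safeInv (1 + A (1, 0))) • A

lemma smooth_invPhi : ContDiff ℝ ∞ invPhi :=
  (smooth_safeInv.comp (contDiff_const.add
    (ContinuousLinearMap.apply ℝ ℝ ((1 : ℝ), (0 : ℝ))).contDiff)).neg.smul contDiff_id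

lemma apply_e1_le {A : P2 →L[ℝ] ℝ} (hA : ‖A‖ ≤ 1 / 2) : |A (1, 0)| ≤ 1 / 2 := by
  refine (le_trans ?_ hA)
  rw [← Real.norm_eq_abs]
  exact A.unit_le_opNorm _ (by simp [Prod.norm_def])

lemma norm_invPhi_le {A : P2 →L[ℝ] ℝ} (hA : ‖A‖ ≤ 1 / 2) : ‖invPhi A‖ ≤ 2 * ‖A‖ := by
  have h := apply_e1_le hA
  rw [invPhi, safeInv_eq (by simpa using h), norm_smul, norm_neg, norm_inv, Real.norm_eq_abs]
  refine mul_le_mul_of_nonneg_right ?_ (norm_nonneg _)
  have h1 : 1 / 2 ≤ |1 + A (1, 0)| := by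
    have := abs_le.1 h
    rw [abs_of_nonneg (by linarith)]
    linarith
  calc |1 + A (1, 0)|⁻¹ ≤ (1 / 2 : ℝ)⁻¹ := inv_anti₀ (by norm_num) h1
    _ = 2 := by norm_num

lemma exists_invPhi_bound : ∃ C : ℝ, 0 ≤ C ∧ ∀ i ≤ 16, ∀ A : P2 →L[ℝ] ℝ, ‖A‖ ≤ 1 / 2 →
    ‖iteratedFDeriv ℝ i invPhi A‖ ≤ C := by
  have : ProperSpace (P2 →L[ℝ] ℝ) := FiniteDimensional.proper ℝ _
  choose C hC using fun i : ℕ => (isCompact_closedBall (0 : P2 →L[ℝ] ℝ) (1 / 2)).exists_bound_of_continuousOn
    (f := fun A => iteratedFDeriv ℝ i invPhi A)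
    (smooth_invPhi.continuous_iteratedFDeriv (mod_cast le_top)).continuousOn
  refine ⟨∑ i ∈ Finset.range 17, max (C i) 0, Finset.sum_nonneg fun i _ => le_max_right _ _,
    fun i hi A hA => ?_⟩
  refine (hC i A (by simpa using hA)).trans ((le_max_left _ 0).trans ?_)
  exact Finset.single_le_sum (f := fun i => max (C i) 0) (fun i _ => le_max_right _ _)
    (Finset.mem_range.2 (by omega))

lemma norm_iteratedFDeriv_dp {f : P2 → ℝ} (hf : ContDiff ℝ ∞ f) (i : ℕ) (z : P2) :
    ‖iteratedFDeriv ℝ i (dp f) z‖ ≤ ‖iteratedFDeriv ℝ (i + 1) f z‖ := by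
  refine (norm_iteratedFDeriv_clm_apply_const (f := fderiv ℝ f) (c := ((1 : ℝ), (0 : ℝ)))
    ((hf.fderiv_right (m := ∞) le_rfl).contDiffAt) (mod_cast le_top)).trans ?_
  rw [norm_iteratedFDeriv_fderiv]
  exact mul_le_of_le_one_left (norm_nonneg _) (by simp [Prod.norm_def])

lemma norm_iteratedFDeriv_dy {f : P2 → ℝ} (hf : ContDiff ℝ ∞ f) (i : ℕ) (z : P2) :
    ‖iteratedFDeriv ℝ i (dy f) z‖ ≤ ‖iteratedFDeriv ℝ (i + 1) f z‖ := by
  refine (norm_iteratedFDeriv_clm_apply_const (f := fderiv ℝ f) (c := ((0 : ℝ), (1 : ℝ)))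
    ((hf.fderiv_right (m := ∞) le_rfl).contDiffAt) (mod_cast le_top)).trans ?_
  rw [norm_iteratedFDeriv_fderiv]
  exact mul_le_of_le_one_left (norm_nonneg _) (by simp [Prod.norm_def])

lemma norm_iteratedFDeriv_self_le (i : ℕ) (hi : 1 ≤ i) (z : P2) :
    ‖iteratedFDeriv ℝ i (fun v : P2 => v) z‖ ≤ 1 := by
  obtain ⟨m, rfl⟩ : ∃ m, i = m + 1 := ⟨i - 1, by omega⟩
  rw [← norm_iteratedFDeriv_fderiv]
  have e : fderiv ℝ (fun v : P2 => v) = fun _ => ContinuousLinearMap.id ℝ P2 := by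
    funext v; exact (hasFDerivAt_id v).fderiv
  rw [e]
  rcases m with _ | m
  · rw [norm_iteratedFDeriv_zero]; exact ContinuousLinearMap.norm_id_le
  · rw [iteratedFDeriv_const_of_ne (by omega)]
    simp

/-- New coordinates for a small perturbation of `X^2 / 2`. -/
theorem exists_coords : ∀ δ : ℝ, 0 < δ → ∃ d : ℝ, 0 < d ∧ ∀ g : P2 → ℝ, ContDiff ℝ ∞ g →
    (∀ i ≤ 18, ∀ z, ‖iteratedFDeriv ℝ i g z‖ ≤ d) →
    ∃ x q : P2 → ℝ, ContDiff ℝ ∞ x ∧ ContDiff ℝ ∞ q ∧
      (∀ k ≤ 16, ∀ z, ‖iteratedFDeriv ℝ k (fun v => x v - v.1) z‖ ≤ δ) ∧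
      (∀ k ≤ 15, ∀ z, ‖iteratedFDeriv ℝ k q z‖ ≤ δ) ∧
      (dp g (0, 0) = 0 → x (0, 0) = 0) ∧
      ∀ z : P2, |dp (dp g) (x z, z.2)| ≤ 1 / 2 ∧ z.1 = x z + dp g (x z, z.2) ∧
        q z = dy g (x z, z.2) ∧ dp x z = 1 / (1 + dp (dp g) (x z, z.2)) ∧
        dy x z = -dy (dp g) (x z, z.2) / (1 + dp (dp g) (x z, z.2)) ∧
        dp q z = -dy x z ∧
        dy q z = dy (dy g) (x z, z.2)
          - dy (dp g) (x z, z.2) ^ 2 / (1 + dp (dp g) (x z, z.2)) := by
  intro δ hδ
  obtain ⟨C, hC0, hC⟩ := exists_invPhi_bound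
  obtain ⟨F, hF1, hF⟩ : ∃ F : ℝ, 1 ≤ F ∧ ∀ i ≤ 16, (Nat.factorial i : ℝ) * 2 ^ i ≤ F := by
    refine ⟨(Nat.factorial 16 : ℝ) * 2 ^ 16, ?_, fun i hi => ?_⟩
    · exact one_le_mul_of_one_le_of_one_le (by exact_mod_cast Nat.factorial_pos 16)
        (one_le_pow₀ one_le_two)
    · exact mul_le_mul (by exact_mod_cast Nat.factorial_le hi)
        (pow_le_pow_right₀ one_le_two hi) (by positivity) (Nat.cast_nonneg _)
  have hF' : ∀ i ≤ 16, (Nat.factorial i : ℝ) ≤ F := fun i hi =>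
    (le_mul_of_one_le_right (Nat.cast_nonneg _) (one_le_pow₀ one_le_two)).trans (hF i hi)
  have hF0 : 0 ≤ F := by linarith
  set T : ℝ := min δ 1 / (3 * F * (F * C + 3)) with hT
  have hT0 : 0 < T := by positivity
  set D : ℝ := min T (1 / 4) with hD
  have hD0 : 0 < D := lt_min hT0 (by norm_num)
  have hD1 : D ≤ 1 := (min_le_right _ _).trans (by norm_num)
  refine ⟨D ^ 18, by positivity, fun g hg hgb => ?_⟩
  set d : ℝ := D ^ 18 with hd
  have hd0 : 0 ≤ d := by positivity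
  have hdD : d ≤ D := pow_le_of_le_one hD0.le hD1 (by norm_num)
  have hd4 : d ≤ 1 / 4 := hdD.trans (min_le_right _ _)
  set h : P2 → ℝ := dp g with hh
  have hhs : ContDiff ℝ ∞ h := smooth_dp hg
  have hhb : ∀ i ≤ 17, ∀ w, ‖iteratedFDeriv ℝ i h w‖ ≤ d := fun i hi w =>
    (norm_iteratedFDeriv_dp hg i w).trans (hgb (i + 1) (by omega) w)
  have hDh : ∀ w, ‖fderiv ℝ h w‖ ≤ d := fun w => by
    rw [← norm_iteratedFDeriv_one]; exact hhb 1 (by norm_num) w
  have hhL : ∀ a b : P2, |h a - h b| ≤ d * ‖a - b‖ := fun a b => by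
    rw [← Real.norm_eq_abs]
    exact convex_univ.norm_image_sub_le_of_norm_fderiv_le
      (fun w _ => (hhs.differentiable (by simp)) w) (fun w _ => hDh w) trivial trivial
  have hcon : ∀ z : P2, ContractingWith (1 / 4 : ℝ≥0) fun X : ℝ => z.1 - h (X, z.2) := fun z => by
    refine ⟨by rw [← NNReal.coe_lt_coe]; norm_num, LipschitzWith.of_dist_le_mul fun a b => ?_⟩
    rw [Real.dist_eq, Real.dist_eq]
    calc |z.1 - h (a, z.2) - (z.1 - h (b, z.2))| = |h (b, z.2) - h (a, z.2)| := by ring_nf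
      _ ≤ d * ‖((b, z.2) : P2) - (a, z.2)‖ := hhL _ _
      _ ≤ _ := by
          simp only [Prod.mk_sub_mk, sub_self, Prod.norm_def, norm_zero, Real.norm_eq_abs]
          rw [max_eq_left (abs_nonneg _), abs_sub_comm]
          exact mul_le_mul_of_nonneg_right (by simpa using hd4) (abs_nonneg _)
  set x : P2 → ℝ := fun z => (hcon z).fixedPoint with hx
  have hfix : ∀ z : P2, z.1 - h (x z, z.2) = x z := fun z =>
    (hcon z).fixedPoint_isFixedPt
  set Ψ : P2 → P2 := fun z => (x z, z.2) with hΨ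
  have hxlip : LipschitzWith 4 x := by
    refine LipschitzWith.of_dist_le_mul fun a b => ?_
    rw [Real.dist_eq, dist_eq_norm]
    have h1 := hhL (x a, a.2) (x b, b.2)
    have e : ‖((x a, a.2) : P2) - (x b, b.2)‖ ≤ |x a - x b| + ‖a - b‖ := by
      simp only [Prod.mk_sub_mk, Prod.norm_def, Real.norm_eq_abs]
      exact max_le (le_add_of_nonneg_right (by positivity))
        (le_add_of_nonneg_of_le (abs_nonneg _) (le_max_right _ _))
    have h2 : |x a - x b| ≤ ‖a - b‖ + |h (x a, a.2) - h (x b, b.2)| := by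
      have e1 : x a - x b = (a - b).1 - (h (x a, a.2) - h (x b, b.2)) := by
        rw [Prod.fst_sub]; linarith [hfix a, hfix b]
      rw [e1]
      exact (abs_sub _ _).trans (add_le_add (norm_fst_le (a - b)) le_rfl)
    have h3 := h1.trans (mul_le_mul_of_nonneg_right hd4 (norm_nonneg _))
    have := abs_nonneg (x a - x b)
    push_cast
    linarith
  have hΨc : Continuous Ψ := hxlip.continuous.prodMk continuous_snd
  have hA : ∀ z, ‖fderiv ℝ h (Ψ z)‖ ≤ 1 / 2 := fun z => (hDh _).trans (by linarith)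
  set u : P2 → ℝ := fun v => x v - v.1 with hu
  have hder : ∀ z, HasFDerivAt u (invPhi (fderiv ℝ h (Ψ z))) z := by
    intro z
    set A := fderiv ℝ h (Ψ z) with hAd
    set a := A (1, 0) with ha
    have hb : |a| ≤ 1 / 2 := apply_e1_le (hA z)
    have hne : 1 + a ≠ 0 := by have := abs_le.1 hb; intro; linarith
    have hP : ∀ v, invPhi A v = -(A v) / (1 + a) := fun v => by
      rw [invPhi, safeInv_eq (by simpa using hb)]
      simp [ha, div_eq_inv_mul]
    have hAv : ∀ (v : P2) (c : ℝ), A (v.1 + c, v.2) = A v + c * a := fun v c => by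
      rw [show ((v.1 + c, v.2) : P2) = v + c • ((1 : ℝ), (0 : ℝ)) by ext <;> simp, map_add,
        map_smul, smul_eq_mul]
    let e : P2 ≃L[ℝ] P2 := ContinuousLinearEquiv.equivOfInverse
      ((ContinuousLinearMap.fst ℝ ℝ ℝ + A).prod (ContinuousLinearMap.snd ℝ ℝ ℝ))
      ((ContinuousLinearMap.fst ℝ ℝ ℝ + invPhi A).prod (ContinuousLinearMap.snd ℝ ℝ ℝ))
      (fun v => by
        ext <;> simp [hP, hAv]
        field_simp
        ring)
      (fun v => by
        ext <;> simp [hP, hAv]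
        field_simp
        ring)
    have hF : HasFDerivAt (fun w : P2 => (w.1 + h w, w.2)) (e : P2 →L[ℝ] P2) (Ψ z) :=
      (hasFDerivAt_fst.add ((hhs.differentiable (by simp)) _).hasFDerivAt).prodMk hasFDerivAt_snd
    have hleft : ∀ v : P2, (fun w : P2 => (w.1 + h w, w.2)) (Ψ v) = v := fun v => by
      ext
      · simp only [hΨ]; linarith [hfix v]
      · rfl
    have hG := HasFDerivAt.of_local_left_inverse (g := Ψ) (a := z) hΨc.continuousAt hF
      (.of_forall hleft)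
    have h1 : HasFDerivAt u ((ContinuousLinearMap.fst ℝ ℝ ℝ).comp (e.symm : P2 →L[ℝ] P2)
        - ContinuousLinearMap.fst ℝ ℝ ℝ) z :=
      ((ContinuousLinearMap.fst ℝ ℝ ℝ).hasFDerivAt.comp z hG).sub (ContinuousLinearMap.fst ℝ ℝ ℝ).hasFDerivAt
    refine h1.congr_fderiv (ContinuousLinearMap.ext fun v => ?_)
    have e2 : e.symm v = (v.1 + invPhi A v, v.2) := rfl
    simp [e2]
  have hΨu : Ψ = fun z => z + ContinuousLinearMap.inl ℝ ℝ ℝ (u z) := by
    funext z; ext <;> simp [hΨ, hu]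
  set Φ : P2 → (P2 →L[ℝ] ℝ) := fun w => invPhi (fderiv ℝ h w) with hΦ
  have hΦs : ContDiff ℝ ∞ Φ := smooth_invPhi.comp (hhs.fderiv_right (m := ∞) le_rfl)
  have hfu : fderiv ℝ u = fun z => Φ (Ψ z) := funext fun z => (hder z).fderiv
  have hus : ContDiff ℝ ∞ u := by
    refine contDiff_infty.2 fun n => ?_
    induction n with
    | zero => exact contDiff_zero.2 ((hxlip.continuous).sub continuous_fst)
    | succ n ih =>
      rw [show ((n + 1 : ℕ) : WithTop ℕ∞) = (n : WithTop ℕ∞) + 1 by simp, contDiff_succ_iff_fderiv]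
      refine ⟨fun z => (hder z).differentiableAt, fun hn => absurd hn (by simp), ?_⟩
      rw [hfu]
      refine (hΦs.of_le (mod_cast le_top)).comp ?_
      rw [hΨu]
      exact contDiff_id.add ((ContinuousLinearMap.inl ℝ ℝ ℝ).contDiff.comp ih)
  have hΨs : ContDiff ℝ ∞ Ψ := by
    rw [hΨu]; exact contDiff_id.add ((ContinuousLinearMap.inl ℝ ℝ ℝ).contDiff.comp hus)
  set om : ℝ := F * C * D + 2 * d with hom
  have hom0 : 0 ≤ om := by positivity
  have hΦb : ∀ i ≤ 16, ∀ w, ‖iteratedFDeriv ℝ i Φ w‖ ≤ om := by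
    intro i hi w
    have hw : ‖fderiv ℝ h w‖ ≤ 1 / 2 := (hDh w).trans (by linarith)
    rcases Nat.eq_zero_or_pos i with rfl | hpos
    · rw [norm_iteratedFDeriv_zero]
      refine (norm_invPhi_le hw).trans ?_
      have := hDh w
      have : (0 : ℝ) ≤ F * C * D := by positivity
      linarith
    · refine (norm_iteratedFDeriv_comp_le (g := invPhi) (f := fderiv ℝ h) smooth_invPhi
        (hhs.fderiv_right (m := ∞) le_rfl) (mod_cast le_top) w (C := C) (D := D)
        (fun j hj => hC j (hj.trans hi) _ hw) (fun j _ hj => ?_)).trans ?_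
      · rw [norm_iteratedFDeriv_fderiv]
        exact (hhb (j + 1) (by omega) w).trans (pow_le_pow_of_le_one hD0.le hD1 (by omega))
      · have hf : (Nat.factorial i : ℝ) ≤ F := hF' i hi
        have hp : D ^ i ≤ D := pow_le_of_le_one hD0.le hD1 (by omega)
        calc (Nat.factorial i : ℝ) * C * D ^ i ≤ F * C * D :=
              mul_le_mul (mul_le_mul_of_nonneg_right hf hC0) hp (by positivity) (by positivity)
          _ ≤ om := le_add_of_nonneg_right (by positivity)
  have hsmall : F * om ≤ min δ 1 := by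
    have hDT : D * (3 * F * (F * C + 3)) ≤ min δ 1 :=
      (le_div_iff₀ (by positivity)).1 (min_le_left _ _)
    have i1 := mul_le_mul_of_nonneg_left hdD hF0
    linarith [mul_nonneg (mul_nonneg hF0 hF0) (mul_nonneg hC0 hD0.le), mul_nonneg hF0 hD0.le]
  have hud : ∀ z, |u z| ≤ d := fun z => by
    have e : u z = -h (Ψ z) := by simp only [hu, hΨ]; linarith [hfix z]
    rw [e, abs_neg, ← Real.norm_eq_abs, ← norm_iteratedFDeriv_zero (𝕜 := ℝ) (f := h)]
    exact hhb 0 (by norm_num) _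
  have hub : ∀ k ≤ 16, ∀ z, ‖iteratedFDeriv ℝ k u z‖ ≤ min δ 1 := by
    intro k
    induction k using Nat.strong_induction_on with
    | h k ih =>
      intro hk z
      rcases Nat.eq_zero_or_pos k with rfl | hpos
      · rw [norm_iteratedFDeriv_zero, Real.norm_eq_abs]
        refine (hud z).trans (le_trans ?_ hsmall)
        have : (0 : ℝ) ≤ F * C * D := by positivity
        have := le_mul_of_one_le_left hom0 hF1
        linarith
      obtain ⟨n, rfl⟩ : ∃ n, k = n + 1 := ⟨k - 1, by omega⟩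
      rw [← norm_iteratedFDeriv_fderiv, hfu]
      refine (norm_iteratedFDeriv_comp_le (g := Φ) (f := Ψ) hΦs hΨs (mod_cast le_top) z (C := om)
        (D := 2) (fun j hj => hΦb j (by omega) _) (fun j hj1 hj => ?_)).trans ?_
      · rw [hΨu]
        have hc : ContDiff ℝ ∞ fun v => ContinuousLinearMap.inl ℝ ℝ ℝ (u v) :=
          (ContinuousLinearMap.inl ℝ ℝ ℝ).contDiff.comp hus
        have hid : ContDiff ℝ ∞ fun v : P2 => v := contDiff_id
        rw [show (fun v : P2 => v + ContinuousLinearMap.inl ℝ ℝ ℝ (u v))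
            = (fun v : P2 => v) + fun v => ContinuousLinearMap.inl ℝ ℝ ℝ (u v) from rfl,
          iteratedFDeriv_add_apply (hid.contDiffAt.of_le (mod_cast le_top))
            (hc.contDiffAt.of_le (mod_cast le_top))]
        refine (norm_add_le _ _).trans ?_
        have h1 := norm_iteratedFDeriv_self_le j hj1 z
        have h2 : ‖iteratedFDeriv ℝ j (fun v => ContinuousLinearMap.inl ℝ ℝ ℝ (u v)) z‖ ≤ 1 := by
          refine ((ContinuousLinearMap.inl ℝ ℝ ℝ).norm_iteratedFDeriv_comp_left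
            (hus.contDiffAt (x := z)) (mod_cast le_top)).trans ?_
          exact mul_le_one₀ (ContinuousLinearMap.norm_inl_le_one ℝ ℝ ℝ) (norm_nonneg _)
            ((ih j (by omega) (by omega) z).trans (min_le_right _ _))
        calc (_ : ℝ) ≤ 1 + 1 := add_le_add h1 h2
          _ ≤ 2 ^ j := by
              have := pow_le_pow_right₀ (one_le_two (α := ℝ)) hj1
              linarith
      · refine le_trans ?_ hsmall
        calc (Nat.factorial n : ℝ) * om * 2 ^ n = (Nat.factorial n : ℝ) * 2 ^ n * om := by ring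
          _ ≤ F * om := mul_le_mul_of_nonneg_right (hF n (by omega)) hom0
  have hgy : ContDiff ℝ ∞ (dy g) := smooth_dy hg
  set q : P2 → ℝ := fun z => dy g (Ψ z) with hq
  have hxs : ContDiff ℝ ∞ x := by
    have e : x = fun v => u v + v.1 := by funext v; simp [hu]
    rw [e]; exact hus.add contDiff_fst
  refine ⟨x, q, hxs, hgy.comp hΨs, fun k hk z => (hub k hk z).trans (min_le_left _ _),
    fun k hk z => ?_, fun h0 => ?_, fun z => ?_⟩
  · refine (norm_iteratedFDeriv_comp_le (g := dy g) (f := Ψ) hgy hΨs (mod_cast le_top) z (C := d)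
      (D := 2) (fun j hj => (norm_iteratedFDeriv_dy hg j _).trans (hgb (j + 1) (by omega) _))
      (fun j hj1 hj => ?_)).trans ?_
    · rw [hΨu]
      have hc : ContDiff ℝ ∞ fun v => ContinuousLinearMap.inl ℝ ℝ ℝ (u v) :=
        (ContinuousLinearMap.inl ℝ ℝ ℝ).contDiff.comp hus
      have hid : ContDiff ℝ ∞ fun v : P2 => v := contDiff_id
      rw [show (fun v : P2 => v + ContinuousLinearMap.inl ℝ ℝ ℝ (u v))
          = (fun v : P2 => v) + fun v => ContinuousLinearMap.inl ℝ ℝ ℝ (u v) from rfl,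
        iteratedFDeriv_add_apply (hid.contDiffAt.of_le (mod_cast le_top))
          (hc.contDiffAt.of_le (mod_cast le_top))]
      refine (norm_add_le _ _).trans ?_
      have h1 := norm_iteratedFDeriv_self_le j hj1 z
      have h2 : ‖iteratedFDeriv ℝ j (fun v => ContinuousLinearMap.inl ℝ ℝ ℝ (u v)) z‖ ≤ 1 := by
        refine ((ContinuousLinearMap.inl ℝ ℝ ℝ).norm_iteratedFDeriv_comp_left
          (hus.contDiffAt (x := z)) (mod_cast le_top)).trans ?_
        exact mul_le_one₀ (ContinuousLinearMap.norm_inl_le_one ℝ ℝ ℝ) (norm_nonneg _)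
          ((hub j (by omega) z).trans (min_le_right _ _))
      calc (_ : ℝ) ≤ 1 + 1 := add_le_add h1 h2
        _ ≤ 2 ^ j := by
            have := pow_le_pow_right₀ (one_le_two (α := ℝ)) hj1
            linarith
    · refine le_trans ?_ (hsmall.trans (min_le_left _ _))
      have : (0 : ℝ) ≤ F * C * D := by positivity
      calc (Nat.factorial k : ℝ) * d * 2 ^ k = (Nat.factorial k : ℝ) * 2 ^ k * d := by ring
        _ ≤ F * d := mul_le_mul_of_nonneg_right (hF k (by omega)) hd0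
        _ ≤ F * om := mul_le_mul_of_nonneg_left (by linarith) hF0
  · refine ((hcon (0, 0)).fixedPoint_unique (x := (0 : ℝ)) ?_).symm
    show ((0 : ℝ), (0 : ℝ)).1 - h (0, ((0 : ℝ), (0 : ℝ)).2) = 0
    simpa using h0
  · set A := fderiv ℝ h (Ψ z) with hAd
    have ha : dp (dp g) (x z, z.2) = A (1, 0) := rfl
    have hb : dy (dp g) (x z, z.2) = A (0, 1) := rfl
    have habs : |A (1, 0)| ≤ 1 / 2 := apply_e1_le (hA z)
    have hne : 1 + A (1, 0) ≠ 0 := by have := abs_le.1 habs; intro; linarith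
    have hxd : HasFDerivAt x (invPhi A + ContinuousLinearMap.fst ℝ ℝ ℝ) z := by
      have := (hder z).add (hasFDerivAt_fst (𝕜 := ℝ) (p := z))
      have e : x = fun v => u v + v.1 := by funext v; simp [hu]
      rw [e]; exact this
    have hP : ∀ v, invPhi A v = -(A v) / (1 + A (1, 0)) := fun v => by
      rw [invPhi, safeInv_eq (by simpa using habs)]
      simp [div_eq_inv_mul]
    have hxp : dp x z = 1 / (1 + A (1, 0)) := by
      show fderiv ℝ x z (1, 0) = _
      rw [hxd.fderiv]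
      simp [hP]
      field_simp
      ring
    have hxy : dy x z = -A (0, 1) / (1 + A (1, 0)) := by
      show fderiv ℝ x z (0, 1) = _
      rw [hxd.fderiv]
      simp [hP]
    have hsymm : dp (dy g) (x z, z.2) = A (0, 1) := by
      rw [← dy_dp_eq (hg.of_le (WithTop.coe_le_coe.2 le_top))]; exact hb
    have hqd : ∀ v, fderiv ℝ q z v
        = fderiv ℝ (dy g) (Ψ z) (fderiv ℝ x z v, v.2) := fun v => by
      have h1 : HasFDerivAt Ψ ((fderiv ℝ x z).prod (ContinuousLinearMap.snd ℝ ℝ ℝ)) z :=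
        ((hxs.differentiable (by simp)) z).hasFDerivAt.prodMk hasFDerivAt_snd
      have h2 := ((hgy.differentiable (by simp)) (Ψ z)).hasFDerivAt.comp z h1
      rw [show q = dy g ∘ Ψ from rfl, h2.fderiv]
      rfl
    have hsplit : ∀ c₁ c₂ : ℝ, fderiv ℝ (dy g) (Ψ z) (c₁, c₂)
        = c₁ * dp (dy g) (Ψ z) + c₂ * dy (dy g) (Ψ z) := fun c₁ c₂ => by
      rw [show ((c₁, c₂) : P2) = c₁ • ((1 : ℝ), (0 : ℝ)) + c₂ • ((0 : ℝ), (1 : ℝ)) by ext <;> simp,
        map_add, map_smul, map_smul]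
      rfl
    refine ⟨ha ▸ habs, by linarith [hfix z], rfl, ha ▸ hxp, by rw [hxy, ha, hb], ?_, ?_⟩
    · show fderiv ℝ q z (1, 0) = _
      rw [hqd, hsplit, show fderiv ℝ x z (1, 0) = dp x z from rfl, hxp, hxy,
        show dp (dy g) (Ψ z) = A (0, 1) from hsymm]
      ring
    · show fderiv ℝ q z (0, 1) = _
      rw [hqd, hsplit, show fderiv ℝ x z (0, 1) = dy x z from rfl, hxy,
        show dp (dy g) (Ψ z) = A (0, 1) from hsymm, ha, hb]
      simp only [hΨ]
      ring

end Vale.Agent.P229.Fam
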