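import Vale.Agent.P229.Spec
import Vale.Agent.P229.Calc

/-
P229: calculus of `dp`, `dy` for functions which are smooth on an open set.
-/

namespace Vale.Agent.P229

open scoped ContDiff

variable {U : Set P2} {f g : P2 → ℝ} {z : P2}

lemma smoothOn_fderiv_apply (hf : ContDiffOn ℝ ∞ f U) (hU : IsOpen U) (v : P2) :
    ContDiffOn ℝ ∞ (fun w => fderiv ℝ f w v) U :=
  (hf.fderiv_of_isOpen hU (by simp)).clm_apply contDiffOn_const

lemma smoothOn_dp (hf : ContDiffOn ℝ ∞ f U) (hU : IsOpen U) : ContDiffOn ℝ ∞ (dp f) U :=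
  smoothOn_fderiv_apply hf hU _

lemma smoothOn_dy (hf : ContDiffOn ℝ ∞ f U) (hU : IsOpen U) : ContDiffOn ℝ ∞ (dy f) U :=
  smoothOn_fderiv_apply hf hU _

lemma diffAt_of_smoothOn (hf : ContDiffOn ℝ ∞ f U) (hU : IsOpen U) (hz : z ∈ U) :
    DifferentiableAt ℝ f z :=
  (hf.contDiffAt (hU.mem_nhds hz)).differentiableAt (by simp)

lemma dy_dp_on (hf : ContDiffOn ℝ ∞ f U) (hU : IsOpen U) (hz : z ∈ U) :
    dy (dp f) z = dp (dy f) z := by
  have hd : DifferentiableAt ℝ (fderiv ℝ f) z :=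
    (((hf.fderiv_of_isOpen hU (m := ∞) (by simp)).differentiableOn (by simp)) z hz).differentiableAt
      (hU.mem_nhds hz)
  have e : ∀ v w : P2, fderiv ℝ (fun u => fderiv ℝ f u v) z w
      = fderiv ℝ (fderiv ℝ f) z w v := by
    intro v w
    rw [fderiv_clm_apply hd (differentiableAt_const v)]
    simp
  have hs := (hf.contDiffAt (hU.mem_nhds hz)).isSymmSndFDerivAt
    (by simp; exact WithTop.coe_le_coe.2 le_top)
  show fderiv ℝ (fun u => fderiv ℝ f u (1, 0)) z (0, 1) = fderiv ℝ (fun u => fderiv ℝ f u (0, 1)) z (1, 0)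
  rw [e, e]
  exact hs _ _

lemma fderiv_eq_of_eqOn (hU : IsOpen U) (hfg : Set.EqOn f g U) (hz : z ∈ U) :
    fderiv ℝ f z = fderiv ℝ g z :=
  (hfg.eventuallyEq_of_mem (hU.mem_nhds hz)).fderiv_eq

lemma dp_eq_of_eqOn (hU : IsOpen U) (hfg : Set.EqOn f g U) (hz : z ∈ U) : dp f z = dp g z := by
  unfold dp; rw [fderiv_eq_of_eqOn hU hfg hz]

lemma dy_eq_of_eqOn (hU : IsOpen U) (hfg : Set.EqOn f g U) (hz : z ∈ U) : dy f z = dy g z := by
  unfold dy; rw [fderiv_eq_of_eqOn hU hfg hz]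

lemma dp_sub (hf : DifferentiableAt ℝ f z) (hg : DifferentiableAt ℝ g z) :
    dp (fun v => f v - g v) z = dp f z - dp g z := by
  unfold dp; rw [fderiv_fun_sub hf hg]; rfl

lemma dy_sub (hf : DifferentiableAt ℝ f z) (hg : DifferentiableAt ℝ g z) :
    dy (fun v => f v - g v) z = dy f z - dy g z := by
  unfold dy; rw [fderiv_fun_sub hf hg]; rfl

lemma fderiv_eq_zero_of_partials {G : Type*} [NormedAddCommGroup G] [NormedSpace ℝ G]
    {F : P2 → G} (h1 : fderiv ℝ F z (1, 0) = 0) (h2 : fderiv ℝ F z (0, 1) = 0) :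
    fderiv ℝ F z = 0 := by
  ext <;> simp [h1, h2]

end Vale.Agent.P229
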