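import Vale.Agent.P229.PrepBounds

/-
P229: the differentiated equation and its pointwise bounds.
-/

namespace Vale.Agent.P229

open scoped ContDiff

variable {L : ℕ → ℝ} {δ η s lam : ℝ} {Hb Hs : V6 → ℝ} {x q : P2 → ℝ}

lemma abs_hDer_le {f : V6 → ℝ} {c : ℝ} (i : Fin 6) (z : P2)
    (h : ‖fderiv ℝ f (jet x q z)‖ ≤ c) : |hDer f x q i z| ≤ c := by
  refine ((fderiv ℝ f (jet x q z)).le_opNorm (Pi.single i 1)).trans ?_
  refine (mul_le_of_le_one_right (norm_nonneg _) ?_).trans h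
  refine (pi_norm_le_iff_of_nonneg zero_le_one).2 fun k => ?_
  by_cases h : k = i
  · subst h; simp
  · simp [h]

lemma coef_close (hF : HFam L δ s lam Hb Hs) (hS : Sol η δ (fun u => Hb u + Hs u) x q)
    (hδ : δ ≤ 1 / 4) (hs : 0 ≤ s) (hl : 1 ≤ lam) (h1 : s * lam ≤ δ) (h2 : s * lam ^ 2 ≤ δ)
    (j : ℕ) {δ1 : ℝ} (hK : δ * (((j : ℝ) + 2) * (10 + 4 * (1 + |L 1| + |L 2|))) ≤ min δ1 1) :
    CoefClose δ1 1 ((j : ℝ) + 2) (hDer (fun u => Hb u + Hs u) x q 4)
      (hDer (fun u => Hb u + Hs u) x q 5) (coefG (fun u => Hb u + Hs u) x q j)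
      (coefG1 (fun u => Hb u + Hs u) x q j) := by
  intro z hz2
  obtain ⟨hzb, hp2, hy2⟩ : z ∈ Box ∧ |z.1| ≤ 2 ∧ |z.2| ≤ 2 := by
    unfold rsq at hz2
    have a : |z.1| ≤ 2 := by rw [abs_le]; constructor <;> nlinarith
    have b : |z.2| ≤ 2 := by rw [abs_le]; constructor <;> nlinarith
    exact ⟨⟨by linarith, by linarith⟩, a, b⟩
  obtain ⟨a1, a2, a3, -, -, -, -⟩ := near hS hzb
  have hδ0 := hS.delta_nonneg
  have hx := hS.smx
  have hq := hS.smq
  have hball := jet_ball hS hδ hzb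
  have hD : ContDiff ℝ ∞ (dev Hb Hs) := hF.smH.sub smooth_H0
  obtain ⟨d1, d2⟩ := dev_le hF hs hl h1 h2 hball
  have j1 := jet_one hS hδ hzb
  have e1 : ∀ i, |hDer (dev Hb Hs) x q i z| ≤ δ * (1 + |L 1|) := fun i => abs_hDer_le i z d1
  have e2 : ∀ i (v : P2), ‖v‖ ≤ 1 →
      |fderiv ℝ (hDer (dev Hb Hs) x q i) z v| ≤ δ * (1 + |L 2|) * 4 := fun i v hv =>
    (dder hx hq hD i z v hv).trans
      (mul_le_mul d2 j1 (norm_nonneg _) (mul_nonneg hδ0 (by positivity)))
  have hd : ∀ i, DifferentiableAt ℝ (hDer (dev Hb Hs) x q i) z := fun i =>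
    ((smooth_hDer hD hx hq i).differentiable (by simp)).differentiableAt
  have hd0 : DifferentiableAt ℝ (fun w : P2 => x w ^ 2 + w.2 ^ 2 - 1) z :=
    (((hx.pow 2).add (contDiff_snd.pow 2)).sub contDiff_const).differentiable (by simp) z
  have k4 : hDer (fun u => Hb u + Hs u) x q 4
      = fun w => (x w ^ 2 + w.2 ^ 2 - 1) + hDer (dev Hb Hs) x q 4 w := by
    rw [hDer_split hF.smb hF.sms]; funext w; simp [hDer_H0]
  have k5 : hDer (fun u => Hb u + Hs u) x q 5 = hDer (dev Hb Hs) x q 5 := by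
    rw [hDer_split hF.smb hF.sms]; funext w; simp [hDer_H0]
  have k2 : hDer (fun u => Hb u + Hs u) x q 2 z
      = 2 * x z * dp x z + hDer (dev Hb Hs) x q 2 z := by
    rw [hDer_split hF.smb hF.sms]; simp [hDer_H0]
  have k3 : hDer (fun u => Hb u + Hs u) x q 3 z = hDer (dev Hb Hs) x q 3 z := by
    rw [hDer_split hF.smb hF.sms]; simp [hDer_H0]
  have g4p : dp (hDer (fun u => Hb u + Hs u) x q 4) z
      = 2 * x z * dp x z + dp (hDer (dev Hb Hs) x q 4) z := by
    rw [k4, dp_add hd0 (hd 4)]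
    simp [dp, fderiv_base (hx.differentiable (by simp) z)]
  have g4y : dy (hDer (fun u => Hb u + Hs u) x q 4) z
      = 2 * x z * dy x z + 2 * z.2 + dy (hDer (dev Hb Hs) x q 4) z := by
    rw [k4, dy_add hd0 (hd 4)]
    simp [dy, fderiv_base (hx.differentiable (by simp) z)]
  have b0 : |x z ^ 2 - z.1 ^ 2| ≤ δ * 5 := by
    have hfac : x z ^ 2 - z.1 ^ 2 = (x z - z.1) * ((x z - z.1) + 2 * z.1) := by ring
    rw [hfac, abs_mul]
    refine mul_le_mul a1 ?_ (abs_nonneg _) hδ0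
    refine (abs_add_le _ _).trans ?_
    rw [abs_mul, abs_two]
    linarith
  have hxx : |x z| ≤ 3 := by
    calc |x z| = |(x z - z.1) + z.1| := by ring_nf
      _ ≤ |x z - z.1| + |z.1| := abs_add_le _ _
      _ ≤ 3 := by linarith
  have b1 : |2 * x z * dp x z - 2 * z.1| ≤ δ * 8 := by
    have hfac : 2 * x z * dp x z - 2 * z.1 = 2 * (x z * (dp x z - 1)) + 2 * (x z - z.1) := by ring
    rw [hfac]
    refine (abs_add_le _ _).trans ?_
    rw [abs_mul, abs_mul 2 (x z - z.1), abs_mul, abs_two]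
    nlinarith [mul_le_mul hxx a2 (abs_nonneg _) (by norm_num)]
  have b2 : |2 * x z * dy x z| ≤ δ * 8 := by
    rw [abs_mul, abs_mul, abs_two]
    nlinarith [mul_le_mul hxx a3 (abs_nonneg _) (by norm_num)]
  obtain ⟨K1, K2⟩ := le_min_iff.1 hK
  have hj : (0 : ℝ) ≤ j := Nat.cast_nonneg j
  have n1 : 0 ≤ δ * |L 1| := by positivity
  have n2 : 0 ≤ δ * |L 2| := by positivity
  have n3 : 0 ≤ δ * |L 1| * j := by positivity
  have n4 : 0 ≤ δ * |L 2| * j := by positivity
  have n5 : 0 ≤ δ * j := by positivity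
  have hg : (hDer (fun u => Hb u + Hs u) x q 4 z - (rsq z - 1))
      = (x z ^ 2 - z.1 ^ 2) + hDer (dev Hb Hs) x q 4 z := by
    rw [k4]; unfold rsq; ring
  have p4 := e2 4 (1, 0) norm_e1.le
  have y4 := e2 4 (0, 1) norm_e2.le
  have p5 := e2 5 (1, 0) norm_e1.le
  have y5 := e2 5 (0, 1) norm_e2.le
  change |dp (hDer (dev Hb Hs) x q 4) z| ≤ _ at p4
  change |dy (hDer (dev Hb Hs) x q 4) z| ≤ _ at y4
  change |dp (hDer (dev Hb Hs) x q 5) z| ≤ _ at p5
  change |dy (hDer (dev Hb Hs) x q 5) z| ≤ _ at y5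
  have hG : coefG (fun u => Hb u + Hs u) x q j z - 2 * ((j : ℝ) + 2) * z.1
      = ((j : ℝ) + 2) * (2 * x z * dp x z - 2 * z.1)
        + (((j : ℝ) + 1) * dp (hDer (dev Hb Hs) x q 4) z + hDer (dev Hb Hs) x q 2 z) := by
    unfold coefG; rw [g4p, k2]; ring
  have hj1 : |((j : ℝ) + 1)| = (j : ℝ) + 1 := abs_of_nonneg (by linarith)
  have hj2 : |((j : ℝ) + 2)| = (j : ℝ) + 2 := abs_of_nonneg (by linarith)
  have q4 := mul_le_mul_of_nonneg_left p4 (show (0 : ℝ) ≤ (j : ℝ) + 1 by linarith)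
  have q5 := mul_le_mul_of_nonneg_left p5 (show (0 : ℝ) ≤ (j : ℝ) + 1 by linarith)
  have qb := mul_le_mul_of_nonneg_left b1 (show (0 : ℝ) ≤ (j : ℝ) + 2 by linarith)
  refine ⟨?_, ?_, ?_, ?_, ?_, ?_, ?_, ?_⟩
  · rw [hg]
    have := e1 4
    refine (abs_add_le _ _).trans ?_
    linarith
  · rw [g4p, add_sub_right_comm]
    refine (abs_add_le _ _).trans ?_
    linarith
  · rw [g4y, show 2 * x z * dy x z + 2 * z.2 + dy (hDer (dev Hb Hs) x q 4) z - 2 * z.2
      = 2 * x z * dy x z + dy (hDer (dev Hb Hs) x q 4) z by ring]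
    refine (abs_add_le _ _).trans ?_
    linarith
  · rw [k5]; have := e1 5; linarith
  · rw [k5]; linarith
  · rw [k5]; linarith
  · rw [hG]
    refine (abs_add_le _ _).trans ?_
    have h3 := abs_add_le (((j : ℝ) + 1) * dp (hDer (dev Hb Hs) x q 4) z) (hDer (dev Hb Hs) x q 2 z)
    rw [abs_mul, hj1] at h3
    rw [abs_mul, hj2]
    have := e1 2
    linarith
  · unfold coefG1
    rw [k3, k5]
    refine (abs_sub _ _).trans ?_
    rw [abs_mul, hj1]
    have := e1 3
    linarith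

lemma dyy_eq (hF : HFam L δ s lam Hb Hs) (hS : Sol η δ (fun u => Hb u + Hs u) x q) :
    Set.EqOn (dy (dy x))
      (fun v => -η * dp (fun w => Hb (jet x q w) + Hs (jet x q w)) v) Box := by
  intro v hv
  have hG : ContDiff ℝ ∞ fun w => Hb (jet x q w) + Hs (jet x q w) :=
    hF.smH.comp (smooth_jet hS.smx hS.smq)
  have e1 : dy (dy x) v = dy (fun w => -1 * dp q w) v := by
    simp only [dy]
    refine congrArg (fun A : P2 →L[ℝ] ℝ => A (0, 1)) (Filter.EventuallyEq.fderiv_eq ?_)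
    refine Filter.eventuallyEq_of_mem (isOpen_Box.mem_nhds hv) fun w hw => ?_
    have := hS.eqp w hw
    linarith
  have e2 : dy (fun w => -1 * dp q w) v = -dy (dp q) v := by
    simp [dy]
  have e3 : dp (dy q) v = dp (fun w => η * (Hb (jet x q w) + Hs (jet x q w))) v :=
    dp_congr isOpen_Box (fun w hw => hS.eqy w hw) hv
  rw [e1, e2, dy_dp_eq (hS.smq.of_le (by norm_cast)) v, e3, dp_const_mul]
  ring

lemma lin_eq (hF : HFam L δ s lam Hb Hs) (hS : Sol η δ (fun u => Hb u + Hs u) x q) (j : ℕ) :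
    LinEq η (hDer (fun u => Hb u + Hs u) x q 4) (hDer (fun u => Hb u + Hs u) x q 5)
      (coefG (fun u => Hb u + Hs u) x q j) (coefG1 (fun u => Hb u + Hs u) x q j)
      (coefR (fun u => Hb u + Hs u) x q j) (der x j) Box := by
  have hh := fun i => smooth_hDer hF.smH hS.smx hS.smq i
  have hv : ContDiff ℝ ∞ (der x j) := smooth_iter hS.smx j
  have hG : ContDiff ℝ ∞ fun w => Hb (jet x q w) + Hs (jet x q w) :=
    hF.smH.comp (smooth_jet hS.smx hS.smq)
  have cG : Continuous (coefG (fun u => Hb u + Hs u) x q j) :=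
    ((continuous_const.mul (smooth_dp (hh 4)).continuous).add (hh 2).continuous)
  have cG1 : Continuous (coefG1 (fun u => Hb u + Hs u) x q j) :=
    ((continuous_const.mul (smooth_dp (hh 5)).continuous).sub (hh 3).continuous)
  have cR : Continuous (coefR (fun u => Hb u + Hs u) x q j) := by
    refine Continuous.sub (smooth_iter hG (j + 1)).continuous ?_
    exact ((((hh 4).continuous.mul (smooth_dp (smooth_dp hv)).continuous).add
      ((hh 5).continuous.mul (smooth_dy (smooth_dp hv)).continuous)).add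
      (cG.mul (smooth_dp hv).continuous)).add (cG1.mul (smooth_dy hv).continuous)
  refine ⟨hh 4, hh 5, hv, cG, cG1, cR, fun z hz => ?_⟩
  have e : dy (dy (der x j)) z
      = -η * dp^[j + 1] (fun w => Hb (jet x q w) + Hs (jet x q w)) z := by
    show dy (dy (dp^[j] x)) z = _
    rw [dy_iter hS.smx, dy_iter (smooth_dy hS.smx),
      iter_congr isOpen_Box (dyy_eq hF hS) j hz, iter_const_mul, Function.iterate_succ_apply]
  rw [e]
  unfold coefR
  ring

lemma remainder_bound (h1 : CompSpec) (h2 : LinRemSpec) (L : ℕ → ℝ) (j : ℕ) (hj : 3 ≤ j) (M : ℝ) :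
    ∃ C, 0 ≤ C ∧ ∀ (δ η s lam : ℝ) (Hb Hs : V6 → ℝ) (x q : P2 → ℝ) (z : P2),
      Pt L j δ M η s lam Hb Hs x q z →
      |coefR (fun u => Hb u + Hs u) x q j z| ≤ C * Bd x s lam j (j + 1) z := by
  obtain ⟨Cl, hl⟩ := h2 j (lowCst L j M) hj
  obtain ⟨Cq, hC, hq⟩ := q_bound h1 L j M j
  refine ⟨|Cl| * (1 + ∑ m ∈ Finset.range (j + 1 + 1), |L m|
      + ∑ _i ∈ Finset.Icc 1 (j - 1), (3 + Cq)) + ((j : ℝ) + 1) * (8 * |L 2|) * (1 + Cq),
    by positivity, fun δ η s lam Hb Hs x q z P => ?_⟩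
  have hx := P.sol.smx
  have hqs := P.sol.smq
  have hq' := hq δ η s lam Hb Hs x q z P (by omega)
  have h := hl (fun u => Hb u + Hs u) (jet x q) z P.fam.smH (smooth_jet hx hqs)
    (fun m hm => P.H_low' (by omega)) (fun i hi hi' => P.W_low hi (by omega))
  have w0 : dp^[j + 1] (fun v => jet x q v 0) z = 0 := by
    rw [show (fun v => jet x q v 0) = fun v : P2 => v.1 from rfl]
    obtain ⟨m, rfl⟩ := Nat.exists_eq_add_of_le (show 1 ≤ j by omega)
    rw [show 1 + m + 1 = m + 2 by omega]; exact iter_fst m z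
  have w0' : dp^[j] (fun v => jet x q v 0) z = 0 := by
    rw [show (fun v => jet x q v 0) = fun v : P2 => v.1 from rfl]
    obtain ⟨m, rfl⟩ := Nat.exists_eq_add_of_le (show 2 ≤ j by omega)
    rw [show 2 + m = m + 2 by omega]; exact iter_fst m z
  have w1 : dp^[j + 1] (fun v => jet x q v 1) z = 0 := iter_snd j z
  have w1' : dp^[j] (fun v => jet x q v 1) z = 0 := by
    obtain ⟨m, rfl⟩ := Nat.exists_eq_add_of_le (show 1 ≤ j by omega)
    rw [show 1 + m = m + 1 by omega]; exact iter_snd m z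
  have w2 : dp^[j + 1] (fun v => jet x q v 2) z = dp (der x j) z := by
    rw [show (fun v => jet x q v 2) = x from rfl, Function.iterate_succ_apply']; rfl
  have w3 : dp^[j + 1] (fun v => jet x q v 3) z = -dy (der x j) z := by
    rw [show (fun v => jet x q v 3) = q from rfl, Function.iterate_succ_apply,
      iter_congr isOpen_Box (g := fun v => -1 * dy x v)
        (fun v hv => by rw [P.sol.eqp v hv]; ring) j P.mem, iter_const_mul]
    show -1 * dp^[j] (dy x) z = -dy (dp^[j] x) z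
    rw [dy_iter hx]; ring
  have w4 : dp^[j + 1] (fun v => jet x q v 4) z = dp (dp (der x j)) z := by
    rw [show (fun v => jet x q v 4) = dp x from rfl, ← Function.iterate_succ_apply,
      Function.iterate_succ_apply', Function.iterate_succ_apply']
    rfl
  have w4' : dp^[j] (fun v => jet x q v 4) z = dp (der x j) z := by
    rw [show (fun v => jet x q v 4) = dp x from rfl, ← Function.iterate_succ_apply,
      Function.iterate_succ_apply']
    rfl
  have w5 : dp^[j + 1] (fun v => jet x q v 5) z = dy (dp (der x j)) z := by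
    rw [show (fun v => jet x q v 5) = dy x from rfl, ← dy_iter hx, Function.iterate_succ_apply']
    rfl
  have w5' : dp^[j] (fun v => jet x q v 5) z = dy (der x j) z := by
    rw [show (fun v => jet x q v 5) = dy x from rfl, ← dy_iter hx]
    rfl
  rw [clm_six, Fin.sum_univ_six, Fin.sum_univ_six] at h
  simp only [w0, w0', w1, w1', w2, w3, w4, w4', w5, w5', zero_mul, mul_zero, zero_add] at h
  rw [show (fun v => jet x q v 2) = x from rfl, show (fun v => jet x q v 3) = q from rfl] at h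
  set B := Bd x s lam j (j + 1) z with hB
  have hB1 : 1 ≤ B := one_le_Bd P.hs P.hl x j (j + 1) z
  have hv : |dp^[j] x z| ≤ B :=
    (abs_iter_le hx j z).trans (norm_le_Bd P.hs P.hl x (j + 1) le_rfl z)
  have hQ : |dp^[j] q z| ≤ Cq * B :=
    (abs_iter_le hqs j z).trans ((hq' j le_rfl).trans
      (mul_le_mul_of_nonneg_left (Bd_mono P.hs P.hl le_rfl (by omega) x z) hC))
  have hd : ∀ i, |dp (hDer (fun u => Hb u + Hs u) x q i) z| ≤ 8 * |L 2| := fun i => by
    refine (dder hx hqs P.fam.smH i z (1, 0) norm_e1.le).trans ?_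
    calc _ ≤ 2 * |L 2| * 4 :=
          mul_le_mul (P.H_low (by omega)) (jet_one P.sol P.hδ P.mem) (norm_nonneg _) (by positivity)
      _ = _ := by ring
  have hS : ∑ i ∈ Finset.Icc 1 (j - 1), ‖iteratedFDeriv ℝ i (jet x q) z‖
      ≤ (∑ _i ∈ Finset.Icc 1 (j - 1), (3 + Cq)) * B := by
    rw [Finset.sum_mul]
    refine Finset.sum_le_sum fun i hi => ?_
    rw [Finset.mem_Icc] at hi
    exact P.W_top hq' hC hi.1 (by omega) (by omega) (by omega)
  have hH : ∑ m ∈ Finset.range (j + 1 + 1),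
      ‖iteratedFDeriv ℝ m (fun u => Hb u + Hs u) (jet x q z)‖
      ≤ (∑ m ∈ Finset.range (j + 1 + 1), |L m|) * B :=
    (P.H_sum (j + 1)).trans (mul_le_mul_of_nonneg_left
      (Bd_mono P.hs P.hl (Nat.zero_le j) le_rfl x z) (Finset.sum_nonneg fun _ _ => abs_nonneg _))
  have h' := h.trans (mul_le_mul_of_nonneg_right (le_abs_self Cl) (by positivity))
  have h'' : _ ≤ |Cl| * ((1 + ∑ m ∈ Finset.range (j + 1 + 1), |L m|
      + ∑ _i ∈ Finset.Icc 1 (j - 1), (3 + Cq)) * B) :=
    h'.trans (mul_le_mul_of_nonneg_left (by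
      rw [add_mul, add_mul, one_mul]
      exact add_le_add (add_le_add hB1 hH) hS) (abs_nonneg _))
  set a := dp (hDer (fun u => Hb u + Hs u) x q 2) z
  set b := dp (hDer (fun u => Hb u + Hs u) x q 3) z
  have hab : |((j : ℝ) + 1) * (a * dp^[j] x z + b * dp^[j] q z)|
      ≤ ((j : ℝ) + 1) * (8 * |L 2|) * (1 + Cq) * B := by
    rw [abs_mul, abs_of_nonneg (by positivity : (0 : ℝ) ≤ (j : ℝ) + 1), mul_assoc, mul_assoc]
    refine mul_le_mul_of_nonneg_left ((abs_add_le _ _).trans ?_) (by positivity)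
    rw [abs_mul, abs_mul]
    have u1 := mul_le_mul (hd 2) hv (abs_nonneg _) (by positivity)
    have u2 := mul_le_mul (hd 3) hQ (abs_nonneg _) (by positivity)
    linarith
  have key : coefR (fun u => Hb u + Hs u) x q j z
      - ((j : ℝ) + 1) * (a * dp^[j] x z + b * dp^[j] q z)
      = dp^[j + 1] (fun v => Hb (jet x q v) + Hs (jet x q v)) z
        - (dp (der x j) z * hDer (fun u => Hb u + Hs u) x q 2 z
          + -dy (der x j) z * hDer (fun u => Hb u + Hs u) x q 3 z
          + dp (dp (der x j)) z * hDer (fun u => Hb u + Hs u) x q 4 z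
          + dy (dp (der x j)) z * hDer (fun u => Hb u + Hs u) x q 5 z)
        - ((j : ℝ) + 1) * (a * dp^[j] x z + b * dp^[j] q z
          + dp (hDer (fun u => Hb u + Hs u) x q 4) z * dp (der x j) z
          + dp (hDer (fun u => Hb u + Hs u) x q 5) z * dy (der x j) z) := by
    unfold coefR coefG coefG1
    ring
  have hh : |coefR (fun u => Hb u + Hs u) x q j z
      - ((j : ℝ) + 1) * (a * dp^[j] x z + b * dp^[j] q z)|
      ≤ |Cl| * ((1 + ∑ m ∈ Finset.range (j + 1 + 1), |L m|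
        + ∑ _i ∈ Finset.Icc 1 (j - 1), (3 + Cq)) * B) := by
    rw [key]; exact h''
  have := abs_sub_abs_le_abs_sub (coefR (fun u => Hb u + Hs u) x q j z)
    (((j : ℝ) + 1) * (a * dp^[j] x z + b * dp^[j] q z))
  linarith

theorem prep (h1 : CompSpec) (h2 : LinRemSpec) (h3 : MixedSpec) : PrepSpec := by
  intro L j δ1 hj hδ1
  obtain ⟨Cm, hm⟩ := h3 (j + 1) (by omega)
  set K := ((j : ℝ) + 2) * (10 + 4 * (1 + |L 1| + |L 2|)) with hKdef
  have hK : 0 < K := by positivity
  refine ⟨min (1 / 4) (min δ1 1 / K), min 1 (1 / (2 * (|Cm| + 1) * (2 * |L 1| + 1))),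
    lt_min (by norm_num) (div_pos (lt_min hδ1 one_pos) hK),
    lt_min one_pos (by positivity), fun M => ?_⟩
  set δ := min (1 / 4) (min δ1 1 / K) with hδdef
  obtain ⟨CR, hCR0, hCR⟩ := remainder_bound h1 h2 L j hj M
  obtain ⟨Cq, hCq0, hCq⟩ := q_bound h1 L j M (j + 1)
  obtain ⟨Cc, hCc0, hCc⟩ := comp_bound h1 L j M j Cq hCq0
  set C2 := 2 * ((|Cm| + 1) * (1 + 2 * |L 1| * (2 + Cq) + Cc)) with hC2
  refine ⟨max CR (max C2 Cq), fun η s lam Hb Hs x q hη hη0 hl hs hsm hF hS => ?_⟩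
  have hδq : δ ≤ 1 / 4 := min_le_left _ _
  have hδK : δ * K ≤ min δ1 1 := by
    calc δ * K ≤ min δ1 1 / K * K := mul_le_mul_of_nonneg_right (min_le_right _ _) hK.le
      _ = _ := by field_simp
  refine ⟨coef_close hF hS hδq hs hl (by simpa using hsm 1 (by omega)) (hsm 2 (by omega)) j hδK,
    lin_eq hF hS j, fun z hz hlow => ?_⟩
  have P : Pt L j δ M η s lam Hb Hs x q z :=
    ⟨hη, hη0.trans (min_le_left _ _), hl, hs, hδq, hsm, hF, hS, hz, hlow⟩
  have hq' := hCq δ η s lam Hb Hs x q z P le_rfl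
  have hbd : ∀ a b, 0 ≤ Bd x s lam a b z := fun a b =>
    zero_le_one.trans (one_le_Bd hs hl x a b z)
  refine ⟨?_, ?_, ?_⟩
  · exact (hCR δ η s lam Hb Hs x q z P).trans
      (mul_le_mul_of_nonneg_right (le_max_left _ _) (hbd _ _))
  · have hx := hS.smx
    have hG : ContDiff ℝ ∞ fun w => Hb (jet x q w) + Hs (jet x q w) :=
      hF.smH.comp (smooth_jet hx hS.smq)
    have h := hm x hx z
    have k1 : dp^[j + 1] x z = dp (der x j) z := by rw [Function.iterate_succ_apply']; rfl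
    have k2 : dp^[j] (dy x) z = dy (der x j) z := by rw [← dy_iter hx]; rfl
    have k3 : ‖iteratedFDeriv ℝ (j - 1) (dy (dy x)) z‖
        ≤ η * ‖iteratedFDeriv ℝ j (fun w => Hb (jet x q w) + Hs (jet x q w)) z‖ := by
      rw [norm_congr isOpen_Box (g := (-η) • dp (fun w => Hb (jet x q w) + Hs (jet x q w)))
          (fun v hv => by simpa using dyy_eq hF hS hv) (j - 1) hz,
        iteratedFDeriv_const_smul_apply ((smooth_dp hG).of_le (WithTop.coe_le_coe.2 le_top)).contDiffAt,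
        norm_smul, norm_neg, Real.norm_eq_abs, abs_of_pos hη]
      refine mul_le_mul_of_nonneg_left ?_ hη.le
      have := norm_dp_le hG (j - 1) z
      rwa [show j - 1 + 1 = j by omega] at this
    rw [show j + 1 - 1 = j by omega, show j + 1 - 2 = j - 1 by omega, k1, k2] at h
    have a2 := hCc δ η s lam Hb Hs x q z P (by omega) fun i hi => hq' i (by omega)
    set X := ‖iteratedFDeriv ℝ (j + 1) x z‖
    set B := Bd x s lam j j z with hB
    have hW : ‖iteratedFDeriv ℝ j (jet x q) z‖ ≤ (2 + Cq) * B + X := by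
      have h' := norm_jet_le hx hS.smq (show 1 ≤ j by omega) z
      have e1 := norm_le_Bd hs hl x j (le_refl j) z
      have e3 := one_le_Bd hs hl x j j z
      have e4 := (hq' j (by omega)).trans (mul_le_mul_of_nonneg_left
        (Bd_mono hs hl (le_refl j) (show j - 1 ≤ j by omega) x z) hCq0)
      linarith
    set A := |dp (der x j) z| + |dy (der x j) z| with hA
    have hA0 : 0 ≤ A := by positivity
    have hB1 : 1 ≤ B := one_le_Bd hs hl x j j z
    have hX : X ≤ (|Cm| + 1) * (A + η * (2 * |L 1| * X + (2 * |L 1| * (2 + Cq) + Cc) * B)) := by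
      refine h.trans ((mul_le_mul_of_nonneg_right
        ((le_abs_self Cm).trans (le_add_of_nonneg_right zero_le_one)) (by positivity)).trans
        (mul_le_mul_of_nonneg_left ?_ (by positivity)))
      refine add_le_add le_rfl (k3.trans (mul_le_mul_of_nonneg_left ?_ hη.le))
      have := mul_le_mul_of_nonneg_left hW (show 0 ≤ 2 * |L 1| by positivity)
      linarith
    have hpos : 0 < 2 * (|Cm| + 1) * (2 * |L 1| + 1) := by positivity
    have hsmall : η * (2 * (|Cm| + 1) * (2 * |L 1| + 1)) ≤ 1 :=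
      (le_div_iff₀ hpos).1 (hη0.trans (min_le_right _ _))
    have hX0 : 0 ≤ X := norm_nonneg _
    have u1 : (|Cm| + 1) * η * (2 * |L 1|) * X ≤ 1 / 2 * X :=
      mul_le_mul_of_nonneg_right (by nlinarith [abs_nonneg Cm]) hX0
    have u2 : η * ((|Cm| + 1) * ((2 * |L 1| * (2 + Cq) + Cc) * B))
        ≤ (|Cm| + 1) * ((2 * |L 1| * (2 + Cq) + Cc) * B) :=
      mul_le_of_le_one_left (by positivity) (hη0.trans (min_le_left _ _))
    have u3 : 0 ≤ (|Cm| + 1) * (2 * |L 1| * (2 + Cq) + Cc) * A := by positivity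
    have u4 : 0 ≤ (|Cm| + 1) * B := by positivity
    have hfin : X ≤ C2 * (A + B) := by rw [hC2]; linarith
    refine (hfin.trans (mul_le_mul_of_nonneg_right ((le_max_left C2 Cq).trans (le_max_right CR _))
      (by positivity))).trans (le_of_eq ?_)
    rw [hA, hB]; unfold Bd; ring
  · exact (hq' (j + 1) le_rfl).trans
      (mul_le_mul_of_nonneg_right ((le_max_right C2 Cq).trans (le_max_right CR _)) (hbd _ _))

end Vale.Agent.P229
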