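import Vale.Agent.P229.PrepBase

/-
P229: derivative bounds for the composition with the jet and for `q`.
-/

namespace Vale.Agent.P229

open scoped ContDiff

/-- A bound for the low derivatives entering the composition estimates. -/
noncomputable def lowCst (L : ℕ → ℝ) (j : ℕ) (M : ℝ) : ℝ :=
  1 + 3 * |M| + ∑ m ∈ Finset.range (j + 8), 2 * |L m|

variable {L : ℕ → ℝ} {j : ℕ} {δ M η s lam : ℝ} {Hb Hs : V6 → ℝ} {x q : P2 → ℝ} {z : P2}

lemma Pt.H_low (P : Pt L j δ M η s lam Hb Hs x q z) {m : ℕ} (hm : m ≤ j / 2 + 6) :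
    ‖iteratedFDeriv ℝ m (fun u => Hb u + Hs u) (jet x q z)‖ ≤ 2 * |L m| := by
  refine (norm_H_le P.fam P.sol P.hδ P.hl P.hs P.mem m).trans ?_
  have h1 := P.small m hm
  have h2 := P.hδ
  have h3 : blobInd lam z * (s * lam ^ m) ≤ 1 * (s * lam ^ m) :=
    mul_le_mul_of_nonneg_right (blobInd_le_one _ _)
      (mul_nonneg P.hs (pow_nonneg (by linarith [P.hl]) _))
  nlinarith [abs_nonneg (L m)]

lemma Pt.H_low' (P : Pt L j δ M η s lam Hb Hs x q z) {m : ℕ} (hm : m ≤ j / 2 + 6) :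
    ‖iteratedFDeriv ℝ m (fun u => Hb u + Hs u) (jet x q z)‖ ≤ lowCst L j M := by
  have := P.H_low hm
  have hj : m < j + 8 := by omega
  have := Finset.single_le_sum (f := fun m => 2 * |L m|) (fun _ _ => by positivity)
    (Finset.mem_range.2 hj)
  have := abs_nonneg M
  unfold lowCst
  linarith

lemma Pt.W_low (P : Pt L j δ M η s lam Hb Hs x q z) {i : ℕ} (h1 : 1 ≤ i) (hi : i + 1 ≤ j / 2 + 6) :
    ‖iteratedFDeriv ℝ i (jet x q) z‖ ≤ lowCst L j M := by
  have := norm_jet_le P.sol.smx P.sol.smq h1 z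
  obtain ⟨a, b⟩ := P.low i (by omega)
  obtain ⟨c, -⟩ := P.low (i + 1) hi
  have := le_abs_self M
  have : 0 ≤ ∑ m ∈ Finset.range (j + 8), 2 * |L m| := Finset.sum_nonneg fun _ _ => by positivity
  unfold lowCst
  linarith

lemma Pt.H_sum (P : Pt L j δ M η s lam Hb Hs x q z) (n : ℕ) :
    ∑ m ∈ Finset.range (n + 1), ‖iteratedFDeriv ℝ m (fun u => Hb u + Hs u) (jet x q z)‖
      ≤ (∑ m ∈ Finset.range (n + 1), |L m|) * Bd x s lam 0 n z := by
  rw [Finset.sum_mul]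
  refine Finset.sum_le_sum fun m hm => ?_
  refine (norm_H_le P.fam P.sol P.hδ P.hl P.hs P.mem m).trans
    (mul_le_mul_of_nonneg_left ?_ (abs_nonneg _))
  rw [Finset.mem_range] at hm
  have := Bd_mono P.hs P.hl (le_refl 0) (show m ≤ n by omega) x z
  have := lowSum_nonneg x 0 z
  unfold Bd at *
  linarith

lemma Pt.top_coef (P : Pt L j δ M η s lam Hb Hs x q z) :
    ‖fderiv ℝ (fun u => Hb u + Hs u) (jet x q z)‖ ≤ 2 * |L 1| := by
  rw [← norm_iteratedFDeriv_one]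
  exact P.H_low (by omega)

lemma Pt.W_top (P : Pt L j δ M η s lam Hb Hs x q z) {n : ℕ} {Cq : ℝ}
    (hq : ∀ i ≤ n, ‖iteratedFDeriv ℝ i q z‖ ≤ Cq * Bd x s lam i (i - 1) z) (hC : 0 ≤ Cq)
    {i a b : ℕ} (h1 : 1 ≤ i) (hi : i ≤ n) (ha : i + 1 ≤ a) (hb : i ≤ b + 1) :
    ‖iteratedFDeriv ℝ i (jet x q) z‖ ≤ (3 + Cq) * Bd x s lam a b z := by
  have h := norm_jet_le P.sol.smx P.sol.smq h1 z
  have e1 := norm_le_Bd P.hs P.hl x b (show i ≤ a by omega) z
  have e2 := norm_le_Bd P.hs P.hl x b ha z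
  have e3 := one_le_Bd P.hs P.hl x a b z
  have e4 := (hq i hi).trans (mul_le_mul_of_nonneg_left
    (Bd_mono P.hs P.hl (show i ≤ a by omega) (show i - 1 ≤ b by omega) x z) hC)
  linarith

/-- Composition with the jet, the top derivative of the jet split off. -/
lemma comp_bound (h1 : CompSpec) (L : ℕ → ℝ) (j : ℕ) (M : ℝ) (n : ℕ) (Cq : ℝ) (hC : 0 ≤ Cq) :
    ∃ C, 0 ≤ C ∧ ∀ (δ η s lam : ℝ) (Hb Hs : V6 → ℝ) (x q : P2 → ℝ) (z : P2),
      Pt L j δ M η s lam Hb Hs x q z → n ≤ j + 1 →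
      (∀ i ≤ n - 1, ‖iteratedFDeriv ℝ i q z‖ ≤ Cq * Bd x s lam i (i - 1) z) →
      ‖iteratedFDeriv ℝ n (fun v => Hb (jet x q v) + Hs (jet x q v)) z‖
        ≤ 2 * |L 1| * ‖iteratedFDeriv ℝ n (jet x q) z‖ + C * Bd x s lam n n z := by
  obtain ⟨Cc, hCc⟩ := h1 n (lowCst L j M)
  refine ⟨|Cc| * (1 + ∑ m ∈ Finset.range (n + 1), |L m|
    + ∑ _i ∈ Finset.Icc 1 (n - 1), (3 + Cq)), by positivity, ?_⟩
  intro δ η s lam Hb Hs x q z P hn hq
  have h := hCc (fun u => Hb u + Hs u) (jet x q) z P.fam.smH (smooth_jet P.sol.smx P.sol.smq)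
    (fun m hm => P.H_low' (by omega)) (fun i hi hi' => P.W_low hi (by omega))
  refine h.trans (add_le_add (mul_le_mul_of_nonneg_right P.top_coef (norm_nonneg _)) ?_)
  have hS : ∑ i ∈ Finset.Icc 1 (n - 1), ‖iteratedFDeriv ℝ i (jet x q) z‖
      ≤ (∑ _i ∈ Finset.Icc 1 (n - 1), (3 + Cq)) * Bd x s lam n n z := by
    rw [Finset.sum_mul]
    refine Finset.sum_le_sum fun i hi => ?_
    rw [Finset.mem_Icc] at hi
    exact P.W_top hq hC hi.1 hi.2 (by omega) (by omega)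
  have hH := (P.H_sum n).trans (mul_le_mul_of_nonneg_left
    (Bd_mono P.hs P.hl (Nat.zero_le n) le_rfl x z) (Finset.sum_nonneg fun _ _ => abs_nonneg _))
  have hB := one_le_Bd P.hs P.hl x n n z
  refine (mul_le_mul_of_nonneg_right (le_abs_self Cc) (by positivity)).trans ?_
  rw [mul_assoc |Cc|]
  refine mul_le_mul_of_nonneg_left ?_ (abs_nonneg _)
  rw [add_mul, add_mul, one_mul]
  linarith

lemma Pt.eqy_norm (P : Pt L j δ M η s lam Hb Hs x q z) (n : ℕ) :
    ‖iteratedFDeriv ℝ n (dy q) z‖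
      = η * ‖iteratedFDeriv ℝ n (fun v => Hb (jet x q v) + Hs (jet x q v)) z‖ := by
  have hG : ContDiff ℝ ∞ fun v => Hb (jet x q v) + Hs (jet x q v) :=
    P.fam.smH.comp (smooth_jet P.sol.smx P.sol.smq)
  rw [norm_congr isOpen_Box (g := η • fun v => Hb (jet x q v) + Hs (jet x q v))
      (fun v hv => by simpa using P.sol.eqy v hv) n P.mem,
    iteratedFDeriv_const_smul_apply (hG.of_le (by norm_cast; simp)).contDiffAt, norm_smul,
    Real.norm_eq_abs, abs_of_pos P.hη]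

lemma Pt.eqp_norm (P : Pt L j δ M η s lam Hb Hs x q z) (n : ℕ) :
    ‖iteratedFDeriv ℝ n (dp q) z‖ ≤ ‖iteratedFDeriv ℝ (n + 1) x z‖ := by
  rw [norm_congr isOpen_Box (g := -dy x) (fun v hv => P.sol.eqp v hv) n P.mem,
    iteratedFDeriv_neg_apply, norm_neg]
  exact norm_dy_le P.sol.smx n z

/-- All derivatives of `q` from those of `x`. -/
lemma q_bound (h1 : CompSpec) (L : ℕ → ℝ) (j : ℕ) (M : ℝ) (n : ℕ) :
    ∃ C, 0 ≤ C ∧ ∀ (δ η s lam : ℝ) (Hb Hs : V6 → ℝ) (x q : P2 → ℝ) (z : P2),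
      Pt L j δ M η s lam Hb Hs x q z → n ≤ j + 1 →
      ∀ i ≤ n, ‖iteratedFDeriv ℝ i q z‖ ≤ C * Bd x s lam i (i - 1) z := by
  induction n with
  | zero =>
    refine ⟨1, zero_le_one, fun δ η s lam Hb Hs x q z P _ i hi => ?_⟩
    obtain rfl : i = 0 := by omega
    have := P.sol.closeq 0 (by norm_num) z P.mem
    have := one_le_Bd P.hs P.hl x 0 (0 - 1) z
    have := P.hδ
    linarith
  | succ n ih =>
    obtain ⟨Cq, hC, hq⟩ := ih
    obtain ⟨Cc, hCc0, hCc⟩ := comp_bound h1 L j M n Cq hC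
    refine ⟨max (max Cq 1) (1 + 2 * |L 1| * (3 + Cq) + Cc), by positivity,
      fun δ η s lam Hb Hs x q z P hn i hi => ?_⟩
    have hB0 := one_le_Bd P.hs P.hl x i (i - 1) z
    rcases Nat.lt_or_ge i (n + 1) with hlt | hge
    · refine (hq δ η s lam Hb Hs x q z P (by omega) i (by omega)).trans
        (mul_le_mul_of_nonneg_right ((le_max_left _ _).trans (le_max_left _ _)) (by linarith))
    obtain rfl : i = n + 1 := by omega
    have hq' := hq δ η s lam Hb Hs x q z P (by omega)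
    rcases Nat.eq_zero_or_pos n with rfl | hn0
    · have := P.sol.closeq 1 (by norm_num) z P.mem
      have := P.hδ
      refine le_trans ?_ (mul_le_mul_of_nonneg_right
        ((le_max_right Cq 1).trans (le_max_left _ _)) (by linarith))
      show ‖iteratedFDeriv ℝ 1 q z‖ ≤ 1 * Bd x s lam 1 0 z
      change 1 ≤ Bd x s lam 1 0 z at hB0
      linarith
    refine le_trans ?_ (mul_le_mul_of_nonneg_right (le_max_right _ _) (by linarith))
    refine (norm_succ_le P.sol.smq n z).trans ?_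
    rw [P.eqy_norm, Nat.add_sub_cancel]
    have a1 := (P.eqp_norm n).trans (norm_le_Bd P.hs P.hl x n le_rfl z)
    have a2 := hCc δ η s lam Hb Hs x q z P (by omega) fun i hi => hq' i (by omega)
    have a3 := P.W_top hq' hC hn0 le_rfl (le_refl (n + 1)) (Nat.le_succ n)
    have a4 := mul_le_mul_of_nonneg_left a3 (show 0 ≤ 2 * |L 1| by positivity)
    have a5 := mul_le_mul_of_nonneg_left (Bd_mono P.hs P.hl (Nat.le_succ n) (le_refl n) x z) hCc0
    have a6 : η * ‖iteratedFDeriv ℝ n (fun v => Hb (jet x q v) + Hs (jet x q v)) z‖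
        ≤ ‖iteratedFDeriv ℝ n (fun v => Hb (jet x q v) + Hs (jet x q v)) z‖ :=
      mul_le_of_le_one_left (norm_nonneg _) P.η1
    simp only [Nat.succ_eq_add_one] at *
    linarith

end Vale.Agent.P229
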