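import Vale.Agent.P229.CoreDefs
import Vale.Agent.P229.Calc

/-
P229: calculus facts about the jet used to bound the differentiated equation.
-/

namespace Vale.Agent.P229

open scoped ContDiff
open Set Filter Topology

lemma isOpen_Box : IsOpen Box :=
  (isOpen_lt (continuous_abs.comp continuous_fst) continuous_const).inter
    (isOpen_lt (continuous_abs.comp continuous_snd) continuous_const)

lemma norm_e1 : ‖((1 : ℝ), (0 : ℝ))‖ = 1 := by simp
lemma norm_e2 : ‖((0 : ℝ), (1 : ℝ))‖ = 1 := by simp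

lemma abs_fderiv_apply_le (φ : P2 → ℝ) (z v : P2) (hv : ‖v‖ ≤ 1) :
    |fderiv ℝ φ z v| ≤ ‖iteratedFDeriv ℝ 1 φ z‖ := by
  rw [norm_iteratedFDeriv_one]
  exact ((fderiv ℝ φ z).le_opNorm v).trans (mul_le_of_le_one_right (norm_nonneg _) hv)

lemma norm_dp_le {f : P2 → ℝ} (hf : ContDiff ℝ ∞ f) (n : ℕ) (z : P2) :
    ‖iteratedFDeriv ℝ n (dp f) z‖ ≤ ‖iteratedFDeriv ℝ (n + 1) f z‖ := by
  have h := norm_iteratedFDeriv_clm_apply_const (𝕜 := ℝ) (f := fderiv ℝ f)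
    (c := ((1 : ℝ), (0 : ℝ))) (x := z) (N := ∞) (n := n)
    (hf.fderiv_right (by simp)).contDiffAt (by norm_cast; simp)
  rw [norm_e1, one_mul, norm_iteratedFDeriv_fderiv] at h
  exact h

lemma norm_dy_le {f : P2 → ℝ} (hf : ContDiff ℝ ∞ f) (n : ℕ) (z : P2) :
    ‖iteratedFDeriv ℝ n (dy f) z‖ ≤ ‖iteratedFDeriv ℝ (n + 1) f z‖ := by
  have h := norm_iteratedFDeriv_clm_apply_const (𝕜 := ℝ) (f := fderiv ℝ f)
    (c := ((0 : ℝ), (1 : ℝ))) (x := z) (N := ∞) (n := n)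
    (hf.fderiv_right (by simp)).contDiffAt (by norm_cast; simp)
  rw [norm_e2, one_mul, norm_iteratedFDeriv_fderiv] at h
  exact h

lemma norm_succ_le {f : P2 → ℝ} (hf : ContDiff ℝ ∞ f) (n : ℕ) (z : P2) :
    ‖iteratedFDeriv ℝ (n + 1) f z‖
      ≤ ‖iteratedFDeriv ℝ n (dp f) z‖ + ‖iteratedFDeriv ℝ n (dy f) z‖ := by
  let A : ℝ →L[ℝ] (P2 →L[ℝ] ℝ) :=
    ContinuousLinearMap.smulRightL ℝ ℝ (P2 →L[ℝ] ℝ) (1 : ℝ →L[ℝ] ℝ) (ContinuousLinearMap.fst ℝ ℝ ℝ)
  let B : ℝ →L[ℝ] (P2 →L[ℝ] ℝ) :=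
    ContinuousLinearMap.smulRightL ℝ ℝ (P2 →L[ℝ] ℝ) (1 : ℝ →L[ℝ] ℝ) (ContinuousLinearMap.snd ℝ ℝ ℝ)
  have hA : ‖A‖ ≤ 1 := ContinuousLinearMap.opNorm_le_bound _ zero_le_one fun r => by
    simpa [A, norm_smul] using mul_le_of_le_one_right (abs_nonneg r)
      (ContinuousLinearMap.norm_fst_le ℝ ℝ ℝ)
  have hB : ‖B‖ ≤ 1 := ContinuousLinearMap.opNorm_le_bound _ zero_le_one fun r => by
    simpa [B, norm_smul] using mul_le_of_le_one_right (abs_nonneg r)
      (ContinuousLinearMap.norm_snd_le ℝ ℝ ℝ)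
  have e : fderiv ℝ f = (A ∘ dp f) + (B ∘ dy f) := by
    funext v
    refine ContinuousLinearMap.ext fun w => ?_
    have : w = w.1 • ((1 : ℝ), (0 : ℝ)) + w.2 • ((0 : ℝ), (1 : ℝ)) := by ext <;> simp
    rw [show fderiv ℝ f v w = fderiv ℝ f v (w.1 • ((1 : ℝ), (0 : ℝ)) + w.2 • ((0 : ℝ), (1 : ℝ))) by
      rw [← this]]
    simp only [map_add, map_smul]
    simp [A, B, dp, dy, mul_comm]
  have hp := smooth_dp hf
  have hy := smooth_dy hf
  have hn : (n : WithTop ℕ∞) ≤ ∞ := by norm_cast; simp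
  rw [← norm_iteratedFDeriv_fderiv, e, iteratedFDeriv_add_apply
    (((A.contDiff.comp hp).of_le hn).contDiffAt) (((B.contDiff.comp hy).of_le hn).contDiffAt)]
  refine (norm_add_le _ _).trans (add_le_add ?_ ?_)
  · exact (A.norm_iteratedFDeriv_comp_left hp.contDiffAt hn).trans
      (mul_le_of_le_one_left (norm_nonneg _) hA)
  · exact (B.norm_iteratedFDeriv_comp_left hy.contDiffAt hn).trans
      (mul_le_of_le_one_left (norm_nonneg _) hB)

lemma abs_iter_le {f : P2 → ℝ} (hf : ContDiff ℝ ∞ f) (n : ℕ) (z : P2) :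
    |dp^[n] f z| ≤ ‖iteratedFDeriv ℝ n f z‖ := by
  induction n generalizing f with
  | zero => simp
  | succ n ih =>
    rw [Function.iterate_succ_apply]
    exact (ih (smooth_dp hf)).trans (norm_dp_le hf n z)

lemma dy_iter {f : P2 → ℝ} (hf : ContDiff ℝ ∞ f) (n : ℕ) :
    dy (dp^[n] f) = dp^[n] (dy f) := by
  induction n generalizing f with
  | zero => rfl
  | succ n ih =>
    rw [Function.iterate_succ_apply, Function.iterate_succ_apply, ih (smooth_dp hf)]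
    congr 1
    exact funext fun z => dy_dp_eq (hf.of_le (by norm_cast)) z

lemma dp_congr {f g : P2 → ℝ} {U : Set P2} (hU : IsOpen U) (h : EqOn f g U) :
    EqOn (dp f) (dp g) U := by
  intro z hz
  simp only [dp]
  rw [(h.eventuallyEq_of_mem (hU.mem_nhds hz)).fderiv_eq]

lemma iter_congr {f g : P2 → ℝ} {U : Set P2} (hU : IsOpen U) (h : EqOn f g U) (n : ℕ) :
    EqOn (dp^[n] f) (dp^[n] g) U := by
  induction n with
  | zero => exact h
  | succ n ih =>
    rw [Function.iterate_succ_apply', Function.iterate_succ_apply']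
    exact dp_congr hU ih

lemma norm_congr {f g : P2 → ℝ} {U : Set P2} (hU : IsOpen U) (h : EqOn f g U) (n : ℕ)
    {z : P2} (hz : z ∈ U) : iteratedFDeriv ℝ n f z = iteratedFDeriv ℝ n g z :=
  ((h.eventuallyEq_of_mem (hU.mem_nhds hz)).iteratedFDeriv ℝ n).eq_of_nhds

lemma dp_const_mul {f : P2 → ℝ} (c : ℝ) : dp (fun v => c * f v) = fun v => c * dp f v := by
  funext z
  simp only [dp]
  rw [show (fun v => c * f v) = c • f from rfl, fderiv_const_smul_field]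
  rfl

lemma iter_const_mul {f : P2 → ℝ} (c : ℝ) (n : ℕ) :
    dp^[n] (fun v => c * f v) = fun v => c * dp^[n] f v := by
  induction n generalizing f with
  | zero => rfl
  | succ n ih =>
    rw [Function.iterate_succ_apply, dp_const_mul, ih, Function.iterate_succ_apply]

lemma iter_fst (n : ℕ) (z : P2) : dp^[n + 2] (fun v : P2 => v.1) z = 0 := by
  have h1 : dp (fun v : P2 => v.1) = fun _ => (1 : ℝ) := by
    funext z
    simp [dp, fderiv_fst]
  have h0 : dp (fun _ : P2 => (1 : ℝ)) = fun _ => (0 : ℝ) := by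
    funext z
    simp [dp]
  rw [Function.iterate_succ_apply, Function.iterate_succ_apply, h1, h0]
  have : ∀ m : ℕ, dp^[m] (fun _ : P2 => (0 : ℝ)) = fun _ => 0 := fun m => by
    induction m with
    | zero => rfl
    | succ m ih =>
      rw [Function.iterate_succ_apply', ih]
      funext z; simp [dp]
  rw [this]

lemma iter_snd (n : ℕ) (z : P2) : dp^[n + 1] (fun v : P2 => v.2) z = 0 := by
  have h1 : dp (fun v : P2 => v.2) = fun _ => (0 : ℝ) := by
    funext z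
    simp [dp, fderiv_snd]
  rw [Function.iterate_succ_apply, h1]
  have : ∀ m : ℕ, dp^[m] (fun _ : P2 => (0 : ℝ)) = fun _ => 0 := fun m => by
    induction m with
    | zero => rfl
    | succ m ih =>
      rw [Function.iterate_succ_apply', ih]
      funext z; simp [dp]
  rw [this]

lemma norm_clm_iter (A : P2 →L[ℝ] ℝ) (hA : ‖A‖ ≤ 1) (n : ℕ) (z : P2) :
    ‖iteratedFDeriv ℝ (n + 1) (⇑A) z‖ ≤ 1 := by
  rw [← norm_iteratedFDeriv_fderiv]
  have : fderiv ℝ (⇑A) = fun _ => A := funext fun v => A.fderiv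
  rw [this]
  rcases n with _ | n
  · simpa using hA
  · rw [iteratedFDeriv_const_of_ne (by omega)]; simp

variable {x q : P2 → ℝ}

lemma smooth_jet (hx : ContDiff ℝ ∞ x) (hq : ContDiff ℝ ∞ q) : ContDiff ℝ ∞ (jet x q) := by
  refine contDiff_pi.2 fun i => ?_
  fin_cases i
  · simpa [jet] using contDiff_fst
  · simpa [jet] using contDiff_snd
  · simpa [jet] using hx
  · simpa [jet] using hq
  · simpa [jet] using smooth_dp hx
  · simpa [jet] using smooth_dy hx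

lemma smooth_hDer {H : V6 → ℝ} (hH : ContDiff ℝ ∞ H) (hx : ContDiff ℝ ∞ x)
    (hq : ContDiff ℝ ∞ q) (i : Fin 6) : ContDiff ℝ ∞ (hDer H x q i) :=
  (((hH.fderiv_right (by simp)).comp (smooth_jet hx hq))).clm_apply contDiff_const

lemma norm_pi_iter {W : P2 → V6} (hW : ContDiff ℝ ∞ W) (n : ℕ) (z : P2) {b : ℝ} (hb : 0 ≤ b)
    (h : ∀ k, ‖iteratedFDeriv ℝ n (fun v => W v k) z‖ ≤ b) : ‖iteratedFDeriv ℝ n W z‖ ≤ b := by
  refine ContinuousMultilinearMap.opNorm_le_bound hb fun m => ?_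
  have hm : 0 ≤ ∏ i, ‖m i‖ := Finset.prod_nonneg fun _ _ => norm_nonneg _
  refine (pi_norm_le_iff_of_nonneg (mul_nonneg hb hm)).2 fun k => ?_
  have e := (ContinuousLinearMap.proj (R := ℝ) (φ := fun _ : Fin 6 => ℝ) k).iteratedFDeriv_comp_left
    hW.contDiffAt (x := z) (i := n) (by norm_cast; simp)
  have : iteratedFDeriv ℝ n W z m k = iteratedFDeriv ℝ n (fun v => W v k) z m := by
    rw [show (fun v => W v k)
      = (ContinuousLinearMap.proj (R := ℝ) (φ := fun _ : Fin 6 => ℝ) k) ∘ W from rfl, e]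
    rfl
  rw [this]
  exact (ContinuousMultilinearMap.le_opNorm _ _).trans (mul_le_mul_of_nonneg_right (h k) hm)

lemma norm_jet_le (hx : ContDiff ℝ ∞ x) (hq : ContDiff ℝ ∞ q) {i : ℕ} (hi : 1 ≤ i) (z : P2) :
    ‖iteratedFDeriv ℝ i (jet x q) z‖ ≤ 1 + ‖iteratedFDeriv ℝ i x z‖ + ‖iteratedFDeriv ℝ i q z‖
      + ‖iteratedFDeriv ℝ (i + 1) x z‖ := by
  have hn : ∀ g : P2 → ℝ, ∀ m, 0 ≤ ‖iteratedFDeriv ℝ m g z‖ := fun _ _ => norm_nonneg _
  obtain ⟨m, rfl⟩ := Nat.exists_eq_add_of_le hi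
  have c1 : ‖iteratedFDeriv ℝ (1 + m) (fun v : P2 => v.1) z‖ ≤ 1 := by
    rw [Nat.add_comm]
    exact norm_clm_iter (ContinuousLinearMap.fst ℝ ℝ ℝ) (ContinuousLinearMap.norm_fst_le ℝ ℝ ℝ) m z
  have c2 : ‖iteratedFDeriv ℝ (1 + m) (fun v : P2 => v.2) z‖ ≤ 1 := by
    rw [Nat.add_comm]
    exact norm_clm_iter (ContinuousLinearMap.snd ℝ ℝ ℝ) (ContinuousLinearMap.norm_snd_le ℝ ℝ ℝ) m z
  refine norm_pi_iter (smooth_jet hx hq) _ z (by positivity) fun k => ?_
  have h1 := hn x (1 + m)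
  have h2 := hn q (1 + m)
  have h3 := hn x (1 + m + 1)
  have c4 := norm_dp_le hx (1 + m) z
  have c5 := norm_dy_le hx (1 + m) z
  fin_cases k
  · simp [jet]; linarith
  · simp [jet]; linarith
  · simp [jet]; linarith
  · simp [jet]; linarith
  · simp [jet]; linarith
  · simp [jet]; linarith

lemma clm_six (A : V6 →L[ℝ] ℝ) (v : V6) : A v = ∑ i : Fin 6, v i * A (Pi.single i 1) := by
  conv_lhs => rw [pi_eq_sum_univ' v]
  simp [map_sum]

/-- Total size of the derivatives of order at most `a`, with the blob contribution of order `b`. -/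
noncomputable def Bd (x : P2 → ℝ) (s lam : ℝ) (a b : ℕ) (z : P2) : ℝ :=
  1 + lowSum x a z + blobInd lam z * (s * lam ^ b)

lemma blobInd_nonneg (lam : ℝ) (z : P2) : 0 ≤ blobInd lam z :=
  indicator_nonneg (fun _ _ => zero_le_one) z

lemma blobInd_le_one (lam : ℝ) (z : P2) : blobInd lam z ≤ 1 := by
  unfold blobInd Set.indicator
  split <;> norm_num

lemma lowSum_nonneg (x : P2 → ℝ) (a : ℕ) (z : P2) : 0 ≤ lowSum x a z :=
  Finset.sum_nonneg fun _ _ => norm_nonneg _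

lemma le_lowSum (x : P2 → ℝ) {i a : ℕ} (h : i ≤ a) (z : P2) :
    ‖iteratedFDeriv ℝ i x z‖ ≤ lowSum x a z :=
  Finset.single_le_sum (f := fun m => ‖iteratedFDeriv ℝ m x z‖) (fun _ _ => norm_nonneg _)
    (Finset.mem_range.2 (by omega))

lemma Bd_mono {s lam : ℝ} (hs : 0 ≤ s) (hl : 1 ≤ lam) {a a' b b' : ℕ} (ha : a ≤ a') (hb : b ≤ b')
    (x : P2 → ℝ) (z : P2) : Bd x s lam a b z ≤ Bd x s lam a' b' z := by
  have h1 : lowSum x a z ≤ lowSum x a' z :=
    Finset.sum_le_sum_of_subset_of_nonneg (Finset.range_mono (by omega)) fun _ _ _ => norm_nonneg _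
  have h2 : blobInd lam z * (s * lam ^ b) ≤ blobInd lam z * (s * lam ^ b') :=
    mul_le_mul_of_nonneg_left (mul_le_mul_of_nonneg_left (pow_le_pow_right₀ hl hb) hs)
      (blobInd_nonneg _ _)
  unfold Bd; linarith

lemma one_le_Bd {s lam : ℝ} (hs : 0 ≤ s) (hl : 1 ≤ lam) (x : P2 → ℝ) (a b : ℕ) (z : P2) :
    1 ≤ Bd x s lam a b z := by
  have := lowSum_nonneg x a z
  have : 0 ≤ blobInd lam z * (s * lam ^ b) :=
    mul_nonneg (blobInd_nonneg _ _) (mul_nonneg hs (by positivity))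
  unfold Bd; linarith

lemma norm_le_Bd {s lam : ℝ} (hs : 0 ≤ s) (hl : 1 ≤ lam) (x : P2 → ℝ) {i a : ℕ} (b : ℕ)
    (h : i ≤ a) (z : P2) : ‖iteratedFDeriv ℝ i x z‖ ≤ Bd x s lam a b z := by
  have := le_lowSum x h z
  have : 0 ≤ blobInd lam z * (s * lam ^ b) :=
    mul_nonneg (blobInd_nonneg _ _) (mul_nonneg hs (by positivity))
  unfold Bd; linarith

end Vale.Agent.P229
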