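import Vale.Agent.P229.FamilyH

/-
P229: the blob pairs nontrivially with a wide plane wave.
-/

namespace Vale.Agent.P229

open MeasureTheory
open scoped ContDiff
open Fam (smooth_blob smooth_blobK blob_zero rsq_gt_one)

lemma blob_nonneg (z : P2) : 0 ≤ blob z := bump1.nonneg

lemma blob_eq_zero_of_far {z : P2} (h : 1 < |z.1| ∨ 1 < |z.2|) :
    blob z = 0 ∧ blobK z = 0 :=
  ⟨(blob_zero (rsq_gt_one (a := z.1) (b := z.2) h)).1,
    (blob_zero (rsq_gt_one (a := z.1) (b := z.2) h)).2.2.2⟩

lemma supp_blob' : HasCompactSupport blob :=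
  HasCompactSupport.intro ((isCompact_Icc (a := (-1 : ℝ)) (b := 1)).prod
    (isCompact_Icc (a := (-1 : ℝ)) (b := 1))) fun z hz => by
    refine (blob_eq_zero_of_far ?_).1
    simp only [Set.mem_prod, Set.mem_Icc, not_and_or, not_le] at hz
    rcases hz with (h | h) | (h | h)
    · exact Or.inl (lt_abs.2 (Or.inr (by linarith)))
    · exact Or.inl (lt_abs.2 (Or.inl h))
    · exact Or.inr (lt_abs.2 (Or.inr (by linarith)))
    · exact Or.inr (lt_abs.2 (Or.inl h))

lemma integral_blob_pos : 0 < ∫ z, blob z := by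
  refine (integral_pos_iff_support_of_nonneg blob_nonneg
    (smooth_blob.continuous.integrable_of_hasCompactSupport supp_blob')).2 ?_
  refine (smooth_blob.continuous.isOpen_support).measure_pos volume ⟨0, ?_⟩
  show bump1 (rsq 0) ≠ 0
  rw [bump1.one_of_mem_closedBall (by simp [rsq, bump1])]
  exact one_ne_zero

/-- Two integrations by parts against the blob. -/
lemma blobK_parts {φ : P2 → ℝ} (hφ : ContDiff ℝ ∞ φ) :
    ∫ z, blobK z * φ z = -(∫ z, blob z * (dp (dp φ) z + dy (dy φ) z)) / 2 := by
  have hb := smooth_blob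
  have hs := supp_blob'
  have hint : ∀ {f : P2 → ℝ}, Continuous f → HasCompactSupport f → Integrable f := fun hf hc =>
    hf.integrable_of_hasCompactSupport hc
  have hsd : ∀ e : P2, HasCompactSupport fun z => fderiv ℝ blob z e := fun e => hs.fderiv_apply ℝ e
  have hsdd : ∀ e : P2, HasCompactSupport fun z => fderiv ℝ (fun v => fderiv ℝ blob v e) z e :=
    fun e => (hsd e).fderiv_apply ℝ e
  have key : ∀ e : P2, (∀ f : P2 → ℝ, ContDiff ℝ 1 f → HasCompactSupport f →
      ∫ z, fderiv ℝ f z e = 0) →
      ∫ z, fderiv ℝ (fun v => fderiv ℝ blob v e) z e * φ z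
        = ∫ z, blob z * fderiv ℝ (fun v => fderiv ℝ φ v e) z e := by
    intro e hI
    have hbe : ContDiff ℝ ∞ fun v => fderiv ℝ blob v e :=
      (hb.fderiv_right (m := ∞) le_rfl).clm_apply contDiff_const
    have hφe : ContDiff ℝ ∞ fun v => fderiv ℝ φ v e :=
      (hφ.fderiv_right (m := ∞) le_rfl).clm_apply contDiff_const
    have hbee : Continuous fun z => fderiv ℝ (fun v => fderiv ℝ blob v e) z e :=
      (hbe.continuous_fderiv (by simp)).clm_apply continuous_const
    have hφee : Continuous fun z => fderiv ℝ (fun v => fderiv ℝ φ v e) z e :=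
      (hφe.continuous_fderiv (by simp)).clm_apply continuous_const
    have h1 := hI _ ((hbe.mul hφ).of_le (by simp)) ((hsd e).mul_right (f' := φ))
    have h2 := hI _ ((hb.mul hφe).of_le (by simp)) (hs.mul_right (f' := fun v => fderiv ℝ φ v e))
    have e1 : ∀ z, fderiv ℝ (fun v => fderiv ℝ blob v e * φ v) z e
        = fderiv ℝ (fun v => fderiv ℝ blob v e) z e * φ z
          + fderiv ℝ blob z e * fderiv ℝ φ z e := fun z => by
      rw [fderiv_fun_mul ((hbe.differentiable (by simp)) z) ((hφ.differentiable (by simp)) z)]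
      simp
      ring
    have e2 : ∀ z, fderiv ℝ (fun v => blob v * fderiv ℝ φ v e) z e
        = fderiv ℝ blob z e * fderiv ℝ φ z e
          + blob z * fderiv ℝ (fun v => fderiv ℝ φ v e) z e := fun z => by
      rw [fderiv_fun_mul ((hb.differentiable (by simp)) z) ((hφe.differentiable (by simp)) z)]
      simp
      ring
    change ∫ z, fderiv ℝ (fun v => fderiv ℝ blob v e * φ v) z e = 0 at h1
    change ∫ z, fderiv ℝ (fun v => blob v * fderiv ℝ φ v e) z e = 0 at h2
    simp only [e1] at h1
    simp only [e2] at h2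
    have i1 : Integrable fun z => fderiv ℝ blob z e * fderiv ℝ φ z e :=
      hint (hbe.continuous.mul hφe.continuous) (hsd e).mul_right
    have i2 : Integrable fun z => fderiv ℝ (fun v => fderiv ℝ blob v e) z e * φ z :=
      hint (hbee.mul hφ.continuous) (hsdd e).mul_right
    have i3 : Integrable fun z => blob z * fderiv ℝ (fun v => fderiv ℝ φ v e) z e :=
      hint (hb.continuous.mul hφee) hs.mul_right
    rw [integral_add i2 i1] at h1
    rw [integral_add i1 i3] at h2
    linarith
  have kp := key (1, 0) fun f hf hc => int_dp hf hc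
  have ky := key (0, 1) fun f hf hc => int_dy hf hc
  have a1 : Integrable fun z => dp (dp blob) z * φ z :=
    hint ((smooth_dp (smooth_dp hb)).continuous.mul hφ.continuous) (hsdd (1, 0)).mul_right
  have a2 : Integrable fun z => dy (dy blob) z * φ z :=
    hint ((smooth_dy (smooth_dy hb)).continuous.mul hφ.continuous) (hsdd (0, 1)).mul_right
  have b1 : Integrable fun z => blob z * dp (dp φ) z :=
    hint (hb.continuous.mul (smooth_dp (smooth_dp hφ)).continuous) hs.mul_right
  have b2 : Integrable fun z => blob z * dy (dy φ) z :=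
    hint (hb.continuous.mul (smooth_dy (smooth_dy hφ)).continuous) hs.mul_right
  calc ∫ z, blobK z * φ z
      = ∫ z, (dp (dp blob) z * φ z + dy (dy blob) z * φ z) * (-1 / 2) := by
        congr 1; funext z; rw [blobK]; ring
    _ = (∫ z, blob z * dp (dp φ) z + blob z * dy (dy φ) z) * (-1 / 2) := by
        rw [integral_mul_const, integral_add a1 a2, integral_add b1 b2]
        rw [show (∫ a, dp (dp blob) a * φ a) = _ from kp, show (∫ a, dy (dy blob) a * φ a) = _ from ky]
        rfl
    _ = _ := by
        simp only [mul_add]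
        ring

/-- A plane wave. -/
lemma plane_dd {Θ : ℝ → ℝ} (hΘ : ContDiff ℝ ∞ Θ) (α β : ℝ) (z e : P2) :
    fderiv ℝ (fun v => fderiv ℝ (fun u : P2 => Θ (α * u.1 + β * u.2)) v e) z e
      = (α * e.1 + β * e.2) ^ 2 * deriv (deriv Θ) (α * z.1 + β * z.2) := by
  have hl : ∀ v : P2, HasFDerivAt (fun u : P2 => α * u.1 + β * u.2)
      (α • ContinuousLinearMap.fst ℝ ℝ ℝ + β • ContinuousLinearMap.snd ℝ ℝ ℝ) v := fun v =>
    (hasFDerivAt_fst.const_mul α).add (hasFDerivAt_snd.const_mul β)
  have h1 : (fun v => fderiv ℝ (fun u : P2 => Θ (α * u.1 + β * u.2)) v e)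
      = fun v => (α * e.1 + β * e.2) * deriv Θ (α * v.1 + β * v.2) := by
    funext v
    have := ((hΘ.differentiable (by simp)) _).hasDerivAt.comp_hasFDerivAt v (hl v)
    simp only [Function.comp_def] at this
    rw [this.fderiv]
    simp
    ring
  rw [h1]
  have hd : ContDiff ℝ ∞ (deriv Θ) := (contDiff_infty_iff_deriv.1 hΘ).2
  have := (((hd.differentiable (by simp)) _).hasDerivAt.comp_hasFDerivAt z (hl z)).const_mul
    (α * e.1 + β * e.2)
  simp only [Function.comp_def] at this
  rw [this.fderiv]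
  simp
  ring

/-- The signal of the blob against a wide plane wave. -/
theorem blob_signal {Θ : ℝ → ℝ} (hΘ : ContDiff ℝ ∞ Θ) (h2 : deriv (deriv Θ) 0 ≠ 0) (M : ℝ) :
    ∃ c L0 : ℝ, 0 < c ∧ 1 ≤ L0 ∧ ∀ L a0 m0 om : ℝ, L0 ≤ L → |a0 - 1| ≤ 1 / 2 → |m0| ≤ 1 / 2 →
      |om| ≤ M →
      c / L ^ 2 ≤ |∫ z : P2, blobK (a0 * z.1 + m0 * z.2, z.2) * Θ ((z.2 + om * z.1) / L)| := by
  set d2 := deriv (deriv Θ) with hd2
  have hd2c : Continuous d2 :=
    ((contDiff_infty_iff_deriv.1 ((contDiff_infty_iff_deriv.1 hΘ).2)).2).continuous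
  obtain ⟨ε, hε, hεd⟩ := Metric.continuousAt_iff.1 hd2c.continuousAt (|d2 0| / 2)
    (by have := abs_pos.2 h2; positivity)
  set B := ∫ z, blob z with hB
  have hB0 : 0 < B := integral_blob_pos
  refine ⟨|d2 0| * B / 32, max 1 ((3 * |M| + 2) / ε + 1),
    by have := abs_pos.2 h2; positivity, le_max_left _ _, fun L a0 m0 om hL ha hm ho => ?_⟩
  have hL1 : 1 ≤ L := (le_max_left _ _).trans hL
  have ha' := abs_le.1 ha
  have ha0 : 0 < a0 := by linarith
  set α := om / a0 / L with hα
  set β := (1 - om * m0 / a0) / L with hβ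
  have hcv : ∫ z : P2, blobK (a0 * z.1 + m0 * z.2, z.2) * Θ ((z.2 + om * z.1) / L)
      = a0⁻¹ * ∫ z : P2, blobK z * Θ (α * z.1 + β * z.2) := by
    have hc : ∀ {f : P2 → ℝ}, Continuous f →
        (∀ z : P2, 2 * |z.1| > 10 ∨ |z.2| > 1 → f z = 0) → Integrable f := fun hf h0 =>
      hf.integrable_of_hasCompactSupport (HasCompactSupport.intro
        ((isCompact_Icc (a := (-5 : ℝ)) (b := 5)).prod (isCompact_Icc (a := (-1 : ℝ)) (b := 1)))
        fun z hz => h0 z (by
          simp only [Set.mem_prod, Set.mem_Icc, not_and_or, not_le] at hz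
          rcases hz with (h | h) | (h | h)
          · exact Or.inl (by have := neg_abs_le z.1; linarith)
          · exact Or.inl (by have := le_abs_self z.1; linarith)
          · exact Or.inr (by have := neg_abs_le z.2; linarith)
          · exact Or.inr (by have := le_abs_self z.2; linarith)))
    have hcont : Continuous fun z : P2 => blobK z * Θ (α * z.1 + β * z.2) :=
      smooth_blobK.continuous.mul (hΘ.continuous.comp (by fun_prop))
    have hi1 : Integrable fun z : P2 => blobK z * Θ (α * z.1 + β * z.2) := hc hcont fun z hz => by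
      rw [(blob_eq_zero_of_far ?_).2, zero_mul]
      rcases hz with h | h
      · exact Or.inl (by linarith)
      · exact Or.inr h
    have hi2 : Integrable fun z : P2 =>
        blobK (a0 * z.1 + m0 * z.2, z.2) * Θ ((z.2 + om * z.1) / L) := by
      refine hc (((smooth_blobK.continuous.comp (by fun_prop : Continuous fun z : P2 =>
        ((a0 * z.1 + m0 * z.2, z.2) : P2))).mul (hΘ.continuous.comp (by fun_prop)))) fun z hz => ?_
      rw [(blob_eq_zero_of_far ?_).2, zero_mul]
      by_cases h : |z.2| > 1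
      · exact Or.inr h
      · refine Or.inl ?_
        rcases hz with h' | h'
        swap
        · exact absurd h' h
        show 1 < |a0 * z.1 + m0 * z.2|
        have := abs_add_le (a0 * z.1 + m0 * z.2) (-(m0 * z.2))
        rw [add_neg_cancel_right, abs_neg, abs_mul, abs_mul, abs_of_pos ha0] at this
        have i1 : 1 / 2 * |z.1| ≤ a0 * |z.1| :=
          mul_le_mul_of_nonneg_right (by linarith) (abs_nonneg _)
        have i2 : |m0| * |z.2| ≤ 1 / 2 * 1 :=
          mul_le_mul hm (not_lt.1 h) (abs_nonneg _) (by norm_num)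
        linarith
    rw [Measure.volume_eq_prod] at hi1 hi2 ⊢
    rw [integral_prod_symm _ hi2, integral_prod_symm _ hi1, ← integral_const_mul]
    refine integral_congr_ae (.of_forall fun Y => ?_)
    simp only
    set g : ℝ → ℝ := fun X => blobK (X, Y) * Θ (α * X + β * Y) with hg
    have e : (fun P => blobK (a0 * P + m0 * Y, Y) * Θ ((Y + om * P) / L))
        = fun P => g (a0 * P + m0 * Y) := by
      funext P
      simp only [hg]
      congr 2
      rw [hα, hβ]
      field_simp
      ring
    rw [e, Measure.integral_comp_mul_left (fun X => g (X + m0 * Y)) a0,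
      integral_add_right_eq_self g (m0 * Y), abs_of_pos (inv_pos.2 ha0), smul_eq_mul]
  have hφ : ContDiff ℝ ∞ fun z : P2 => Θ (α * z.1 + β * z.2) :=
    hΘ.comp (by fun_prop : ContDiff ℝ ∞ fun z : P2 => α * z.1 + β * z.2)
  rw [hcv, blobK_parts hφ]
  have hdd : (fun z => blob z * (dp (dp fun v : P2 => Θ (α * v.1 + β * v.2)) z
        + dy (dy fun v : P2 => Θ (α * v.1 + β * v.2)) z))
      = fun z => (α ^ 2 + β ^ 2) * (blob z * d2 (α * z.1 + β * z.2)) := by
    funext z
    show blob z * (fderiv ℝ _ z (1, 0) + fderiv ℝ _ z (0, 1)) = _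
    rw [show (dp fun v : P2 => Θ (α * v.1 + β * v.2))
        = fun v => fderiv ℝ (fun u : P2 => Θ (α * u.1 + β * u.2)) v (1, 0) from rfl,
      show (dy fun v : P2 => Θ (α * v.1 + β * v.2))
        = fun v => fderiv ℝ (fun u : P2 => Θ (α * u.1 + β * u.2)) v (0, 1) from rfl,
      plane_dd hΘ, plane_dd hΘ]
    simp only [hd2]
    ring
  rw [hdd, integral_const_mul]
  have hpt : ∀ z, blob z * (|d2 0| / 2) ≤ (if 0 < d2 0 then 1 else -1)
      * (blob z * d2 (α * z.1 + β * z.2)) := by
    intro z
    rcases eq_or_ne (blob z) 0 with h0 | h0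
    · simp [h0]
    have hz1 : |z.1| ≤ 1 := not_lt.1 fun h => h0 (blob_eq_zero_of_far (Or.inl h)).1
    have hz2 : |z.2| ≤ 1 := not_lt.1 fun h => h0 (blob_eq_zero_of_far (Or.inr h)).1
    have hclose : |α * z.1 + β * z.2| < ε := by
      have e1 : |α| ≤ 2 * |M| / L := by
        rw [hα, abs_div, abs_div, abs_of_pos ha0, abs_of_pos (show 0 < L by linarith)]
        gcongr
        rw [div_le_iff₀ ha0]
        have h1 := ho.trans (le_abs_self M)
        have h2 := mul_le_mul_of_nonneg_left (show 1 / 2 ≤ a0 by linarith)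
          (show 0 ≤ 2 * |M| by positivity)
        linarith
      have e2 : |β| ≤ (1 + |M|) / L := by
        rw [hβ, abs_div, abs_of_pos (show 0 < L by linarith)]
        gcongr
        refine (abs_sub _ _).trans ?_
        rw [abs_one, abs_div, abs_mul, abs_of_pos ha0]
        refine add_le_add le_rfl ?_
        rw [div_le_iff₀ ha0]
        have h1 := mul_le_mul (ho.trans (le_abs_self M)) hm (abs_nonneg _) (abs_nonneg M)
        have h2 := mul_le_mul_of_nonneg_left (show 1 / 2 ≤ a0 by linarith) (abs_nonneg M)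
        linarith
      have h3 : |α * z.1 + β * z.2| ≤ (3 * |M| + 1) / L := by
        refine (abs_add_le _ _).trans ?_
        rw [abs_mul, abs_mul]
        have i1 := mul_le_mul e1 hz1 (abs_nonneg _) (by positivity)
        have i2 := mul_le_mul e2 hz2 (abs_nonneg _) (by positivity)
        have i3 : 2 * |M| / L * 1 + (1 + |M|) / L * 1 = (3 * |M| + 1) / L := by ring
        linarith
      refine h3.trans_lt ?_
      rw [div_lt_iff₀ (by linarith)]
      have hL2 := (le_max_right _ _).trans hL
      have : (3 * |M| + 2) / ε < L := by linarith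
      rw [div_lt_iff₀ hε] at this
      linarith
    have hd := hεd (show dist (α * z.1 + β * z.2) 0 < ε by rwa [dist_zero_right, Real.norm_eq_abs])
    rw [Real.dist_eq] at hd
    have hd' := abs_lt.1 hd
    rcases lt_or_gt_of_ne h2 with h | h
    · rw [if_neg (not_lt.2 h.le), abs_of_neg h] at *
      have := mul_le_mul_of_nonneg_left
        (show -d2 0 / 2 ≤ -d2 (α * z.1 + β * z.2) by linarith) (blob_nonneg z)
      linarith
    · rw [if_pos h, abs_of_pos h] at *
      have := mul_le_mul_of_nonneg_left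
        (show d2 0 / 2 ≤ d2 (α * z.1 + β * z.2) by linarith) (blob_nonneg z)
      linarith
  have hI : B * (|d2 0| / 2) ≤ |∫ z, blob z * d2 (α * z.1 + β * z.2)| := by
    have h := integral_mono
      ((smooth_blob.continuous.integrable_of_hasCompactSupport (μ := volume) supp_blob').mul_const (|d2 0| / 2))
      ((((smooth_blob.continuous.mul (hd2c.comp (by fun_prop : Continuous fun z : P2 =>
        α * z.1 + β * z.2)))).integrable_of_hasCompactSupport (μ := volume) supp_blob'.mul_right).const_mul _)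
      hpt
    rw [integral_mul_const, integral_const_mul] at h
    refine h.trans ((le_abs_self _).trans (le_of_eq ?_))
    rw [abs_mul]
    split_ifs <;> simp
  have hab : 1 / (4 * L ^ 2) ≤ α ^ 2 + β ^ 2 := by
    have e : α ^ 2 + β ^ 2 = ((om / a0) ^ 2 + (1 - om / a0 * m0) ^ 2) / L ^ 2 := by
      rw [hα, hβ]; ring
    rw [e, ← div_div]
    gcongr
    set t := om / a0
    by_cases h : 1 ≤ |t|
    · have := one_le_pow₀ h (n := 2)
      rw [sq_abs] at this
      nlinarith [sq_nonneg (1 - t * m0)]
    · have h1 : |t * m0| ≤ 1 / 2 := by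
        rw [abs_mul]
        calc |t| * |m0| ≤ 1 * (1 / 2) :=
              mul_le_mul (not_le.1 h).le hm (abs_nonneg _) zero_le_one
          _ = _ := one_mul _
      have h2' := abs_le.1 h1
      nlinarith [sq_nonneg t]
  rw [abs_mul, abs_div, abs_neg, abs_mul, abs_two, abs_of_pos (inv_pos.2 ha0),
    abs_of_nonneg (show 0 ≤ α ^ 2 + β ^ 2 by positivity)]
  calc |d2 0| * B / 32 / L ^ 2 ≤ (1 / 2) * ((1 / (4 * L ^ 2)) * (B * (|d2 0| / 2)) / 2) := by
        have e : (1 : ℝ) / 2 * ((1 / (4 * L ^ 2)) * (B * (|d2 0| / 2)) / 2)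
            = |d2 0| * B / 32 / L ^ 2 := by ring
        rw [e]
    _ ≤ _ := by
        gcongr
        rw [one_div]
        exact inv_anti₀ ha0 (by linarith)

end Vale.Agent.P229
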