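import Vale.Agent.P229.CoreDefs
import Vale.Agent.P229.Calc

/-
P229: interior sup bound from square integrals of two more derivatives.
-/

namespace Vale.Agent.P229

open MeasureTheory Set
open scoped ContDiff

variable {E : Type*} [NormedAddCommGroup E] [NormedSpace ℝ E]

lemma line_sup {g g' : ℝ → E} (hg : ∀ t, HasDerivAt g (g' t) t) (hc : Continuous g')
    {ρ : ℝ} (hρ : 0 < ρ) (c : ℝ) :
    ‖g c‖ ≤ (1 / (2 * ρ) + 1) * ∫ t in Icc (c - ρ) (c + ρ), (‖g t‖ + ‖g' t‖) := by
  have hgc : Continuous g := continuous_iff_continuousAt.2 fun t => (hg t).continuousAt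
  have iN : IntegrableOn (fun t => ‖g t‖) (Icc (c - ρ) (c + ρ)) :=
    hgc.norm.continuousOn.integrableOn_Icc
  have iD : IntegrableOn (fun t => ‖g' t‖) (Icc (c - ρ) (c + ρ)) :=
    hc.norm.continuousOn.integrableOn_Icc
  set A := ∫ t in Icc (c - ρ) (c + ρ), ‖g t‖
  set B := ∫ t in Icc (c - ρ) (c + ρ), ‖g' t‖
  have hA : 0 ≤ A := integral_nonneg fun _ => norm_nonneg _
  have hB : 0 ≤ B := integral_nonneg fun _ => norm_nonneg _
  have hpt : ∀ t ∈ Icc (c - ρ) (c + ρ), ‖g c‖ - B ≤ ‖g t‖ := by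
    intro t ht
    have hcm : c ∈ Icc (c - ρ) (c + ρ) := ⟨by linarith, by linarith⟩
    have hd : ∀ a b : ℝ, a ≤ b → a ∈ Icc (c - ρ) (c + ρ) → b ∈ Icc (c - ρ) (c + ρ) →
        ‖g b - g a‖ ≤ B := by
      intro a b hab ha hb
      have h := norm_sub_le_integral_of_norm_deriv_le_of_le hab hgc.continuousOn
        (fun t _ => (hg t).differentiableAt.differentiableWithinAt)
        (Filter.Eventually.of_forall fun t _ => (congrArg norm (hg t).deriv).le)
        (hc.norm.intervalIntegrable a b)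
      refine h.trans ?_
      rw [intervalIntegral.integral_of_le hab]
      refine setIntegral_mono_set iD (Filter.Eventually.of_forall fun _ => norm_nonneg _) ?_
      exact (Ioc_subset_Icc_self.trans (Icc_subset_Icc ha.1 hb.2)).eventuallyLE
    rcases le_total t c with h | h
    · linarith [norm_le_norm_add_norm_sub' (g c) (g t), hd t c h ht hcm]
    · linarith [norm_le_norm_add_norm_sub' (g c) (g t), hd c t h hcm ht,
        norm_sub_rev (g c) (g t)]
  have h2 : 2 * ρ * (‖g c‖ - B) ≤ A := by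
    have := setIntegral_mono_on (integrableOn_const (by simp [Real.volume_Icc])) iN
      measurableSet_Icc hpt
    rw [setIntegral_const, Real.volume_real_Icc_of_le (by linarith)] at this
    simpa [show c + ρ - (c - ρ) = 2 * ρ by ring] using this
  rw [integral_add iN iD]
  have h3 : ‖g c‖ ≤ 1 / (2 * ρ) * A + B := by
    rw [div_mul_eq_mul_div, one_mul, ← sub_le_iff_le_add, le_div_iff₀ (by positivity)]
    linarith
  have : 0 ≤ 1 / (2 * ρ) * B := by positivity
  linarith

lemma norm_deriv_line {f : P2 → ℝ} (n : ℕ) (v w : P2) (hw : ‖w‖ ≤ 1) :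
    ‖fderiv ℝ (iteratedFDeriv ℝ n f) v w‖ ≤ ‖iteratedFDeriv ℝ (n + 1) f v‖ := by
  refine ((fderiv ℝ (iteratedFDeriv ℝ n f) v).le_of_opNorm_le
    norm_fderiv_iteratedFDeriv.le w).trans ?_
  exact mul_le_of_le_one_right (norm_nonneg _) hw

lemma line_bound {f : P2 → ℝ} (hf : ContDiff ℝ ∞ f) (n : ℕ) {ρ : ℝ} (hρ : 0 < ρ)
    (o w : P2) (hw : ‖w‖ ≤ 1) (c : ℝ) :
    ‖iteratedFDeriv ℝ n f (o + c • w)‖ ≤ (1 / (2 * ρ) + 1) * ∫ t in Icc (c - ρ) (c + ρ),
      (‖iteratedFDeriv ℝ n f (o + t • w)‖ + ‖iteratedFDeriv ℝ (n + 1) f (o + t • w)‖) := by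
  have hs : ContDiff ℝ 1 (iteratedFDeriv ℝ n f) := hf.iteratedFDeriv_right (by norm_cast; simp)
  have hline : ∀ t : ℝ, HasDerivAt (fun t : ℝ => o + t • w) w t := fun t => by
    simpa using ((hasDerivAt_id t).smul_const w).const_add o
  have hg : ∀ t : ℝ, HasDerivAt (fun t => iteratedFDeriv ℝ n f (o + t • w))
      (fderiv ℝ (iteratedFDeriv ℝ n f) (o + t • w) w) t := fun t =>
    ((hs.differentiable one_ne_zero).differentiableAt.hasFDerivAt).comp_hasDerivAt t (hline t)
  have hcl : Continuous fun t : ℝ => o + t • w := by fun_prop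
  have hc : Continuous fun t => fderiv ℝ (iteratedFDeriv ℝ n f) (o + t • w) w :=
    ((hs.continuous_fderiv one_ne_zero).comp hcl).clm_apply continuous_const
  refine (line_sup hg hc hρ c).trans (mul_le_mul_of_nonneg_left ?_ (by positivity))
  have hn : Continuous fun t => ‖iteratedFDeriv ℝ n f (o + t • w)‖ :=
    (hs.continuous.comp hcl).norm
  have hn1 : Continuous fun t => ‖iteratedFDeriv ℝ (n + 1) f (o + t • w)‖ :=
    ((hf.continuous_iteratedFDeriv (by norm_cast; simp)).comp hcl).norm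
  refine setIntegral_mono_on (hn.add hc.norm).continuousOn.integrableOn_Icc
    (hn.add hn1).continuousOn.integrableOn_Icc measurableSet_Icc fun t _ => ?_
  exact add_le_add le_rfl (norm_deriv_line n _ _ hw)

theorem sobolev : SobolevSpec := by
  intro ρ k hρ
  set a := 1 / (2 * ρ) + 1 with ha
  have ha0 : 0 < a := by positivity
  refine ⟨(2 * a * a) ^ 2 * (2 * ρ) ^ 2 * (k + 3 : ℕ), fun f hf z => ?_⟩
  set P := fun v : P2 => ∑ i ∈ Finset.range (k + 3), ‖iteratedFDeriv ℝ i f v‖ with hP
  have hcn : ∀ i, Continuous fun v => ‖iteratedFDeriv ℝ i f v‖ := fun i =>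
    (hf.continuous_iteratedFDeriv (by norm_cast; simp)).norm
  have hPc : Continuous P := continuous_finsetSum _ fun i _ => hcn i
  set S := Icc (z.1 - ρ) (z.1 + ρ) ×ˢ Icc (z.2 - ρ) (z.2 + ρ) with hS
  set X := ‖iteratedFDeriv ℝ k f z‖
  have h1 : X ≤ 2 * a * a * ∫ v in S, P v := by
    have hin : ∀ p : ℝ, ∀ i, i ≤ k + 1 →
        ‖iteratedFDeriv ℝ i f (p, z.2)‖ ≤ a * ∫ y in Icc (z.2 - ρ) (z.2 + ρ), P (p, y) := by
      intro p i hi
      have h := line_bound hf i hρ ((p, 0) : P2) (0, 1) (by simp) z.2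
      simp only [Prod.smul_mk, smul_eq_mul, mul_zero, mul_one, Prod.mk_add_mk, add_zero,
        zero_add] at h
      refine h.trans (mul_le_mul_of_nonneg_left ?_ ha0.le)
      refine setIntegral_mono_on
        (((hcn i).comp (by fun_prop)).add ((hcn (i + 1)).comp (by fun_prop))).continuousOn.integrableOn_Icc
        (hPc.comp (by fun_prop : Continuous fun y : ℝ => ((p, y) : P2))).continuousOn.integrableOn_Icc
        measurableSet_Icc fun y _ => ?_
      have : ({i, i + 1} : Finset ℕ) ⊆ Finset.range (k + 3) := by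
        intro m hm
        simp only [Finset.mem_insert, Finset.mem_singleton] at hm
        rw [Finset.mem_range]; omega
      have h2 := Finset.sum_le_sum_of_subset_of_nonneg
        (f := fun m => ‖iteratedFDeriv ℝ m f ((p, y) : P2)‖) this (fun _ _ _ => norm_nonneg _)
      simpa [Finset.sum_pair (show i ≠ i + 1 by omega), hP] using h2
    have h := line_bound hf k hρ ((0, z.2) : P2) (1, 0) (by simp) z.1
    simp only [Prod.smul_mk, smul_eq_mul, mul_zero, mul_one, Prod.mk_add_mk, add_zero,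
      zero_add] at h
    have hint : IntegrableOn P S :=
      hPc.continuousOn.integrableOn_compact (isCompact_Icc.prod isCompact_Icc)
    have hfub : ∫ v in S, P v
        = ∫ p in Icc (z.1 - ρ) (z.1 + ρ), ∫ y in Icc (z.2 - ρ) (z.2 + ρ), P (p, y) := by
      rw [Measure.volume_eq_prod] at hint ⊢
      exact setIntegral_prod P hint
    have hii : IntegrableOn (fun p => ∫ y in Icc (z.2 - ρ) (z.2 + ρ), P (p, y))
        (Icc (z.1 - ρ) (z.1 + ρ)) := by
      have hint' : Integrable P ((volume.restrict (Icc (z.1 - ρ) (z.1 + ρ))).prod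
          (volume.restrict (Icc (z.2 - ρ) (z.2 + ρ)))) := by
        rw [Measure.prod_restrict, ← Measure.volume_eq_prod]; exact hint
      exact hint'.integral_prod_left
    calc X ≤ a * ∫ p in Icc (z.1 - ρ) (z.1 + ρ),
          (‖iteratedFDeriv ℝ k f (p, z.2)‖ + ‖iteratedFDeriv ℝ (k + 1) f (p, z.2)‖) := h
      _ ≤ a * ∫ p in Icc (z.1 - ρ) (z.1 + ρ),
          (2 * a) * ∫ y in Icc (z.2 - ρ) (z.2 + ρ), P (p, y) := by
        refine mul_le_mul_of_nonneg_left (setIntegral_mono_on
          (((hcn k).comp (by fun_prop)).add ((hcn (k + 1)).comp (by fun_prop))).continuousOn.integrableOn_Icc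
          (hii.const_mul _) measurableSet_Icc fun p _ => ?_) ha0.le
        linarith [hin p k (by omega), hin p (k + 1) le_rfl]
      _ = 2 * a * a * ∫ v in S, P v := by rw [integral_const_mul, hfub]; ring
  set I := ∫ v in S, ∑ i ∈ Finset.range (k + 3), ‖iteratedFDeriv ℝ i f v‖ ^ 2
  have hQc : Continuous fun v => ∑ i ∈ Finset.range (k + 3), ‖iteratedFDeriv ℝ i f v‖ ^ 2 :=
    continuous_finsetSum _ fun i _ => (hcn i).pow 2
  have hcp : IsCompact S := isCompact_Icc.prod isCompact_Icc
  have hPi : IntegrableOn P S volume := hPc.continuousOn.integrableOn_compact hcp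
  have hQi : IntegrableOn (fun v => ∑ i ∈ Finset.range (k + 3), ‖iteratedFDeriv ℝ i f v‖ ^ 2) S
      volume := hQc.continuousOn.integrableOn_compact hcp
  have h2 : (∫ v in S, P v) ^ 2 ≤ (2 * ρ) ^ 2 * ((k + 3 : ℕ) * I) := by
    set J := ∫ v in S, P v
    have hvol : (volume : Measure P2).real S = (2 * ρ) ^ 2 := by
      rw [hS, Measure.volume_eq_prod, measureReal_prod_prod,
        Real.volume_real_Icc_of_le (by linarith), Real.volume_real_Icc_of_le (by linarith)]
      ring
    have key : ∀ e : ℝ, 2 * e * J ≤ (k + 3 : ℕ) * I + e ^ 2 * (2 * ρ) ^ 2 := by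
      intro e
      have := setIntegral_mono_on (hPi.const_mul (2 * e))
        ((hQi.const_mul ((k + 3 : ℕ) : ℝ)).add
          (integrableOn_const (μ := volume) (C := e ^ 2) hcp.measure_lt_top.ne))
        (measurableSet_Icc.prod measurableSet_Icc) (fun v _ => ?_)
      · simp only [Pi.add_apply] at this
        rw [integral_const_mul, integral_add (hQi.const_mul _)
          (integrableOn_const (μ := volume) (C := e ^ 2) hcp.measure_lt_top.ne), integral_const_mul,
          setIntegral_const, hvol, smul_eq_mul] at this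
        linarith
      · have h4 := sq_sum_le_card_mul_sum_sq (s := Finset.range (k + 3))
          (f := fun i => ‖iteratedFDeriv ℝ i f v‖)
        rw [Finset.card_range] at h4
        simp only [hP, Pi.add_apply]
        nlinarith [sq_nonneg (e - ∑ i ∈ Finset.range (k + 3), ‖iteratedFDeriv ℝ i f v‖)]
    have h5 := key (J / (2 * ρ) ^ 2)
    have h6 : 0 < (2 * ρ) ^ 2 := by positivity
    field_simp at h5
    nlinarith
  calc X ^ 2 ≤ (2 * a * a * ∫ v in S, P v) ^ 2 := pow_le_pow_left₀ (norm_nonneg _) h1 2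
    _ ≤ (2 * a * a) ^ 2 * ((2 * ρ) ^ 2 * ((k + 3 : ℕ) * I)) := by
      rw [mul_pow]; exact mul_le_mul_of_nonneg_left h2 (sq_nonneg _)
    _ = _ := by ring

end Vale.Agent.P229
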