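import Vale.Agent.P229.LocalCalc

/-
P229: a small square around a conformal bump has a boundary point where the height gradient
does not vanish, by testing the Gauss equation against `|X - c|^2`.
-/

namespace Vale.Agent.P229

open MeasureTheory Set
open scoped ContDiff

namespace Square

/-- Integral of a divergence whose fields vanish on the boundary of a rectangle. -/
theorem int_div_zero {V : Set P2} (hV : IsOpen V) {a b : P2} (hab : a ≤ b) (hsub : Icc a b ⊆ V)
    {A B : P2 → ℝ} (hA : ContDiffOn ℝ ∞ A V) (hB : ContDiffOn ℝ ∞ B V)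
    (hbd : ∀ z ∈ Icc a b, (z.1 = a.1 ∨ z.1 = b.1 ∨ z.2 = a.2 ∨ z.2 = b.2) → A z = 0 ∧ B z = 0) :
    ∫ z in Icc a b, (dp A z + dy B z) = 0 := by
  have hio : Ioo a.1 b.1 ×ˢ Ioo a.2 b.2 ⊆ V := fun z hz => hsub
    ⟨⟨hz.1.1.le, hz.2.1.le⟩, ⟨hz.1.2.le, hz.2.2.le⟩⟩
  have hc : ContinuousOn (fun z => dp A z + dy B z) V :=
    (smoothOn_dp hA hV).continuousOn.add (smoothOn_dy hB hV).continuousOn
  have h := integral_divergence_prod_Icc_of_hasFDerivAt_off_countable_of_le A B (fderiv ℝ A)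
    (fderiv ℝ B) a b hab ∅ countable_empty (hA.continuousOn.mono hsub) (hB.continuousOn.mono hsub)
    (fun z hz => (diffAt_of_smoothOn hA hV (hio hz.1)).hasFDerivAt)
    (fun z hz => (diffAt_of_smoothOn hB hV (hio hz.1)).hasFDerivAt)
    ((hc.mono hsub).integrableOn_compact isCompact_Icc)
  obtain ⟨h1, h2⟩ := Prod.mk_le_mk.1 (show (a.1, a.2) ≤ (b.1, b.2) from hab)
  have e1 : ∫ t in a.1..b.1, B (t, b.2) = 0 := by
    rw [intervalIntegral.integral_congr (g := fun _ => 0) fun t ht => ?_, intervalIntegral.integral_zero]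
    rw [uIcc_of_le h1] at ht
    exact (hbd (t, b.2) ⟨⟨ht.1, h2⟩, ⟨ht.2, le_rfl⟩⟩ (by simp)).2
  have e2 : ∫ t in a.1..b.1, B (t, a.2) = 0 := by
    rw [intervalIntegral.integral_congr (g := fun _ => 0) fun t ht => ?_, intervalIntegral.integral_zero]
    rw [uIcc_of_le h1] at ht
    exact (hbd (t, a.2) ⟨⟨ht.1, le_rfl⟩, ⟨ht.2, h2⟩⟩ (by simp)).2
  have e3 : ∫ t in a.2..b.2, A (b.1, t) = 0 := by
    rw [intervalIntegral.integral_congr (g := fun _ => 0) fun t ht => ?_, intervalIntegral.integral_zero]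
    rw [uIcc_of_le h2] at ht
    exact (hbd (b.1, t) ⟨⟨h1, ht.1⟩, ⟨le_rfl, ht.2⟩⟩ (by simp)).1
  have e4 : ∫ t in a.2..b.2, A (a.1, t) = 0 := by
    rw [intervalIntegral.integral_congr (g := fun _ => 0) fun t ht => ?_, intervalIntegral.integral_zero]
    rw [uIcc_of_le h2] at ht
    exact (hbd (a.1, t) ⟨⟨le_rfl, ht.1⟩, ⟨h1, ht.2⟩⟩ (by simp)).1
  rw [e1, e2, e3, e4] at h
  simpa [dp, dy] using h

/-- The rescaling map of a square. -/
noncomputable def resc (c : P2) (r : ℝ) (z : P2) : P2 := ((z.1 - c.1) / r, (z.2 - c.2) / r)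

theorem smooth_resc (c : P2) (r : ℝ) : ContDiff ℝ ∞ (resc c r) :=
  ((contDiff_fst.sub contDiff_const).div_const r).prodMk
    ((contDiff_snd.sub contDiff_const).div_const r)

theorem fderiv_resc (f : P2 → ℝ) (hf : ContDiff ℝ ∞ f) (c : P2) (r : ℝ) (z v : P2) :
    fderiv ℝ (fun w => f (resc c r w)) z v = fderiv ℝ f (resc c r z) v / r := by
  have h1 : HasFDerivAt (resc c r) (r⁻¹ • ContinuousLinearMap.id ℝ P2) z := by
    have e : resc c r = fun w => r⁻¹ • (w - c) := by
      funext w; ext <;> simp [resc, div_eq_inv_mul]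
    rw [e]
    exact (((hasFDerivAt_id z).sub_const c).const_smul r⁻¹)
  have h2 := (hf.differentiable (by simp)).differentiableAt.hasFDerivAt.comp z h1
  rw [show (fun w => f (resc c r w)) = f ∘ resc c r from rfl, h2.fderiv]
  simp [map_smul, div_eq_inv_mul]

theorem dp_resc (f : P2 → ℝ) (hf : ContDiff ℝ ∞ f) (c : P2) (r : ℝ) :
    dp (fun w => f (resc c r w)) = fun z => dp f (resc c r z) / r :=
  funext fun z => fderiv_resc f hf c r z _

theorem dy_resc (f : P2 → ℝ) (hf : ContDiff ℝ ∞ f) (c : P2) (r : ℝ) :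
    dy (fun w => f (resc c r w)) = fun z => dy f (resc c r z) / r :=
  funext fun z => fderiv_resc f hf c r z _

theorem contDiff_blob : ContDiff ℝ ∞ blob :=
  bump1.contDiff.comp (by unfold rsq; fun_prop)

theorem blob_eq_zero {v : P2} (h : 1 ≤ rsq v) : blob v = 0 := by
  refine bump1.zero_of_le_dist ?_
  rw [Real.dist_eq, sub_zero, abs_of_nonneg (by linarith)]
  exact h

theorem blob_flat {v : P2} (h : 1 < rsq v) : blob v = 0 ∧ dp blob v = 0 ∧ dy blob v = 0 := by
  have ho : IsOpen {u : P2 | 1 < rsq u} := isOpen_lt continuous_const (by unfold rsq; fun_prop)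
  have he : Set.EqOn blob (fun _ => (0 : ℝ)) {u : P2 | 1 < rsq u} := fun u hu =>
    blob_eq_zero (le_of_lt hu)
  refine ⟨blob_eq_zero h.le, ?_, ?_⟩
  · rw [dp_eq_of_eqOn ho he h]; simp [dp]
  · rw [dy_eq_of_eqOn ho he h]; simp [dy]

theorem blob_bounds : ∃ G : ℝ, 0 ≤ G ∧ ∀ v, |dp blob v| ≤ G ∧ |dy blob v| ≤ G ∧
    |dp (dp blob) v| ≤ G ∧ |dy (dy blob) v| ≤ G := by
  have hc : HasCompactSupport blob := HasCompactSupport.intro (isCompact_closedBall (0 : P2) 1)
    fun v hv => blob_eq_zero (by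
      rw [Metric.mem_closedBall, dist_zero_right, not_le, Prod.norm_def, lt_max_iff,
        Real.norm_eq_abs, Real.norm_eq_abs] at hv
      unfold rsq
      rcases hv with h | h <;> nlinarith [sq_abs v.1, sq_abs v.2, sq_nonneg v.1, sq_nonneg v.2])
  have b : ∀ f : P2 → ℝ, ContDiff ℝ ∞ f → HasCompactSupport f → ∃ C, ∀ v, |f v| ≤ C :=
    fun f hf hfc => by
      obtain ⟨C, hC⟩ := hf.continuous.bounded_above_of_compact_support hfc
      exact ⟨C, fun v => by rw [← Real.norm_eq_abs]; exact hC v⟩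
  have hp : HasCompactSupport (dp blob) := hc.fderiv_apply ℝ _
  have hy : HasCompactSupport (dy blob) := hc.fderiv_apply ℝ _
  obtain ⟨C1, h1⟩ := b _ (smooth_dp contDiff_blob) hp
  obtain ⟨C2, h2⟩ := b _ (smooth_dy contDiff_blob) hy
  obtain ⟨C3, h3⟩ := b _ (smooth_dp (smooth_dp contDiff_blob)) (hp.fderiv_apply ℝ _)
  obtain ⟨C4, h4⟩ := b _ (smooth_dy (smooth_dy contDiff_blob)) (hy.fderiv_apply ℝ _)
  have p1 := (abs_nonneg _).trans (h1 0)
  have p2 := (abs_nonneg _).trans (h2 0)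
  have p3 := (abs_nonneg _).trans (h3 0)
  have p4 := (abs_nonneg _).trans (h4 0)
  exact ⟨C1 + C2 + C3 + C4, by linarith, fun v =>
    ⟨by linarith [h1 v], by linarith [h2 v], by linarith [h3 v], by linarith [h4 v]⟩⟩

/-- The test weight. -/
def psi (c : P2) (z : P2) : ℝ := (z.1 - c.1) ^ 2 + (z.2 - c.2) ^ 2

theorem hasFDerivAt_psi (c z : P2) : HasFDerivAt (psi c)
    ((2 * (z.1 - c.1)) • ContinuousLinearMap.fst ℝ ℝ ℝ
      + (2 * (z.2 - c.2)) • ContinuousLinearMap.snd ℝ ℝ ℝ) z := by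
  have h1 := ((hasFDerivAt_fst (𝕜 := ℝ) (p := z)).sub_const c.1).pow 2
  have h2 := ((hasFDerivAt_snd (𝕜 := ℝ) (p := z)).sub_const c.2).pow 2
  exact (h1.fun_add h2).congr_fderiv (by ext <;> simp)

/-- Divergence form of the weighted Monge-Ampere operator. -/
theorem det_div {V : Set P2} (hV : IsOpen V) {Z : P2 → ℝ} (hZ : ContDiffOn ℝ ∞ Z V) (c : P2)
    {z : P2} (hz : z ∈ V) :
    dp (fun v => psi c v * (dp Z v * dy (dy Z) v) + (v.1 - c.1) * dy Z v ^ 2) z
      + dy (fun v => -(psi c v * (dp Z v * dy (dp Z) v))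
          - 2 * ((v.1 - c.1) * (dp Z v * dy Z v)) + (v.2 - c.2) * dp Z v ^ 2) z
      = psi c z * (dp (dp Z) z * dy (dy Z) z - dy (dp Z) z ^ 2) + dp Z z ^ 2 + dy Z z ^ 2 := by
  have sp := smoothOn_dp hZ hV
  have sq := smoothOn_dy hZ hV
  have hp := (diffAt_of_smoothOn sp hV hz).hasFDerivAt
  have hq := (diffAt_of_smoothOn sq hV hz).hasFDerivAt
  have ht := (diffAt_of_smoothOn (smoothOn_dy sq hV) hV hz).hasFDerivAt
  have hm := (diffAt_of_smoothOn (smoothOn_dy sp hV) hV hz).hasFDerivAt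
  have hψ := hasFDerivAt_psi c z
  have hX := (hasFDerivAt_fst (𝕜 := ℝ) (p := z)).sub_const c.1
  have hY := (hasFDerivAt_snd (𝕜 := ℝ) (p := z)).sub_const c.2
  have hA := (hψ.fun_mul (hp.fun_mul ht)).fun_add (hX.fun_mul (hq.pow 2))
  have hB := ((hψ.fun_mul (hp.fun_mul hm)).fun_neg.fun_sub
    ((hX.fun_mul (hp.fun_mul hq)).const_mul (2 : ℝ))).fun_add (hY.fun_mul (hp.pow 2))
  have e3 : dp (dy (dy Z)) z = dy (dy (dp Z)) z := by
    rw [← dy_dp_on sq hV hz]
    exact dy_eq_of_eqOn hV (fun v hv => (dy_dp_on hZ hV hv).symm) hz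
  have e1 : dp (dy Z) z = dy (dp Z) z := (dy_dp_on hZ hV hz).symm
  unfold dp dy at *
  rw [hA.fderiv, hB.fderiv]
  simp only [ContinuousLinearMap.add_apply, ContinuousLinearMap.sub_apply,
    ContinuousLinearMap.neg_apply, ContinuousLinearMap.smul_apply, ContinuousLinearMap.coe_fst',
    ContinuousLinearMap.coe_snd', smul_eq_mul, nsmul_eq_mul]
  rw [e3, e1]
  simp only [pow_one, Nat.cast_ofNat, show 2 - 1 = 1 from rfl]
  ring

/-- Lower bound for the flat Hessian determinant. -/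
theorem det_lower {a m t u v p q e h Δ ep ey M G η r : ℝ} (hM : 0 ≤ M) (hG : 0 ≤ G) (hη : 0 ≤ η)
    (hη1 : η ≤ 1) (hr : 0 < r) (he : 1 / 2 ≤ e) (ha : |a| ≤ M) (hm : |m| ≤ M) (ht : |t| ≤ M)
    (hp : |p| ≤ 4 * M * r) (hq : |q| ≤ 4 * M * r) (hep : |ep| ≤ η * G / r) (hey : |ey| ≤ η * G / r)
    (hΔ : |Δ| ≤ 2 * G / r ^ 2) (hu : u = (ep * p - ey * q) / (2 * e))
    (hv : v = (ey * p + ep * q) / (2 * e))
    (hh : h = η * Δ / 2 + (ep ^ 2 + ey ^ 2) / (2 * e))
    (heq : (a - u) * (t + u) - (m - v) ^ 2 = h * (1 - (p ^ 2 + q ^ 2) / e)) :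
    η * Δ / 2 - (32 * G * M ^ 2 + 64 * M ^ 2 * (G + 2 * G ^ 2)) * η ≤ a * t - m ^ 2 := by
  have he0 : 0 < e := by linarith
  have hprod : ∀ x y : ℝ, |x| ≤ η * G / r → |y| ≤ 4 * M * r → |x * y| ≤ 4 * η * G * M := by
    intro x y hx hy
    rw [abs_mul]
    refine (mul_le_mul hx hy (abs_nonneg _) (by positivity)).trans (le_of_eq ?_)
    field_simp
  have hdiv : ∀ x : ℝ, |x| ≤ 8 * η * G * M → |x / (2 * e)| ≤ 8 * η * G * M := fun x hx => by
    rw [abs_div, abs_of_pos (by linarith : (0 : ℝ) < 2 * e)]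
    exact (div_le_self (abs_nonneg x) (by linarith)).trans hx
  have hu' : |u| ≤ 8 * η * G * M := by
    rw [hu]
    refine hdiv _ ((abs_sub _ _).trans ?_)
    linarith [hprod ep p hep hp, hprod ey q hey hq]
  have hv' : |v| ≤ 8 * η * G * M := by
    rw [hv]
    refine hdiv _ ((abs_add_le _ _).trans ?_)
    linarith [hprod ey p hey hp, hprod ep q hep hq]
  have h1 : |u * (a - t)| ≤ 8 * η * G * M * (2 * M) := by
    rw [abs_mul]
    exact mul_le_mul hu' ((abs_sub _ _).trans (by linarith)) (abs_nonneg _) (by positivity)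
  have h2 : |v * m| ≤ 8 * η * G * M * M := by
    rw [abs_mul]; exact mul_le_mul hv' hm (abs_nonneg _) (by positivity)
  set g := (p ^ 2 + q ^ 2) / e with hg
  have hg0 : 0 ≤ g := by positivity
  have hg1 : g ≤ 64 * M ^ 2 * r ^ 2 := by
    rw [hg, div_le_iff₀ he0]
    have s1 : p ^ 2 ≤ (4 * M * r) ^ 2 := by rw [← sq_abs p]; exact pow_le_pow_left₀ (abs_nonneg _) hp 2
    have s2 : q ^ 2 ≤ (4 * M * r) ^ 2 := by rw [← sq_abs q]; exact pow_le_pow_left₀ (abs_nonneg _) hq 2
    nlinarith [mul_nonneg (sq_nonneg M) (sq_nonneg r)]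
  set n := (ep ^ 2 + ey ^ 2) / (2 * e) with hn
  have hn0 : 0 ≤ n := by positivity
  have hn1 : n ≤ 2 * η * G ^ 2 / r ^ 2 := by
    rw [hn, div_le_iff₀ (by positivity)]
    have s1 : ep ^ 2 ≤ (η * G / r) ^ 2 := by
      rw [← sq_abs ep]; exact pow_le_pow_left₀ (abs_nonneg _) hep 2
    have s2 : ey ^ 2 ≤ (η * G / r) ^ 2 := by
      rw [← sq_abs ey]; exact pow_le_pow_left₀ (abs_nonneg _) hey 2
    calc ep ^ 2 + ey ^ 2 ≤ 2 * (η * (G ^ 2 / r ^ 2)) * η := by
          refine (add_le_add s1 s2).trans (le_of_eq ?_); ring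
      _ ≤ 2 * (η * (G ^ 2 / r ^ 2)) * 1 := by gcongr
      _ ≤ 2 * (η * (G ^ 2 / r ^ 2)) * (2 * e) := by gcongr; linarith
      _ = _ := by ring
  have hh1 : |h| ≤ η * (G + 2 * G ^ 2) / r ^ 2 := by
    rw [hh]
    refine (abs_add_le _ _).trans ?_
    rw [abs_of_nonneg hn0, abs_div, abs_mul, abs_of_nonneg hη, abs_two]
    calc η * |Δ| / 2 + n ≤ η * (2 * G / r ^ 2) / 2 + 2 * η * G ^ 2 / r ^ 2 := by gcongr
      _ = _ := by ring
  have h3 : |h * g| ≤ 64 * M ^ 2 * (G + 2 * G ^ 2) * η := by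
    rw [abs_mul, abs_of_nonneg hg0]
    refine (mul_le_mul hh1 hg1 hg0 (by positivity)).trans (le_of_eq ?_)
    field_simp
  linarith [abs_le.1 h1, abs_le.1 h2, abs_le.1 h3, sq_nonneg u, sq_nonneg v]

/-- Bound of a function vanishing at the left end by its derivative. -/
theorem abs_le_of_deriv {g g' : ℝ → ℝ} {a b M t : ℝ}
    (hd : ∀ s ∈ Icc a b, HasDerivAt g (g' s) s) (hb : ∀ s ∈ Icc a b, |g' s| ≤ M) (h0 : g a = 0)
    (ht : t ∈ Icc a b) : |g t| ≤ M * (b - a) := by
  have h := norm_image_sub_le_of_norm_deriv_le_segment' (f := g) (f' := g')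
    (fun s hs => (hd s hs).hasDerivWithinAt) (fun s hs => hb s (Ico_subset_Icc_self hs)) t ht
  rw [h0, sub_zero, Real.norm_eq_abs] at h
  refine h.trans (mul_le_mul_of_nonneg_left (by linarith [ht.2]) ?_)
  exact (abs_nonneg _).trans (hb a ⟨le_rfl, ht.1.trans ht.2⟩)

end Square

open Square in
/-- Some boundary point of a small square around a compact bump is not planar. -/
theorem square : SquareSpec := by
  intro M hM
  obtain ⟨G, hG0, hG⟩ := blob_bounds
  set K := 32 * G * M ^ 2 + 64 * M ^ 2 * (G + 2 * G ^ 2) with hK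
  have hK0 : 0 ≤ K := by positivity
  refine ⟨min (1 / 2) (1 / (128 * K + 1)), by positivity,
    fun r η c E Z V hr hr0 hη hηr hV hsub hE hZ hdata hbdry => ?_⟩
  have hr2 : r ≤ 1 / 2 := hr0.trans (min_le_left _ _)
  have hrK : r * (128 * K + 1) ≤ 1 := by
    have := hr0.trans (min_le_right _ _)
    rwa [le_div_iff₀ (by positivity)] at this
  have hη2 : η ≤ 1 / 2 := hηr.trans ((pow_le_pow_left₀ hr.le hr2 4).trans (by norm_num))
  set a : P2 := (c.1 - 2 * r, c.2 - 2 * r) with ha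
  set b : P2 := (c.1 + 2 * r, c.2 + 2 * r) with hb
  have hmem : ∀ z ∈ Icc a b, |z.1 - c.1| ≤ 2 * r ∧ |z.2 - c.2| ≤ 2 * r := by
    intro z hz
    obtain ⟨h1, h2⟩ := hz.1
    obtain ⟨h3, h4⟩ := hz.2
    simp only [ha, hb] at h1 h2 h3 h4
    constructor <;> rw [abs_le] <;> constructor <;> linarith
  have hab : a ≤ b := by
    refine ⟨?_, ?_⟩ <;> simp only [ha, hb] <;> linarith
  have hSV : Icc a b ⊆ V := fun z hz => hsub ⟨(hmem z hz).1, (hmem z hz).2⟩
  have hedge : ∀ z ∈ Icc a b, (z.1 = a.1 ∨ z.1 = b.1 ∨ z.2 = a.2 ∨ z.2 = b.2) →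
      |z.1 - c.1| = 2 * r ∨ |z.2 - c.2| = 2 * r := by
    intro z _ h
    rcases h with h | h | h | h <;> simp [ha, hb] at h <;>
      simp [h, abs_of_pos, hr]
  set φ := fun z => blob (resc c r z) with hφ
  have hφs : ContDiff ℝ ∞ φ := contDiff_blob.comp (smooth_resc c r)
  have hdpφ : ∀ z, dp φ z = dp blob (resc c r z) / r := fun z =>
    congrFun (dp_resc blob contDiff_blob c r) z
  have hdyφ : ∀ z, dy φ z = dy blob (resc c r z) / r := fun z =>
    congrFun (dy_resc blob contDiff_blob c r) z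
  have hppφ : ∀ z, dp (dp φ) z = dp (dp blob) (resc c r z) / r ^ 2 := fun z => by
    have e : dp φ = fun v => (fun u => dp blob u / r) (resc c r v) := funext hdpφ
    rw [e, congrFun (dp_resc _ ((smooth_dp contDiff_blob).div_const r) c r) z]
    show fderiv ℝ (fun u => dp blob u / r) (resc c r z) (1, 0) / r
      = fderiv ℝ (dp blob) (resc c r z) (1, 0) / r ^ 2
    rw [show (fun u => dp blob u / r) = fun u => r⁻¹ * dp blob u from
        funext fun u => div_eq_inv_mul _ _,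
      fderiv_const_mul ((smooth_dp contDiff_blob).differentiable (by simp)).differentiableAt]
    simp [sq, div_eq_mul_inv]
    ring
  have hyyφ : ∀ z, dy (dy φ) z = dy (dy blob) (resc c r z) / r ^ 2 := fun z => by
    have e : dy φ = fun v => (fun u => dy blob u / r) (resc c r v) := funext hdyφ
    rw [e, congrFun (dy_resc _ ((smooth_dy contDiff_blob).div_const r) c r) z]
    show fderiv ℝ (fun u => dy blob u / r) (resc c r z) (0, 1) / r
      = fderiv ℝ (dy blob) (resc c r z) (0, 1) / r ^ 2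
    rw [show (fun u => dy blob u / r) = fun u => r⁻¹ * dy blob u from
        funext fun u => div_eq_inv_mul _ _,
      fderiv_const_mul ((smooth_dy contDiff_blob).differentiable (by simp)).differentiableAt]
    simp [sq, div_eq_mul_inv]
    ring
  -- the gradient is small
  have hpb : ∀ z ∈ Icc a b, |dp Z z| ≤ 4 * M * r ∧ |dy Z z| ≤ 4 * M * r := by
    intro z hz
    constructor
    · have h := abs_le_of_deriv (g := fun s => dp Z (s, z.2))
        (g' := fun s => dp (dp Z) (s, z.2)) (a := a.1) (b := b.1) (M := M) (t := z.1)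
        (fun s hs => by
          have hd := (diffAt_of_smoothOn (smoothOn_dp hZ hV) hV
            (hSV (show ((s, z.2) : P2) ∈ Icc a b from ⟨⟨hs.1, hz.1.2⟩, ⟨hs.2, hz.2.2⟩⟩))).hasFDerivAt
          exact (hd.comp_hasDerivAt s ((hasDerivAt_id s).prodMk (hasDerivAt_const s z.2))))
        (fun s hs => by
          have hs' := hmem (s, z.2) ⟨⟨hs.1, hz.1.2⟩, ⟨hs.2, hz.2.2⟩⟩
          exact (hdata _ hs'.1 hs'.2).2.1)
        (by
          have hs' := hmem (a.1, z.2) ⟨⟨le_rfl, hz.1.2⟩, ⟨hab.1, hz.2.2⟩⟩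
          exact (hbdry (a.1, z.2) hs'.1 hs'.2
            (hedge _ ⟨⟨le_rfl, hz.1.2⟩, ⟨hab.1, hz.2.2⟩⟩ (Or.inl rfl))).1)
        ⟨hz.1.1, hz.2.1⟩
      calc |dp Z z| ≤ M * (b.1 - a.1) := h
        _ = _ := by simp only [ha, hb]; ring
    · have h := abs_le_of_deriv (g := fun s => dy Z (z.1, s))
        (g' := fun s => dy (dy Z) (z.1, s)) (a := a.2) (b := b.2) (M := M) (t := z.2)
        (fun s hs => by
          have hd := (diffAt_of_smoothOn (smoothOn_dy hZ hV) hV
            (hSV (show ((z.1, s) : P2) ∈ Icc a b from ⟨⟨hz.1.1, hs.1⟩, ⟨hz.2.1, hs.2⟩⟩))).hasFDerivAt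
          exact (hd.comp_hasDerivAt s ((hasDerivAt_const s z.1).prodMk (hasDerivAt_id s))))
        (fun s hs => by
          have hs' := hmem (z.1, s) ⟨⟨hz.1.1, hs.1⟩, ⟨hz.2.1, hs.2⟩⟩
          exact (hdata _ hs'.1 hs'.2).2.2.2.1)
        (by
          have hs' := hmem (z.1, a.2) ⟨⟨hz.1.1, le_rfl⟩, ⟨hz.2.1, hab.2⟩⟩
          exact (hbdry (z.1, a.2) hs'.1 hs'.2
            (hedge _ ⟨⟨hz.1.1, le_rfl⟩, ⟨hz.2.1, hab.2⟩⟩ (Or.inr (Or.inr (Or.inl rfl))))).2)
        ⟨hz.1.2, hz.2.2⟩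
      calc |dy Z z| ≤ M * (b.2 - a.2) := h
        _ = _ := by simp only [ha, hb]; ring
  -- pointwise lower bound on the open square, then on the closed one
  set det := fun z => dp (dp Z) z * dy (dy Z) z - dy (dp Z) z ^ 2 with hdet
  set low := fun z => η * (dp (dp φ) z + dy (dy φ) z) / 2 - K * η with hlow
  have hdetc : ContinuousOn det (Icc a b) := by
    refine ContinuousOn.mono ?_ hSV
    have s1 := smoothOn_dp hZ hV
    exact ((smoothOn_dp s1 hV).continuousOn.mul
      (smoothOn_dy (smoothOn_dy hZ hV) hV).continuousOn).sub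
      ((smoothOn_dy s1 hV).continuousOn.pow 2)
  have hlowc : Continuous low :=
    ((((smooth_dp (smooth_dp hφs)).continuous.add
      (smooth_dy (smooth_dy hφs)).continuous).const_smul η).div_const 2).sub continuous_const
  have hcl : closure (Ioo a.1 b.1 ×ˢ Ioo a.2 b.2) = Icc a b := by
    rw [closure_prod_eq, closure_Ioo (by simp [ha, hb]; linarith),
      closure_Ioo (by simp [ha, hb]; linarith), Icc_prod_Icc]
  have hpt : ∀ z ∈ Ioo a.1 b.1 ×ˢ Ioo a.2 b.2, low z ≤ det z := by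
    intro z hz
    have hzS : z ∈ Icc a b := ⟨⟨hz.1.1.le, hz.2.1.le⟩, ⟨hz.1.2.le, hz.2.2.le⟩⟩
    obtain ⟨hEz, hpp, hpy, hyy, heq⟩ := hdata z (hmem z hzS).1 (hmem z hzS).2
    have hop : IsOpen (Ioo a.1 b.1 ×ˢ Ioo a.2 b.2) := isOpen_Ioo.prod isOpen_Ioo
    have hEeq : Set.EqOn E (fun v => 1 - η * φ v) (Ioo a.1 b.1 ×ˢ Ioo a.2 b.2) := fun v hv => by
      have hvS : v ∈ Icc a b := ⟨⟨hv.1.1.le, hv.2.1.le⟩, ⟨hv.1.2.le, hv.2.2.le⟩⟩
      exact (hdata v (hmem v hvS).1 (hmem v hvS).2).1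
    have hd1 : ∀ v ∈ Ioo a.1 b.1 ×ˢ Ioo a.2 b.2, dp E v = -(η * dp φ v) := fun v hv => by
      rw [dp_eq_of_eqOn hop hEeq hv]
      unfold dp
      rw [fderiv_const_sub, fderiv_const_mul (hφs.differentiable (by simp)).differentiableAt]
      simp
    have hd2 : ∀ v ∈ Ioo a.1 b.1 ×ˢ Ioo a.2 b.2, dy E v = -(η * dy φ v) := fun v hv => by
      rw [dy_eq_of_eqOn hop hEeq hv]
      unfold dy
      rw [fderiv_const_sub, fderiv_const_mul (hφs.differentiable (by simp)).differentiableAt]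
      simp
    have hd11 : dp (dp E) z = -(η * dp (dp φ) z) := by
      rw [dp_eq_of_eqOn hop hd1 hz]
      show fderiv ℝ (fun v => -(η * dp φ v)) z (1, 0) = -(η * fderiv ℝ (dp φ) z (1, 0))
      rw [fderiv_fun_neg, fderiv_const_mul ((smooth_dp hφs).differentiable (by simp)).differentiableAt]
      simp
    have hd22 : dy (dy E) z = -(η * dy (dy φ) z) := by
      rw [dy_eq_of_eqOn hop hd2 hz]
      show fderiv ℝ (fun v => -(η * dy φ v)) z (0, 1) = -(η * fderiv ℝ (dy φ) z (0, 1))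
      rw [fderiv_fun_neg, fderiv_const_mul ((smooth_dy hφs).differentiable (by simp)).differentiableAt]
      simp
    obtain ⟨g1, g2, g3, g4⟩ := hG (resc c r z)
    have b1 : 0 ≤ blob (resc c r z) := bump1.nonneg
    have b2 : blob (resc c r z) ≤ 1 := bump1.le_one
    have he : 1 / 2 ≤ E z := by
      have hEz' : E z = 1 - η * blob (resc c r z) := hEz
      nlinarith
    have he0 : E z ≠ 0 := by linarith
    have hder : ∀ x, |x| ≤ G → |(-(η * (x / r)))| ≤ η * G / r := fun x hx => by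
      rw [abs_neg, abs_mul, abs_div, abs_of_pos hη, abs_of_pos hr, mul_div_assoc]
      gcongr
    have hΔ : |dp (dp φ) z + dy (dy φ) z| ≤ 2 * G / r ^ 2 := by
      rw [hppφ, hyyφ, ← add_div, abs_div, abs_of_pos (by positivity : (0 : ℝ) < r ^ 2)]
      gcongr
      exact (abs_add_le _ _).trans (by linarith)
    obtain ⟨hp', hq'⟩ := hpb z hzS
    refine det_lower (a := dp (dp Z) z) (m := dy (dp Z) z) (t := dy (dy Z) z)
      (ep := dp E z) (ey := dy E z) (e := E z) hM.le hG0 hη.le (by linarith) hr he hpp hpy hyy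
      hp' hq' (by rw [hd1 z hz, hdpφ]; exact hder _ g1) (by rw [hd2 z hz, hdyφ]; exact hder _ g2)
      hΔ rfl rfl (h := curvTerm E z) ?_ ?_
    · unfold curvTerm
      rw [hd11, hd22]
      field_simp
      ring
    · refine Eq.trans ?_ heq
      unfold hess11 hess22 hess12
      field_simp
      ring
  have hall : ∀ z ∈ Icc a b, low z ≤ det z := fun z hz => by
    rw [← hcl] at hz
    exact le_on_closure hpt hlowc.continuousOn (hcl ▸ hdetc) hz
  -- the weighted integrals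
  have hψ : ContDiff ℝ ∞ (psi c) := by unfold psi; fun_prop
  have hX : ContDiffOn ℝ ∞ (fun v : P2 => v.1 - c.1) V := (contDiff_fst.sub contDiff_const).contDiffOn
  have hY : ContDiffOn ℝ ∞ (fun v : P2 => v.2 - c.2) V := (contDiff_snd.sub contDiff_const).contDiffOn
  have sp := smoothOn_dp hZ hV
  have sq := smoothOn_dy hZ hV
  have hI := int_div_zero hV hab hSV
    (A := fun v => psi c v * (dp Z v * dy (dy Z) v) + (v.1 - c.1) * dy Z v ^ 2)
    (B := fun v => -(psi c v * (dp Z v * dy (dp Z) v))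
          - 2 * ((v.1 - c.1) * (dp Z v * dy Z v)) + (v.2 - c.2) * dp Z v ^ 2)
    ((hψ.contDiffOn.mul (sp.mul (smoothOn_dy sq hV))).add (hX.mul (sq.pow 2)))
    (((hψ.contDiffOn.mul (sp.mul (smoothOn_dy sp hV))).neg.sub
      (contDiffOn_const.mul (hX.mul (sp.mul sq)))).add (hY.mul (sp.pow 2)))
    (fun z hz he => by
      obtain ⟨h1, h2⟩ := hbdry z (hmem z hz).1 (hmem z hz).2 (hedge z hz he)
      simp [h1, h2])
  rw [setIntegral_congr_fun measurableSet_Icc fun z hz => det_div hV hZ c (hSV hz)] at hI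
  have hcψ : ContinuousOn (fun z => psi c z * det z) (Icc a b) :=
    hψ.continuous.continuousOn.mul hdetc
  have hneg : ∫ z in Icc a b, psi c z * det z ≤ 0 := by
    refine le_trans (setIntegral_mono_on (hcψ.integrableOn_compact isCompact_Icc) ?_
      measurableSet_Icc fun z _ => ?_) hI.le
    · exact ((hcψ.add ((sp.continuousOn.pow 2).mono hSV)).add
        ((sq.continuousOn.pow 2).mono hSV)).integrableOn_compact isCompact_Icc
    · linarith [sq_nonneg (dp Z z), sq_nonneg (dy Z z)]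
  -- the bump part
  have hflat : ∀ z ∈ Icc a b, (|z.1 - c.1| = 2 * r ∨ |z.2 - c.2| = 2 * r) →
      φ z = 0 ∧ dp φ z = 0 ∧ dy φ z = 0 := by
    intro z _ h
    have h1 : 1 < rsq (resc c r z) := by
      simp only [rsq, resc, div_pow]
      rw [← sq_abs (z.1 - c.1), ← sq_abs (z.2 - c.2), ← add_div, lt_div_iff₀ (by positivity)]
      rcases h with h | h <;> rw [h] <;> nlinarith [sq_abs (z.1 - c.1), sq_abs (z.2 - c.2),
        sq_nonneg (|z.1 - c.1|), sq_nonneg (|z.2 - c.2|)]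
    obtain ⟨f1, f2, f3⟩ := blob_flat h1
    exact ⟨f1, by rw [hdpφ, f2, zero_div], by rw [hdyφ, f3, zero_div]⟩
  have hI2 := int_div_zero hV hab hSV
    (A := fun v => psi c v * dp φ v - 2 * ((v.1 - c.1) * φ v))
    (B := fun v => psi c v * dy φ v - 2 * ((v.2 - c.2) * φ v))
    ((hψ.mul (smooth_dp hφs)).contDiffOn.sub
      (contDiffOn_const.mul (hX.mul hφs.contDiffOn)))
    ((hψ.mul (smooth_dy hφs)).contDiffOn.sub
      (contDiffOn_const.mul (hY.mul hφs.contDiffOn)))
    (fun z hz he => by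
      obtain ⟨h1, h2, h3⟩ := hflat z hz (hedge z hz he)
      simp [h1, h2, h3])
  have hlap : ∀ z : P2, dp (fun v => psi c v * dp φ v - 2 * ((v.1 - c.1) * φ v)) z
      + dy (fun v => psi c v * dy φ v - 2 * ((v.2 - c.2) * φ v)) z
      = psi c z * (dp (dp φ) z + dy (dy φ) z) - 4 * φ z := by
    intro z
    have hd : ∀ {f : P2 → ℝ}, ContDiff ℝ ∞ f → HasFDerivAt f (fderiv ℝ f z) z := fun hf =>
      (hf.differentiable (by simp)).differentiableAt.hasFDerivAt
    have hA := ((hasFDerivAt_psi c z).fun_mul (hd (smooth_dp hφs))).fun_sub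
      ((((hasFDerivAt_fst (𝕜 := ℝ) (p := z)).sub_const c.1).fun_mul (hd hφs)).const_mul (2 : ℝ))
    have hB := ((hasFDerivAt_psi c z).fun_mul (hd (smooth_dy hφs))).fun_sub
      ((((hasFDerivAt_snd (𝕜 := ℝ) (p := z)).sub_const c.2).fun_mul (hd hφs)).const_mul (2 : ℝ))
    unfold dp dy at *
    rw [hA.fderiv, hB.fderiv]
    simp only [ContinuousLinearMap.add_apply, ContinuousLinearMap.sub_apply,
      ContinuousLinearMap.smul_apply, ContinuousLinearMap.coe_fst', ContinuousLinearMap.coe_snd',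
      smul_eq_mul]
    ring
  rw [setIntegral_congr_fun measurableSet_Icc fun z _ => hlap z] at hI2
  have hΔc : Continuous fun z => psi c z * (dp (dp φ) z + dy (dy φ) z) :=
    hψ.continuous.mul ((smooth_dp (smooth_dp hφs)).continuous.add
      (smooth_dy (smooth_dy hφs)).continuous)
  have h4c : Continuous fun z => 4 * φ z := continuous_const.mul hφs.continuous
  rw [integral_sub (hΔc.continuousOn.integrableOn_compact isCompact_Icc)
    (h4c.continuousOn.integrableOn_compact isCompact_Icc), integral_const_mul] at hI2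
  -- mass of the bump
  set a' : P2 := (c.1 - r / 2, c.2 - r / 2) with ha'
  set b' : P2 := (c.1 + r / 2, c.2 + r / 2) with hb'
  have hmass : r ^ 2 ≤ ∫ z in Icc a b, φ z := by
    have hsub' : Icc a' b' ⊆ Icc a b := by
      refine Icc_subset_Icc ?_ ?_ <;> refine ⟨?_, ?_⟩ <;> simp [ha, ha', hb, hb'] <;> linarith
    have hvol : volume.real (Icc a' b') = r ^ 2 := by
      rw [← Icc_prod_Icc, Measure.real, Measure.volume_eq_prod, Measure.prod_prod, Real.volume_Icc,
        Real.volume_Icc]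
      rw [ENNReal.toReal_mul, ENNReal.toReal_ofReal (by linarith), ENNReal.toReal_ofReal (by linarith)]
      ring
    have hone : ∀ z ∈ Icc a' b', φ z = 1 := by
      intro z hz
      refine bump1.one_of_mem_closedBall ?_
      obtain ⟨h1, h2⟩ := hz.1
      obtain ⟨h3, h4⟩ := hz.2
      simp only [ha', hb'] at h1 h2 h3 h4
      rw [Metric.mem_closedBall, Real.dist_eq, sub_zero, abs_of_nonneg (by unfold rsq; positivity)]
      show rsq (resc c r z) ≤ 1 / 2
      simp only [rsq, resc, div_pow]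
      rw [← add_div, div_le_iff₀ (by positivity)]
      nlinarith [mul_nonneg (sub_nonneg.2 h1) (sub_nonneg.2 h3),
        mul_nonneg (sub_nonneg.2 h2) (sub_nonneg.2 h4)]
    calc r ^ 2 = ∫ z in Icc a' b', φ z := by
          rw [setIntegral_congr_fun measurableSet_Icc hone, setIntegral_const, hvol, smul_eq_mul,
            mul_one]
      _ ≤ _ := setIntegral_mono_set (hφs.continuous.continuousOn.integrableOn_compact isCompact_Icc)
          (Filter.Eventually.of_forall fun z => bump1.nonneg) hsub'.eventuallyLE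
  -- comparison
  have hψ8 : ∀ z ∈ Icc a b, 0 ≤ psi c z ∧ psi c z ≤ 8 * r ^ 2 := by
    intro z hz
    obtain ⟨h1, h2⟩ := hmem z hz
    refine ⟨by unfold psi; positivity, ?_⟩
    unfold psi
    rw [← sq_abs (z.1 - c.1), ← sq_abs (z.2 - c.2)]
    nlinarith [abs_nonneg (z.1 - c.1), abs_nonneg (z.2 - c.2)]
  have hvolS : volume.real (Icc a b) = 16 * r ^ 2 := by
    rw [← Icc_prod_Icc, Measure.real, Measure.volume_eq_prod, Measure.prod_prod, Real.volume_Icc,
      Real.volume_Icc]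
    rw [ENNReal.toReal_mul, ENNReal.toReal_ofReal (by linarith), ENNReal.toReal_ofReal (by linarith)]
    ring
  have hcmp : ∫ z in Icc a b, (η / 2 * (psi c z * (dp (dp φ) z + dy (dy φ) z)) - 8 * r ^ 2 * (K * η))
      ≤ ∫ z in Icc a b, psi c z * det z := by
    refine setIntegral_mono_on (((continuous_const.mul hΔc).sub continuous_const).continuousOn.integrableOn_compact
      isCompact_Icc) (hcψ.integrableOn_compact isCompact_Icc) measurableSet_Icc fun z hz => ?_
    obtain ⟨p0, p8⟩ := hψ8 z hz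
    have h := mul_le_mul_of_nonneg_left (hall z hz) p0
    simp only [hlow] at h
    have := mul_le_mul_of_nonneg_right p8 (mul_nonneg hK0 hη.le)
    linarith
  have h2c : Continuous fun z => η / 2 * (psi c z * (dp (dp φ) z + dy (dy φ) z)) :=
    continuous_const.mul hΔc
  rw [integral_sub (h2c.continuousOn.integrableOn_compact isCompact_Icc)
    (continuous_const.continuousOn.integrableOn_compact isCompact_Icc), integral_const_mul,
    setIntegral_const, hvolS, smul_eq_mul] at hcmp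
  have h1 : 4 * r ^ 2 ≤ ∫ z in Icc a b, psi c z * (dp (dp φ) z + dy (dy φ) z) := by linarith
  have h2 := mul_le_mul_of_nonneg_left h1 (by positivity : (0 : ℝ) ≤ η / 2)
  have h3 : 128 * K * r ^ 2 < 2 := by nlinarith [mul_nonneg hK0 hr.le]
  nlinarith [mul_lt_mul_of_pos_left h3 (mul_pos hη (pow_pos hr 2))]

end Vale.Agent.P229
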