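import Vale.Agent.P229.Spec

/-
P229: from `FinalSpec` to the statement in terms of a metric tensor.
-/

namespace Vale.Agent.P229

open scoped ContDiff

theorem no_local_realization (h : FinalSpec) :
    ∃ g : ℝ × ℝ → Matrix (Fin 2) (Fin 2) ℝ,
      (∀ i j, ContDiff ℝ ∞ fun z => g z i j) ∧ (∀ z, (g z).PosDef) ∧
      ∀ U : Set (ℝ × ℝ), IsOpen U → (0, 0) ∈ U →
        ¬ ∃ F : ℝ × ℝ → EuclideanSpace ℝ (Fin 3), ContDiffOn ℝ ∞ F U ∧
          ∀ z ∈ U, ∀ i j : Fin 2,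
            inner ℝ (fderiv ℝ F z (![((1 : ℝ), (0 : ℝ)), (0, 1)] i))
              (fderiv ℝ F z (![((1 : ℝ), (0 : ℝ)), (0, 1)] j)) = g z i j := by
  obtain ⟨E, sE, posE, hE⟩ := h
  refine ⟨fun z => Matrix.diagonal fun _ => E z, fun i j => ?_,
    fun z => Matrix.PosDef.diagonal fun _ => posE z, fun U hU h0 => ?_⟩
  · by_cases hij : i = j
    · subst hij; simpa using sE
    · simpa [Matrix.diagonal_apply_ne _ hij] using contDiff_const
  rintro ⟨F, sF, hF⟩
  let Φ := PiLp.continuousLinearEquiv 2 ℝ (fun _ : Fin 3 => ℝ)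
  refine hE U hU h0 ⟨fun z => Φ (F z), Φ.contDiff.comp_contDiffOn sF, fun z hz => ?_⟩
  have hd : DifferentiableAt ℝ F z :=
    (sF.contDiffAt (hU.mem_nhds hz)).differentiableAt (by simp)
  have e : fderiv ℝ (fun v => Φ (F v)) z = (Φ : _ →L[ℝ] _).comp (fderiv ℝ F z) :=
    ((Φ.hasFDerivAt).comp z hd.hasFDerivAt).fderiv
  have key : ∀ a b : EuclideanSpace ℝ (Fin 3), inner ℝ a b = ∑ i, Φ a i * Φ b i := fun a b => by
    rw [PiLp.inner_apply]
    exact Finset.sum_congr rfl fun i _ => by simp [Φ, mul_comm]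
  have h00 := hF z hz 0 0
  have h11 := hF z hz 1 1
  have h01 := hF z hz 0 1
  rw [key] at h00 h11 h01
  rw [e]
  refine ⟨?_, ?_, ?_⟩
  · simpa using h00
  · simpa using h11
  · simpa using h01

end Vale.Agent.P229
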