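import Vale.Agent.P229.LocalCalc

/-
P229: Gauss equation and Darboux equation for an isometric immersion of a conformal metric.
-/

namespace Vale.Agent.P229

open scoped ContDiff

/-- Inner product of two vectors. -/
def dot3 (u v : Fin 3 → ℝ) : ℝ := ∑ i, u i * v i

/-- Cross product. -/
def cross3 (u v : Fin 3 → ℝ) : Fin 3 → ℝ :=
  ![u 1 * v 2 - u 2 * v 1, u 2 * v 0 - u 0 * v 2, u 0 * v 1 - u 1 * v 0]

lemma dot3_comm (u v : Fin 3 → ℝ) : dot3 u v = dot3 v u := by
  simp [dot3, mul_comm]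

lemma dot3_smul_right (u v : Fin 3 → ℝ) (c : ℝ) :
    dot3 u (fun i => c * v i) = c * dot3 u v := by
  simp [dot3, Fin.sum_univ_three]; ring

lemma dot3_cross_left (a b : Fin 3 → ℝ) :
    dot3 (cross3 a b) a = 0 ∧ dot3 (cross3 a b) b = 0 := by
  constructor <;> (simp [dot3, cross3, Fin.sum_univ_three]; ring)

lemma cross3_gram (a b u v : Fin 3 → ℝ) :
    dot3 u (cross3 a b) * dot3 v (cross3 a b)
      = dot3 u v * (dot3 a a * dot3 b b - dot3 a b ^ 2)
        - dot3 u a * (dot3 v a * dot3 b b - dot3 v b * dot3 a b)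
        + dot3 u b * (dot3 v a * dot3 a b - dot3 v b * dot3 a a) := by
  simp [dot3, cross3, Fin.sum_univ_three]; ring

lemma dot3_expand {a b : Fin 3 → ℝ} {E : ℝ} (hE : E ≠ 0) (haa : dot3 a a = E)
    (hbb : dot3 b b = E) (hab : dot3 a b = 0) (u v : Fin 3 → ℝ) :
    E * dot3 u v = dot3 u a * dot3 v a + dot3 u b * dot3 v b
      + E * (dot3 u (fun i => E⁻¹ * cross3 a b i) * dot3 v (fun i => E⁻¹ * cross3 a b i)) := by
  have h := cross3_gram a b u v
  rw [haa, hbb, hab] at h
  rw [dot3_smul_right, dot3_smul_right]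
  field_simp
  linear_combination -h

lemma eq_zero_of_dot3_self {u : Fin 3 → ℝ} (h : dot3 u u = 0) : u = 0 := by
  unfold dot3 at h
  funext i
  have := (Finset.sum_eq_zero_iff_of_nonneg (fun j _ => mul_self_nonneg (u j))).1 h i
    (Finset.mem_univ i)
  exact mul_self_eq_zero.1 this

/-- Derivative of a vector valued map along the first direction, componentwise. -/
noncomputable def vdp (a : P2 → Fin 3 → ℝ) (z : P2) : Fin 3 → ℝ :=
  fun i => dp (fun w => a w i) z

/-- Derivative of a vector valued map along the second direction, componentwise. -/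
noncomputable def vdy (a : P2 → Fin 3 → ℝ) (z : P2) : Fin 3 → ℝ :=
  fun i => dy (fun w => a w i) z

/-- Componentwise smoothness on a set. -/
def Sm (a : P2 → Fin 3 → ℝ) (U : Set P2) : Prop := ∀ i, ContDiffOn ℝ ∞ (fun w => a w i) U

variable {U : Set P2} {a b : P2 → Fin 3 → ℝ} {z : P2}

lemma Sm.vdp (ha : Sm a U) (hU : IsOpen U) : Sm (Vale.Agent.P229.vdp a) U :=
  fun i => smoothOn_dp (ha i) hU

lemma Sm.vdy (ha : Sm a U) (hU : IsOpen U) : Sm (Vale.Agent.P229.vdy a) U :=
  fun i => smoothOn_dy (ha i) hU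

lemma Sm.diff (ha : Sm a U) (hU : IsOpen U) (hz : z ∈ U) (i : Fin 3) :
    DifferentiableAt ℝ (fun w => a w i) z :=
  diffAt_of_smoothOn (ha i) hU hz

lemma smoothOn_dot3 (ha : Sm a U) (hb : Sm b U) :
    ContDiffOn ℝ ∞ (fun w => dot3 (a w) (b w)) U :=
  ContDiffOn.sum fun i _ => (ha i).mul (hb i)

lemma dp_dot3 (hU : IsOpen U) (ha : Sm a U) (hb : Sm b U) (hz : z ∈ U) :
    dp (fun w => dot3 (a w) (b w)) z = dot3 (vdp a z) (b z) + dot3 (a z) (vdp b z) := by
  have hm : ∀ i, DifferentiableAt ℝ (fun w => a w i * b w i) z :=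
    fun i => (ha.diff hU hz i).mul (hb.diff hU hz i)
  have e : (fun w => dot3 (a w) (b w))
      = fun w => a w 0 * b w 0 + a w 1 * b w 1 + a w 2 * b w 2 := by
    funext w; simp [dot3, Fin.sum_univ_three]
  rw [e, dp_add (f := fun w => a w 0 * b w 0 + a w 1 * b w 1) ((hm 0).add (hm 1)) (hm 2), dp_add (hm 0) (hm 1),
    dp_mul (ha.diff hU hz 0) (hb.diff hU hz 0), dp_mul (ha.diff hU hz 1) (hb.diff hU hz 1),
    dp_mul (ha.diff hU hz 2) (hb.diff hU hz 2)]
  simp [dot3, vdp, Fin.sum_univ_three]; ring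

lemma dy_dot3 (hU : IsOpen U) (ha : Sm a U) (hb : Sm b U) (hz : z ∈ U) :
    dy (fun w => dot3 (a w) (b w)) z = dot3 (vdy a z) (b z) + dot3 (a z) (vdy b z) := by
  have hm : ∀ i, DifferentiableAt ℝ (fun w => a w i * b w i) z :=
    fun i => (ha.diff hU hz i).mul (hb.diff hU hz i)
  have e : (fun w => dot3 (a w) (b w))
      = fun w => a w 0 * b w 0 + a w 1 * b w 1 + a w 2 * b w 2 := by
    funext w; simp [dot3, Fin.sum_univ_three]
  rw [e, dy_add (f := fun w => a w 0 * b w 0 + a w 1 * b w 1) ((hm 0).add (hm 1)) (hm 2), dy_add (hm 0) (hm 1),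
    dy_mul (ha.diff hU hz 0) (hb.diff hU hz 0), dy_mul (ha.diff hU hz 1) (hb.diff hU hz 1),
    dy_mul (ha.diff hU hz 2) (hb.diff hU hz 2)]
  simp [dot3, vdy, Fin.sum_univ_three]; ring

lemma vdy_vdp (hU : IsOpen U) (ha : Sm a U) (hz : z ∈ U) :
    vdy (vdp a) z = vdp (vdy a) z := funext fun i => dy_dp_on (ha i) hU hz

theorem surface : SurfaceSpec := by
  intro E U F hU hEs hEpos hF
  obtain ⟨hFs, hFiso⟩ := hF
  have hE : ContDiffOn ℝ ∞ E U := hEs.contDiffOn
  have hFi : Sm F U := fun i => contDiffOn_pi.1 hFs i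
  set a := vdp F with hadef
  set b := vdy F with hbdef
  have ha : Sm a U := hFi.vdp hU
  have hb : Sm b U := hFi.vdy hU
  have hFd : ∀ z ∈ U, DifferentiableAt ℝ F z := fun z hz =>
    (hFs.contDiffAt (hU.mem_nhds hz)).differentiableAt (by simp)
  have hcomp : ∀ z ∈ U, ∀ i, fderiv ℝ F z (1, 0) i = a z i ∧ fderiv ℝ F z (0, 1) i = b z i := by
    intro z hz i
    simp [hadef, hbdef, vdp, vdy, dp, dy, fderiv_apply (hFd z hz) i]
  have haa : ∀ z ∈ U, dot3 (a z) (a z) = E z := by
    intro z hz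
    simpa [dot3, fun i => (hcomp z hz i).1] using (hFiso z hz).1
  have hbb : ∀ z ∈ U, dot3 (b z) (b z) = E z := by
    intro z hz
    simpa [dot3, fun i => (hcomp z hz i).2] using (hFiso z hz).2.1
  have hab : ∀ z ∈ U, dot3 (a z) (b z) = 0 := by
    intro z hz
    simpa [dot3, fun i => (hcomp z hz i).1, fun i => (hcomp z hz i).2] using (hFiso z hz).2.2
  let N : P2 → Fin 3 → ℝ := fun z i => (E z)⁻¹ * cross3 (a z) (b z) i
  have hN : Sm N U := by
    intro i
    refine (hE.inv fun z _ => (hEpos z).ne').mul ?_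
    fin_cases i <;> simp [cross3]
    · exact ((ha 1).mul (hb 2)).sub ((ha 2).mul (hb 1))
    · exact ((ha 2).mul (hb 0)).sub ((ha 0).mul (hb 2))
    · exact ((ha 0).mul (hb 1)).sub ((ha 1).mul (hb 0))
  have hNa : ∀ z, dot3 (a z) (N z) = 0 ∧ dot3 (b z) (N z) = 0 := by
    intro z
    obtain ⟨h1, h2⟩ := dot3_cross_left (a z) (b z)
    simp only [N, dot3_smul_right]
    rw [dot3_comm (a z), dot3_comm (b z), h1, h2]
    simp
  have hexp : ∀ z ∈ U, ∀ u v : Fin 3 → ℝ, E z * dot3 u v
      = dot3 u (a z) * dot3 v (a z) + dot3 u (b z) * dot3 v (b z)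
        + E z * (dot3 u (N z) * dot3 v (N z)) :=
    fun z hz u v => dot3_expand (hEpos z).ne' (haa z hz) (hbb z hz) (hab z hz) u v
  have hNN : ∀ z ∈ U, dot3 (N z) (N z) = 1 := by
    intro z hz
    have hc : dot3 (cross3 (a z) (b z)) (cross3 (a z) (b z)) = E z * E z := by
      have e1 : dot3 (cross3 (a z) (b z)) (cross3 (a z) (b z))
          = dot3 (a z) (a z) * dot3 (b z) (b z) - dot3 (a z) (b z) ^ 2 := by
        simp [dot3, cross3, Fin.sum_univ_three]; ring
      rw [haa z hz, hbb z hz, hab z hz] at e1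
      linear_combination e1
    show dot3 (fun i => (E z)⁻¹ * cross3 (a z) (b z) i) (fun i => (E z)⁻¹ * cross3 (a z) (b z) i) = 1
    rw [dot3_smul_right, dot3_comm, dot3_smul_right, hc]
    field_simp [(hEpos z).ne']
  set A := vdp a with hAdef
  set B := vdp b with hBdef
  set C := vdy b with hCdef
  have hA : Sm A U := ha.vdp hU
  have hB : Sm B U := hb.vdp hU
  have hC : Sm C U := hb.vdy hU
  have hBa : ∀ z ∈ U, vdy a z = B z := fun z hz => vdy_vdp hU hFi hz
  -- first derivatives of the metric identities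
  have e1 : ∀ z ∈ U, dot3 (A z) (a z) = dp E z / 2 := by
    intro z hz
    have h := dp_dot3 hU ha ha hz
    rw [dp_eq_of_eqOn hU (fun w hw => haa w hw) hz, dot3_comm (a z)] at h
    linarith
  have e2 : ∀ z ∈ U, dot3 (B z) (a z) = dy E z / 2 := by
    intro z hz
    have h := dy_dot3 hU ha ha hz
    rw [dy_eq_of_eqOn hU (fun w hw => haa w hw) hz, dot3_comm (a z), hBa z hz] at h
    linarith
  have e3 : ∀ z ∈ U, dot3 (B z) (b z) = dp E z / 2 := by
    intro z hz
    have h := dp_dot3 hU hb hb hz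
    rw [dp_eq_of_eqOn hU (fun w hw => hbb w hw) hz, dot3_comm (b z)] at h
    linarith
  have e4 : ∀ z ∈ U, dot3 (C z) (b z) = dy E z / 2 := by
    intro z hz
    have h := dy_dot3 hU hb hb hz
    rw [dy_eq_of_eqOn hU (fun w hw => hbb w hw) hz, dot3_comm (b z)] at h
    linarith
  have e5 : ∀ z ∈ U, dot3 (A z) (b z) = -(dy E z) / 2 := by
    intro z hz
    have h := dp_dot3 hU ha hb hz
    rw [dp_eq_of_eqOn hU (g := fun _ => (0 : ℝ)) (fun w hw => hab w hw) hz,
      dot3_comm (a z)] at h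
    have h0 : dp (fun _ : P2 => (0 : ℝ)) z = 0 := by simp [dp]
    rw [h0, e2 z hz] at h
    linarith
  have e6 : ∀ z ∈ U, dot3 (C z) (a z) = -(dp E z) / 2 := by
    intro z hz
    have h := dy_dot3 hU ha hb hz
    rw [dy_eq_of_eqOn hU (g := fun _ => (0 : ℝ)) (fun w hw => hab w hw) hz,
      hBa z hz, dot3_comm (a z)] at h
    have h0 : dy (fun _ : P2 => (0 : ℝ)) z = 0 := by simp [dy]
    rw [h0, e3 z hz] at h
    linarith
  refine ⟨N, fun z => dot3 (A z) (N z), fun z => dot3 (B z) (N z), fun z => dot3 (C z) (N z),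
    contDiffOn_pi.2 hN, smoothOn_dot3 hA hN, smoothOn_dot3 hB hN, smoothOn_dot3 hC hN, ?_⟩
  intro z hz
  have hE0 := (hEpos z).ne'
  refine ⟨hNN z hz, ?_, ?_, ?_⟩
  · -- Gauss
    have gAC := hexp z hz (A z) (C z)
    have gBB := hexp z hz (B z) (B z)
    rw [e1 z hz, e5 z hz, e6 z hz, e4 z hz] at gAC
    rw [e2 z hz, e3 z hz] at gBB
    have k1 : dot3 (A z) (C z) - dot3 (B z) (B z)
        = dy (fun w => dot3 (A w) (b w)) z - dp (fun w => dot3 (B w) (b w)) z := by
      rw [dy_dot3 hU hA hb hz, dp_dot3 hU hB hb hz]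
      have : vdy A z = vdp B z := by
        rw [hAdef, vdy_vdp hU ha hz]
        funext i
        exact dp_eq_of_eqOn hU (fun w hw => congrFun (hBa w hw) i) hz
      rw [this]; ring
    rw [dy_eq_of_eqOn hU (g := fun w => -(dy E w) / 2) (fun w hw => e5 w hw) hz,
      dp_eq_of_eqOn hU (g := fun w => dp E w / 2) (fun w hw => e3 w hw) hz] at k1
    have hdy : DifferentiableAt ℝ (dy E) z := diffAt_of_smoothOn (smoothOn_dy hE hU) hU hz
    have hdp : DifferentiableAt ℝ (dp E) z := diffAt_of_smoothOn (smoothOn_dp hE hU) hU hz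
    have k2 : dy (fun w => -(dy E w) / 2) z = -(dy (dy E) z) / 2 := by
      have : (fun w => -(dy E w) / 2) = fun w => (-1 / 2 : ℝ) * dy E w := by funext w; ring
      rw [this, dy_mul (differentiableAt_const _) hdy]
      simp [dy]; ring
    have k3 : dp (fun w => dp E w / 2) z = dp (dp E) z / 2 := by
      have : (fun w => dp E w / 2) = fun w => (1 / 2 : ℝ) * dp E w := by funext w; ring
      rw [this, dp_mul (differentiableAt_const _) hdp]
      simp [dp]; ring
    rw [k2, k3] at k1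
    simp only [curvTerm]
    field_simp
    linear_combination (-2 : ℝ) * gAC + (2 : ℝ) * gBB + (2 * E z) * k1
  · -- vanishing second fundamental form
    intro h11 h12 h22
    have hNd : DifferentiableAt ℝ N z :=
      differentiableAt_pi.2 fun i => hN.diff hU hz i
    have p1 : ∀ w ∈ U, dot3 (a w) (N w) = 0 := fun w _ => (hNa w).1
    have p2 : ∀ w ∈ U, dot3 (b w) (N w) = 0 := fun w _ => (hNa w).2
    have c1 : vdp N z = 0 := by
      have q1 := dp_dot3 hU ha hN hz
      have q2 := dp_dot3 hU hb hN hz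
      have q3 := dp_dot3 hU hN hN hz
      rw [dp_eq_of_eqOn hU (g := fun _ => (0 : ℝ)) p1 hz] at q1
      rw [dp_eq_of_eqOn hU (g := fun _ => (0 : ℝ)) p2 hz] at q2
      rw [dp_eq_of_eqOn hU (g := fun _ => (1 : ℝ)) hNN hz, dot3_comm (N z)] at q3
      have h0 : dp (fun _ : P2 => (0 : ℝ)) z = 0 := by simp [dp]
      have h1 : dp (fun _ : P2 => (1 : ℝ)) z = 0 := by simp [dp]
      rw [h0, dot3_comm (a z)] at q1
      rw [h0, dot3_comm (b z)] at q2
      rw [h1] at q3
      apply eq_zero_of_dot3_self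
      have := hexp z hz (vdp N z) (vdp N z)
      have r1 : dot3 (vdp N z) (a z) = 0 := by simp only [← hAdef] at q1; linarith
      have r2 : dot3 (vdp N z) (b z) = 0 := by simp only [← hBdef] at q2; linarith
      have r3 : dot3 (vdp N z) (N z) = 0 := by linarith
      rw [r1, r2, r3] at this
      simpa [hE0] using this
    have c2 : vdy N z = 0 := by
      have q1 := dy_dot3 hU ha hN hz
      have q2 := dy_dot3 hU hb hN hz
      have q3 := dy_dot3 hU hN hN hz
      rw [dy_eq_of_eqOn hU (g := fun _ => (0 : ℝ)) p1 hz] at q1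
      rw [dy_eq_of_eqOn hU (g := fun _ => (0 : ℝ)) p2 hz] at q2
      rw [dy_eq_of_eqOn hU (g := fun _ => (1 : ℝ)) hNN hz, dot3_comm (N z)] at q3
      have h0 : dy (fun _ : P2 => (0 : ℝ)) z = 0 := by simp [dy]
      have h1 : dy (fun _ : P2 => (1 : ℝ)) z = 0 := by simp [dy]
      rw [h0, dot3_comm (a z), hBa z hz] at q1
      rw [h0, dot3_comm (b z)] at q2
      rw [h1] at q3
      apply eq_zero_of_dot3_self
      have := hexp z hz (vdy N z) (vdy N z)
      have r1 : dot3 (vdy N z) (a z) = 0 := by linarith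
      have r2 : dot3 (vdy N z) (b z) = 0 := by simp only [← hCdef] at q2; linarith
      have r3 : dot3 (vdy N z) (N z) = 0 := by linarith
      rw [r1, r2, r3] at this
      simpa [hE0] using this
    refine fderiv_eq_zero_of_partials (funext fun i => ?_) (funext fun i => ?_)
    · have := congrFun c1 i
      simpa [vdp, dp, fderiv_apply hNd i] using this
    · have := congrFun c2 i
      simpa [vdy, dy, fderiv_apply hNd i] using this
  · -- Darboux
    intro e
    have he : Sm (fun _ : P2 => e) U := fun i => contDiffOn_const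
    have hv1 : ∀ (w : P2), vdp (fun _ : P2 => e) w = 0 := fun w => funext fun i => by simp [vdp, dp]
    have hv2 : ∀ (w : P2), vdy (fun _ : P2 => e) w = 0 := fun w => funext fun i => by simp [vdy, dy]
    have hz0 : ∀ v : Fin 3 → ℝ, dot3 0 v = 0 := fun v => by simp [dot3]
    have z1 : ∀ w ∈ U, dp (height F e) w = dot3 e (a w) := by
      intro w hw
      have := dp_dot3 hU he hFi hw
      rw [hv1 w, hz0, zero_add] at this
      exact this
    have z2 : ∀ w ∈ U, dy (height F e) w = dot3 e (b w) := by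
      intro w hw
      have := dy_dot3 hU he hFi hw
      rw [hv2 w, hz0, zero_add] at this
      exact this
    have z11 : dp (dp (height F e)) z = dot3 e (A z) := by
      rw [dp_eq_of_eqOn hU z1 hz, dp_dot3 hU he ha hz, hv1 z, hz0, zero_add]
    have z12 : dy (dp (height F e)) z = dot3 e (B z) := by
      rw [dy_eq_of_eqOn hU z1 hz, dy_dot3 hU he ha hz, hv2 z, hz0, zero_add, hBa z hz]
    have z22 : dy (dy (height F e)) z = dot3 e (C z) := by
      rw [dy_eq_of_eqOn hU z2 hz, dy_dot3 hU he hb hz, hv2 z, hz0, zero_add]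
    have gA := hexp z hz e (A z)
    have gB := hexp z hz e (B z)
    have gC := hexp z hz e (C z)
    have ge := hexp z hz e e
    rw [e1 z hz, e5 z hz] at gA
    rw [e2 z hz, e3 z hz] at gB
    rw [e6 z hz, e4 z hz] at gC
    have hs : (∑ i, e i * N z i) = dot3 e (N z) := rfl
    have hee : (∑ i, e i * e i) = dot3 e e := rfl
    refine ⟨?_, ?_, ?_, ?_⟩
    · rw [hess11, z11, z1 z hz, z2 z hz, hs]
      field_simp
      linear_combination 2 * gA
    · rw [hess12, z12, z1 z hz, z2 z hz, hs]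
      field_simp
      linear_combination 2 * gB
    · rw [hess22, z22, z1 z hz, z2 z hz, hs]
      field_simp
      linear_combination 2 * gC
    · rw [z1 z hz, z2 z hz, hs, hee]
      linear_combination ge

end Vale.Agent.P229
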